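import Vale.Agent.P217.Defs

/-!
The valued field of characteristic p used for points: Hahn series with rational exponents over
an algebraic closure of F_p.
-/

namespace Vale.Agent.P217

noncomputable section

variable (p : ℕ) [Fact p.Prime]

/-- The residue field of `C p`. -/
abbrev Kb : Type := AlgebraicClosure (ZMod p)

/-- Hahn series with rational exponents over the algebraic closure of F_p. -/
abbrev C : Type := HahnSeries ℚ (Kb p)

variable {p}

/-- The valuation of `C p`. -/
abbrev ord (x : C p) : WithTop ℚ := x.orderTop

theorem ord_mul (x y : C p) : ord (x * y) = ord x + ord y := HahnSeries.orderTop_mul x y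

theorem ord_add (x y : C p) : min (ord x) (ord y) ≤ ord (x + y) :=
  HahnSeries.min_orderTop_le_orderTop_add

theorem ord_one : ord (1 : C p) = 0 := HahnSeries.orderTop_one

theorem ord_pow (x : C p) (m : ℕ) : ord (x ^ m) = m • ord x := by
  induction m with
  | zero => simp [ord_one]
  | succ m ih => rw [pow_succ, ord_mul, ih, succ_nsmul]

instance : CharP (C p) p :=
  charP_of_injective_ringHom (HahnSeries.C_injective : Function.Injective
    (HahnSeries.C : Kb p →+* C p)) p

variable (p)

/-- The valuation ring of `C p`. -/
def OC : Subring (C p) where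
  carrier := {x | 0 ≤ ord x}
  mul_mem' := fun {x y} hx hy => by
    simp only [Set.mem_setOf_eq, ord_mul]
    exact add_nonneg hx hy
  one_mem' := by simp [ord_one]
  add_mem' := fun {x y} hx hy => (le_min hx hy).trans (ord_add x y)
  zero_mem' := by simp
  neg_mem' := fun {x} hx => by simpa [HahnSeries.orderTop_neg] using hx

theorem mem_OC {x : C p} : x ∈ OC p ↔ 0 ≤ ord x := Iff.rfl

/-- The scalar t^q. -/
def tpow (q : ℚ) : C p := HahnSeries.single q 1

theorem ord_tpow (q : ℚ) : ord (tpow p q) = q := by
  simp [tpow, HahnSeries.orderTop_single]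

theorem tpow_add (q r : ℚ) : tpow p (q + r) = tpow p q * tpow p r := by
  simp [tpow, HahnSeries.single_mul_single]

/-- The p-th root. -/
def root (x : C p) : C p :=
  HahnSeries.embDomain
    (OrderEmbedding.ofStrictMono (fun q : ℚ => q / (p : ℚ))
      (fun _ _ h => div_lt_div_of_pos_right h (Nat.cast_pos.mpr (Fact.out : p.Prime).pos)))
    (x.map (frobeniusEquiv (Kb p) p).symm)

/-- The power x^(p^j) for an integer j. -/
def powZ (x : C p) : ℤ → C p
  | Int.ofNat j => x ^ (p ^ j)
  | Int.negSucc j => (root p)^[j + 1] x

/-- A family in `C p` tends to zero: only finitely many members have valuation at most any bound. -/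
def IsNull {ι : Type*} (a : ι → C p) : Prop :=
  ∀ B : ℚ, {i | ord (a i) ≤ B}.Finite

/-- `s` is the sum of a null family. -/
def HasSumC {ι : Type*} (a : ι → C p) (s : C p) : Prop :=
  IsNull p a ∧ ∀ B : ℚ, ∃ t : Finset ι, ∀ t' : Finset ι, t ⊆ t' →
    (B : WithTop ℚ) < ord (s - ∑ i ∈ t', a i)

/-- `y` is the value at `a` of the power series `f`, coefficients mapped by `c`. -/
def HasEvalC {σ : Type*} [Fintype σ] {R : Type*} [CommRing R] (c : R →+* C p)
    (f : MvPowerSeries σ R) (a : σ → C p) (y : C p) : Prop :=
  HasSumC p (fun d : σ →₀ ℕ => c (MvPowerSeries.coeff d f) * ∏ i, a i ^ d i) y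

/-- The sum of a null family. -/
def sumC {ι : Type*} (a : ι → C p) : C p :=
  open Classical in if h : ∃ s, HasSumC p a s then h.choose else 0

/-- The value at `a` of the series `f`, coefficients mapped by `c`. -/
def evalC {σ : Type*} [Fintype σ] {R : Type*} [CommRing R] (c : R →+* C p)
    (f : MvPowerSeries σ R) (a : σ → C p) : C p :=
  sumC p (fun d : σ →₀ ℕ => c (MvPowerSeries.coeff d f) * ∏ i, a i ^ d i)

/-- The value at `a` of a series in one variable. -/
def eval₁C {R : Type*} [CommRing R] (c : R →+* C p) (f : PowerSeries R) (a : C p) : C p :=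
  evalC p c (f : MvPowerSeries Unit R) (fun _ => a)

/-- Addition of points for a formal group law. -/
def fadd {R : Type*} [CommRing R] (c : R →+* C p) (G : FormalGroup R) (x y : C p) : C p :=
  evalC p c (G : MvPowerSeries (Fin 2) R) ![x, y]

/-- Sum of finitely many points for a formal group law. -/
def fsum {R : Type*} [CommRing R] (c : R →+* C p) (G : FormalGroup R) :
    {r : ℕ} → (Fin r → C p) → C p
  | 0, _ => 0
  | _ + 1, x => fadd p c G (x 0) (fsum c G (fun i => x i.succ))

end

end Vale.Agent.P217
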