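import Vale.Agent.P217.Rigid.Points

/-!
P217, module M9: rigidity. A set of points closed under the Honda sum and under q-th powers on
which a nonzero series vanishes satisfies a linear relation by endomorphisms.
-/

namespace Vale.Agent.P217.Rigid

noncomputable section

open MvPowerSeries

variable {p : ℕ} [Fact p.Prime]

/-- The unit vector carrying `u` at place `i`. -/
def unitVec {r : ℕ} (i : Fin r) (u : C p) : Fin r → C p := fun l => if l = i then u else 0

theorem unitVec_pos {r : ℕ} (i : Fin r) {u : C p} (hu : 0 < ord u) (l : Fin r) :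
    0 < ord (unitVec i u l) := by
  unfold unitVec
  split_ifs
  · exact hu
  · exact ord_zero_pos

/-- An additive function of several points is the sum of its restrictions to the axes. -/
theorem additive_eq_fsum (H : FormalGroup (Kb p)) :
    ∀ {r : ℕ} (F : (Fin r → C p) → C p), F (fun _ => 0) = 0 →
      (∀ x y, (∀ i, 0 < ord (x i)) → (∀ i, 0 < ord (y i)) →
        F (fun i => padd H (x i) (y i)) = padd H (F x) (F y)) →
      ∀ x, (∀ i, 0 < ord (x i)) →
        F x = fsum p HahnSeries.C H fun i => F (unitVec i (x i))
  | 0, F, h0, _, x, _ => by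
    rw [show x = fun _ => 0 from funext fun i => i.elim0, h0]
    rfl
  | r + 1, F, h0, hF, x, hx => by
    have hcons : ∀ t : Fin r → C p, (∀ i, 0 < ord (t i)) →
        ∀ i, 0 < ord ((Fin.cons 0 t : Fin (r + 1) → C p) i) := fun t ht i => by
      induction i using Fin.cases with
      | zero => simp
      | succ i => simpa using ht i
    have hz : (Fin.cons 0 fun _ => 0 : Fin (r + 1) → C p) = fun _ => 0 := by
      funext i; induction i using Fin.cases <;> simp
    have ih := additive_eq_fsum H (fun t => F (Fin.cons 0 t)) (by rw [hz, h0])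
      (fun a b ha hb => by
        rw [← hF _ _ (hcons a ha) (hcons b hb)]
        congr 1
        funext i
        induction i using Fin.cases with
        | zero => simpa using (padd_zero H ord_zero_pos).symm
        | succ i => simp)
      (fun i => x i.succ) (fun i => hx _)
    have hsplit : x = fun i => padd H (unitVec 0 (x 0) i)
        ((Fin.cons 0 fun i => x i.succ : Fin (r + 1) → C p) i) := by
      funext i
      induction i using Fin.cases with
      | zero => simp [unitVec, padd_zero H (hx 0)]
      | succ i => simp [unitVec, Fin.succ_ne_zero, zero_padd H (hx i.succ)]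
    have hunit : ∀ (i : Fin r) (u : C p),
        (Fin.cons 0 (unitVec i u) : Fin (r + 1) → C p) = unitVec i.succ u := by
      intro i u
      funext l
      induction l using Fin.cases with
      | zero => simp [unitVec, (Fin.succ_ne_zero i).symm]
      | succ l => simp [unitVec, Fin.succ_inj]
    conv_lhs => rw [hsplit]
    rw [hF _ _ (unitVec_pos 0 (hx 0)) (hcons _ fun i => hx _), ih]
    simp only [hunit]
    rfl

variable {σ : Type*} [Fintype σ]

/-- The defect of additivity of a series. -/
def defect (H : FormalGroup (Kb p)) (φ : MvPowerSeries σ (Kb p)) :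
    MvPowerSeries (σ ⊕ σ) (Kb p) :=
  shift H φ - (H : MvPowerSeries (Fin 2) (Kb p)).subst
    ![subst (fun i => X (Sum.inl i)) φ, subst (fun i => X (Sum.inr i)) φ]

theorem hasSubst_inl :
    HasSubst (fun i : σ => (X (Sum.inl i) : MvPowerSeries (σ ⊕ σ) (Kb p))) :=
  hasSubst_of_constantCoeff_zero fun _ => constantCoeff_X _

theorem hasSubst_inr :
    HasSubst (fun i : σ => (X (Sum.inr i) : MvPowerSeries (σ ⊕ σ) (Kb p))) :=
  hasSubst_of_constantCoeff_zero fun _ => constantCoeff_X _

theorem ev_defect (H : FormalGroup (Kb p)) {φ : MvPowerSeries σ (Kb p)}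
    (hφ : constantCoeff φ = 0) {x y : σ → C p}
    (hx : ∀ i, 0 < ord (x i)) (hy : ∀ i, 0 < ord (y i)) :
    ev (defect H φ) (Sum.elim x y) =
      ev φ (fun i => padd H (x i) (y i)) - padd H (ev φ x) (ev φ y) := by
  have hxy : ∀ s, 0 < ord (Sum.elim x y s) := fun s => by cases s <;> simp [hx, hy]
  rw [← ev_shift H φ hx hy, ev, defect,
    evalC_sub (intCoeff_residue _) (intCoeff_residue _) hxy,
    evalC_fgl_subst (intCoeff_residue _) (intCoeff_residue _) (intCoeff_residue _)
      (constantCoeff_subst_eq_zero hasSubst_inl (fun _ => constantCoeff_X _) hφ)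
      (constantCoeff_subst_eq_zero hasSubst_inr (fun _ => constantCoeff_X _) hφ) hxy,
    evalC_subst (intCoeff_residue _) (fun _ => intCoeff_residue _)
      (fun _ => constantCoeff_X _) hxy,
    evalC_subst (intCoeff_residue _) (fun _ => intCoeff_residue _)
      (fun _ => constantCoeff_X _) hxy]
  simp only [evalC_X, Sum.elim_inl, Sum.elim_inr]

/-- The restriction of a series to an axis. -/
def axis [DecidableEq σ] (φ : MvPowerSeries σ (Kb p)) (i : σ) : PowerSeries (Kb p) :=
  subst (fun l => if l = i then PowerSeries.X else 0) φ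

theorem isHom_axis [DecidableEq σ] (H : FormalGroup (Kb p)) {φ : MvPowerSeries σ (Kb p)}
    (hφ : constantCoeff φ = 0) (hD : defect H φ = 0) (i : σ) :
    IsHom H H (axis φ i) := by
  have hs : HasSubst (fun l => if l = i then PowerSeries.X else 0 :
      σ → PowerSeries (Kb p)) :=
    hasSubst_of_constantCoeff_zero fun l => by
      split_ifs
      · exact PowerSeries.constantCoeff_X
      · exact map_zero _
  have hax : ∀ a : MvPowerSeries (Fin 2) (Kb p), PowerSeries.HasSubst a →
      PowerSeries.subst a (axis φ i) = subst (fun l => if l = i then a else 0) φ := by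
    intro a ha
    rw [axis, PowerSeries.subst, subst_comp_subst_apply hs ha.const]
    congr 1
    funext l
    split_ifs
    · exact PowerSeries.subst_X ha
    · rw [← coe_substAlgHom ha.const, map_zero]
  refine ⟨constantCoeff_subst_eq_zero hs (fun l => by
    split_ifs
    · exact PowerSeries.constantCoeff_X
    · exact map_zero _) hφ, ?_⟩
  rw [hax _ (PowerSeries.HasSubst.of_constantCoeff_zero H.zero_constantCoeff),
    hax _ (PowerSeries.HasSubst.X 0), hax _ (PowerSeries.HasSubst.X 1)]
  let c : σ ⊕ σ → MvPowerSeries (Fin 2) (Kb p) :=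
    Sum.elim (fun l => if l = i then X 0 else 0) (fun l => if l = i then X 1 else 0)
  have hc : HasSubst c := hasSubst_of_constantCoeff_zero fun s => by
    rcases s with l | l <;> simp only [c, Sum.elim_inl, Sum.elim_inr] <;> split_ifs <;> simp
  have hpair : ∀ f g : MvPowerSeries (σ ⊕ σ) (Kb p), constantCoeff f = 0 → constantCoeff g = 0 →
      subst c ((H : MvPowerSeries (Fin 2) (Kb p)).subst ![f, g]) =
        (H : MvPowerSeries (Fin 2) (Kb p)).subst ![subst c f, subst c g] := by
    intro f g hf hg
    rw [subst_comp_subst_apply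
      (hasSubst_of_constantCoeff_zero fun s => by fin_cases s <;> simpa) hc]
    congr 1
    funext s
    fin_cases s <;> rfl
  have h1 : subst c (shift H φ) = subst c ((H : MvPowerSeries (Fin 2) (Kb p)).subst
      ![subst (fun i => X (Sum.inl i)) φ, subst (fun i => X (Sum.inr i)) φ]) :=
    congrArg (subst c) (sub_eq_zero.mp hD)
  rw [shift, subst_comp_subst_apply (hasSubst_shiftVar H) hc,
    hpair _ _ (constantCoeff_subst_eq_zero hasSubst_inl (fun _ => constantCoeff_X _) hφ)
      (constantCoeff_subst_eq_zero hasSubst_inr (fun _ => constantCoeff_X _) hφ),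
    subst_comp_subst_apply hasSubst_inl hc, subst_comp_subst_apply hasSubst_inr hc] at h1
  simp only [subst_X hc, c, Sum.elim_inl, Sum.elim_inr] at h1
  refine Eq.trans ?_ h1
  congr 1
  funext l
  rw [shiftVar, hpair _ _ (constantCoeff_X _) (constantCoeff_X _), subst_X hc, subst_X hc]
  simp only [c, Sum.elim_inl, Sum.elim_inr]
  split_ifs
  · have h : (![X 0, X 1] : Fin 2 → MvPowerSeries (Fin 2) (Kb p)) = X := by
      funext s; fin_cases s <;> rfl
    rw [h, subst_self, id_eq]
  · have h : (![0, 0] : Fin 2 → MvPowerSeries (Fin 2) (Kb p)) = 0 := by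
      funext s; fin_cases s <;> rfl
    rw [h, subst_zero_of_constantCoeff_zero H.zero_constantCoeff]

theorem eval₁C_axis {r : ℕ} {φ : MvPowerSeries (Fin r) (Kb p)} (i : Fin r) {u : C p}
    (hu : 0 < ord u) : eval₁C p HahnSeries.C (axis φ i) u = ev φ (unitVec i u) := by
  rw [eval₁C, axis]
  rw [evalC_subst (intCoeff_residue _) (fun _ => intCoeff_residue _) (fun l => by
    split_ifs
    · exact PowerSeries.constantCoeff_X
    · exact map_zero _) (fun _ => hu)]
  refine congrArg (evalC p HahnSeries.C φ) (funext fun l => ?_)
  unfold unitVec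
  split_ifs
  · exact evalC_X _
  · exact evalC_zero

theorem padd_neg (H : FormalGroup (Kb p)) [H.IsComm] {ι : PowerSeries (Kb p)}
    (hι : PowerSeries.constantCoeff ι = 0)
    (h : (H : MvPowerSeries (Fin 2) (Kb p)).subst ![PowerSeries.X, ι] = (0 : PowerSeries (Kb p)))
    {u : C p} (hu : 0 < ord u) : padd H (eval₁C p HahnSeries.C ι u) u = 0 := by
  rw [padd_comm H (ord_eval₁C_pos (intCoeff_residue _) hι hu) hu]
  have h2 : evalC p HahnSeries.C
      ((H : MvPowerSeries (Fin 2) (Kb p)).subst ![PowerSeries.X, ι]) (fun _ : Unit => u) =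
      evalC p HahnSeries.C (0 : MvPowerSeries Unit (Kb p)) (fun _ : Unit => u) :=
    congrArg (fun F : MvPowerSeries Unit (Kb p) => evalC p HahnSeries.C F fun _ : Unit => u) h
  rw [evalC_fgl_subst (intCoeff_residue _) (intCoeff_residue _) (intCoeff_residue _)
    PowerSeries.constantCoeff_X hι (fun _ : Unit => hu), evalC_zero] at h2
  have hX : evalC p HahnSeries.C (PowerSeries.X : MvPowerSeries Unit (Kb p))
      (fun _ : Unit => u) = u := eval₁C_X
  rw [hX] at h2
  exact h2

/-- A series vanishing on a stable set yields a linear relation by endomorphisms. -/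
theorem exists_relation {h : ℕ} (hh : 1 ≤ h) (H : FormalGroup (Kb p)) [H.IsComm] :
    ∀ (r : ℕ) (S : Set (Fin r → C p)), 0 < r →
    ∀ hpos : ∀ x ∈ S, ∀ i, 0 < ord (x i),
    (∀ x ∈ S, ∀ y ∈ S, (fun i => padd H (x i) (y i)) ∈ S) →
    (∀ x ∈ S, (fun i => x i ^ p ^ h) ∈ S) →
    vanishing S hpos ≠ ⊥ →
      ∃ φ : Fin r → PowerSeries (Kb p), (∀ i, IsHom H H (φ i)) ∧ φ ≠ 0 ∧
        ∀ x ∈ S, fsum p HahnSeries.C H (fun i => eval₁C p HahnSeries.C (φ i) (x i)) = 0
  | 0, _, h0, _, _, _, _ => absurd h0 (lt_irrefl 0)
  | r + 1, S, _, hpos, hadd, hfrob, hbot => by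
    classical
    rcases S.eq_empty_or_nonempty with hS | hS
    · refine ⟨fun _ => PowerSeries.X, fun _ => isHom_X H, fun hc => PowerSeries.X_ne_zero
        (congrFun hc 0), fun x hx => ?_⟩
      rw [hS] at hx
      exact absurd hx (Set.notMem_empty x)
    obtain ⟨G, hG, j, hj⟩ := exists_linear_coeff hh H hS hpos hadd hfrob hbot
    have hG0 : constantCoeff G = 0 := by
      obtain ⟨x, hx⟩ := hS
      exact constantCoeff_eq_zero (hpos x hx) (hG x hx)
    set b : Fin (r + 1) → MvPowerSeries (Fin r) (Kb p) := j.insertNth 0 X with hb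
    have hb0 : ∀ i, constantCoeff (b i) = 0 := by
      intro i
      induction i using j.succAboveCases with
      | x => simp [b]
      | p i => simp [b]
    obtain ⟨f, hf0, hf⟩ := exists_implicit G j hG0 hj b hb0
    have hroot : ∀ x ∈ S, x j = ev f (fun i => x (j.succAbove i)) := by
      intro x hx
      set t : Fin r → C p := fun i => x (j.succAbove i)
      have ht : ∀ i, 0 < ord (t i) := fun i => hpos x hx _
      set y : Fin (r + 1) → C p := fun i => ev (Function.update b j f i) t with hy
      have hu0 : ∀ i, constantCoeff (Function.update b j f i) = 0 := fun i => by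
        by_cases hi : i = j
        · subst hi; simp [hf0]
        · simp [Function.update_of_ne hi, hb0 i]
      have hyeq : ∀ i, i ≠ j → x i = y i := by
        intro i hi
        obtain ⟨l, rfl⟩ := Fin.exists_succAbove_eq hi
        rw [hy]
        simp only [Function.update_of_ne hi, b, Fin.insertNth_apply_succAbove]
        exact (evalC_X (c := (HahnSeries.C : Kb p →+* C p)) (x := t) l).symm
      have hyG : ev G y = 0 := by
        have := congrArg (fun F => evalC p HahnSeries.C F t) hf
        simpa [evalC_subst (intCoeff_residue G) (fun _ => intCoeff_residue _) hu0 ht, evalC_zero,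
          hy] using this
      have := root_unique hj (hpos x hx)
        (fun i => ord_evalC_pos (intCoeff_residue _) (hu0 i) ht) hyeq (hG x hx) hyG
      rw [this]
      simp
    set S' : Set (Fin r → C p) := (fun x i => x (j.succAbove i)) '' S with hS'
    have hpos' : ∀ t ∈ S', ∀ i, 0 < ord (t i) := by
      rintro _ ⟨x, hx, rfl⟩ i; exact hpos x hx _
    have hfrob' : ∀ t ∈ S', (fun i => t i ^ p ^ h) ∈ S' := by
      rintro _ ⟨x, hx, rfl⟩; exact ⟨_, hfrob x hx, rfl⟩
    by_cases hbot' : vanishing S' hpos' = ⊥
    · -- f is additive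
      have hD : defect H f = 0 := by
        refine eq_zero_of_vanishing_prod hh hpos' hfrob' hbot' ?_
        rintro _ ⟨x, hx, rfl⟩ _ ⟨y, hy, rfl⟩
        rw [ev_defect H hf0 (fun i => hpos x hx _) (fun i => hpos y hy _), sub_eq_zero,
          ← hroot x hx, ← hroot y hy]
        exact (hroot _ (hadd x hx y hy)).symm
      obtain ⟨ι, hι, hιH⟩ := exists_neg_isHom H
      refine ⟨j.insertNth ι (axis f), fun i => ?_, fun hc => ?_, fun x hx => ?_⟩
      · induction i using j.succAboveCases with
        | x => simpa using hι
        | p i => simpa using isHom_axis H hf0 hD i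
      · have hι0 : ι = 0 := by simpa using congrFun hc j
        rw [hι0, H.add_zero (PowerSeries.HasSubst.X' (R := Kb p))] at hιH
        exact PowerSeries.X_ne_zero hιH
      · have ht : ∀ i, 0 < ord (x (j.succAbove i)) := fun i => hpos x hx _
        have hev : ∀ i, 0 < ord (eval₁C p HahnSeries.C
            ((j.insertNth ι (axis f) : Fin (r + 1) → PowerSeries (Kb p)) i) (x i)) := by
          intro i
          refine ord_eval₁C_pos (intCoeff_residue _) ?_ (hpos x hx i)
          induction i using j.succAboveCases with
          | x => simpa using hι.1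
          | p i => simpa using (isHom_axis H hf0 hD i).1
        rw [fsum_succAbove H j _ hev]
        simp only [Fin.insertNth_apply_same, Fin.insertNth_apply_succAbove]
        have hF := additive_eq_fsum H (fun t => ev f t) (ev_zero_point hf0)
          (fun a c ha hc => by
            have h1 := ev_defect H hf0 ha hc
            rw [hD] at h1
            exact (sub_eq_zero.mp (h1.symm.trans evalC_zero)))
          (fun i => x (j.succAbove i)) ht
        rw [show (fun i => eval₁C p HahnSeries.C (axis f i) (x (j.succAbove i))) =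
          fun i => ev f (unitVec i (x (j.succAbove i))) from funext fun i => eval₁C_axis i (ht i),
          ← hF, ← hroot x hx]
        exact padd_neg H hι.1 hιH (hpos x hx j)
    · -- induction
      have hr : 0 < r := by
        by_contra hc
        obtain rfl : r = 0 := by omega
        refine hbot' (eq_bot_iff.mpr fun U hU => ?_)
        obtain ⟨x, hx⟩ := hS
        rw [Ideal.mem_bot]
        ext d
        rw [Subsingleton.elim d 0, coeff_zero_eq_constantCoeff, map_zero]
        exact constantCoeff_eq_zero (fun i => i.elim0)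
          (hU _ ⟨x, hx, rfl⟩)
      have hadd' : ∀ t ∈ S', ∀ s ∈ S', (fun i => padd H (t i) (s i)) ∈ S' := by
        rintro _ ⟨x, hx, rfl⟩ _ ⟨y, hy, rfl⟩; exact ⟨_, hadd x hx y hy, rfl⟩
      obtain ⟨φ, hφ, hφ0, hrel⟩ := exists_relation hh H r S' hr hpos' hadd' hfrob' hbot'
      refine ⟨j.insertNth 0 φ, fun i => ?_, fun hc => hφ0 (funext fun i => ?_), fun x hx => ?_⟩
      · induction i using j.succAboveCases with
        | x => simpa using isHom_zero H
        | p i => simpa using hφ i
      · simpa using congrFun hc (j.succAbove i)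
      · have hev : ∀ i, 0 < ord (eval₁C p HahnSeries.C
            ((j.insertNth 0 φ : Fin (r + 1) → PowerSeries (Kb p)) i) (x i)) := by
          intro i
          refine ord_eval₁C_pos (intCoeff_residue _) ?_ (hpos x hx i)
          induction i using j.succAboveCases with
          | x => simp
          | p i => simpa using (hφ i).1
        rw [fsum_succAbove H j _ hev]
        simp only [Fin.insertNth_apply_same, Fin.insertNth_apply_succAbove, eval₁C_zero]
        rw [zero_padd H (fsum_pos H _ fun i =>
          ord_eval₁C_pos (intCoeff_residue _) (hφ i).1 (hpos x hx _))]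
        exact hrel _ ⟨x, hx, rfl⟩

end

end Vale.Agent.P217.Rigid

namespace Vale.Agent.P217

/-- M9. -/
theorem rigidStatement (p : ℕ) [Fact p.Prime] : RigidStatement p := by
  intro h hh H hH r hr S hpos hadd hfrob G hG hvan
  have := Rigid.isComm_hondaKb p hh hH
  refine Rigid.exists_relation hh H r S hr hpos hadd hfrob fun hbot => hG ?_
  rw [← Ideal.mem_bot, ← hbot]
  exact hvan

end Vale.Agent.P217
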