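import Vale.Agent.P217.Defs

/-!
Homomorphisms of formal group laws and the series of multiplication by m.
-/

namespace Vale.Agent.P217

noncomputable section

open MvPowerSeries

variable {R S : Type*} [CommRing R] [CommRing S] {σ : Type*}

theorem hasSubst_pair {f g : MvPowerSeries σ R} (hf : MvPowerSeries.constantCoeff f = 0)
    (hg : MvPowerSeries.constantCoeff g = 0) : MvPowerSeries.HasSubst ![f, g] :=
  hasSubst_of_constantCoeff_zero (fun i => by fin_cases i <;> simp [hf, hg])

theorem constantCoeff_subst_pair (G : FormalGroup R) {f g : MvPowerSeries σ R}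
    (hf : MvPowerSeries.constantCoeff f = 0) (hg : MvPowerSeries.constantCoeff g = 0) :
    MvPowerSeries.constantCoeff ((G : MvPowerSeries (Fin 2) R).subst ![f, g]) = 0 :=
  constantCoeff_subst_eq_zero (hasSubst_pair hf hg) (fun i => by fin_cases i <;> simp [hf, hg])
    G.zero_constantCoeff

theorem IsHom.apply {G G' : FormalGroup R} {ψ : PowerSeries R} (hψ : IsHom G G' ψ)
    {f g : MvPowerSeries σ R} (hf : MvPowerSeries.constantCoeff f = 0)
    (hg : MvPowerSeries.constantCoeff g = 0) :
    PowerSeries.subst ((G : MvPowerSeries (Fin 2) R).subst ![f, g]) ψ =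
      (G' : MvPowerSeries (Fin 2) R).subst
        ![PowerSeries.subst f ψ, PowerSeries.subst g ψ] := by
  have hfg := hasSubst_pair hf hg
  have h := congrArg (MvPowerSeries.subst ![f, g]) hψ.2
  have h0 : PowerSeries.HasSubst (G : MvPowerSeries (Fin 2) R) :=
    PowerSeries.HasSubst.of_constantCoeff_zero G.zero_constantCoeff
  have hX : ∀ i : Fin 2, MvPowerSeries.constantCoeff
      (PowerSeries.subst (MvPowerSeries.X i : MvPowerSeries (Fin 2) R) ψ) = 0 := fun i =>
    PowerSeries.constantCoeff_subst_eq_zero (by simp) ψ hψ.1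
  rw [PowerSeries.subst, subst_comp_subst_apply h0.const hfg,
    subst_comp_subst_apply (hasSubst_pair (hX 0) (hX 1)) hfg] at h
  rw [PowerSeries.subst_def]
  refine h.trans ?_
  congr 1
  ext i : 1
  fin_cases i
  · simp [PowerSeries.subst_def,
      subst_comp_subst_apply (PowerSeries.HasSubst.X (0 : Fin 2)).const hfg, subst_X hfg]
  · simp [PowerSeries.subst_def,
      subst_comp_subst_apply (PowerSeries.HasSubst.X (1 : Fin 2)).const hfg, subst_X hfg]

theorem IsHom.hasSubst {G G' : FormalGroup R} {ψ : PowerSeries R} (hψ : IsHom G G' ψ) :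
    PowerSeries.HasSubst ψ :=
  PowerSeries.HasSubst.of_constantCoeff_zero' hψ.1

theorem IsHom.comp {G G' G'' : FormalGroup R} {ψ φ : PowerSeries R} (hψ : IsHom G G' ψ)
    (hφ : IsHom G' G'' φ) : IsHom G G'' (PowerSeries.subst ψ φ) := by
  refine ⟨PowerSeries.constantCoeff_subst_eq_zero (a := (ψ : MvPowerSeries Unit R)) hψ.1 φ hφ.1,
    ?_⟩
  have hG : PowerSeries.HasSubst (G : MvPowerSeries (Fin 2) R) :=
    PowerSeries.HasSubst.of_constantCoeff_zero G.zero_constantCoeff
  have hX : ∀ i : Fin 2, MvPowerSeries.constantCoeff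
      (PowerSeries.subst (MvPowerSeries.X i : MvPowerSeries (Fin 2) R) ψ) = 0 := fun i =>
    PowerSeries.constantCoeff_subst_eq_zero (by simp) ψ hψ.1
  rw [PowerSeries.subst_comp_subst_apply hψ.hasSubst hG, hψ.2,
    IsHom.apply hφ (hX 0) (hX 1), PowerSeries.subst_comp_subst_apply hψ.hasSubst
      (PowerSeries.HasSubst.X (0 : Fin 2)),
    PowerSeries.subst_comp_subst_apply hψ.hasSubst (PowerSeries.HasSubst.X (1 : Fin 2))]

theorem map_subst_pair (e : R →+* S) (G : FormalGroup R) {f g : MvPowerSeries σ R}
    (hf : MvPowerSeries.constantCoeff f = 0) (hg : MvPowerSeries.constantCoeff g = 0) :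
    MvPowerSeries.map e ((G : MvPowerSeries (Fin 2) R).subst ![f, g]) =
      ((G.map e : FormalGroup S) : MvPowerSeries (Fin 2) S).subst
        ![MvPowerSeries.map e f, MvPowerSeries.map e g] := by
  rw [MvPowerSeries.map_subst (hasSubst_pair hf hg), FormalGroup.map_toPowerSeries]
  congr 1
  ext i : 1
  fin_cases i <;> simp

theorem IsHom.map {G G' : FormalGroup R} {ψ : PowerSeries R} (hψ : IsHom G G' ψ)
    (e : R →+* S) : IsHom (G.map e) (G'.map e) (PowerSeries.map e ψ) := by
  refine ⟨by simp [← PowerSeries.coeff_zero_eq_constantCoeff_apply, hψ.1], ?_⟩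
  have h := congrArg (MvPowerSeries.map e) hψ.2
  have hX : ∀ i : Fin 2, MvPowerSeries.constantCoeff
      (PowerSeries.subst (MvPowerSeries.X i : MvPowerSeries (Fin 2) R) ψ) = 0 := fun i =>
    PowerSeries.constantCoeff_subst_eq_zero (by simp) ψ hψ.1
  rw [PowerSeries.map_subst (PowerSeries.HasSubst.of_constantCoeff_zero G.zero_constantCoeff),
    map_subst_pair e G' (hX 0) (hX 1), PowerSeries.map_subst (PowerSeries.HasSubst.X (0 : Fin 2)),
    PowerSeries.map_subst (PowerSeries.HasSubst.X (1 : Fin 2)), MvPowerSeries.map_X,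
    MvPowerSeries.map_X] at h
  rw [FormalGroup.map_toPowerSeries]
  simpa using h

theorem IsIso.map {G G' : FormalGroup R} {ψ : PowerSeries R} (hψ : IsIso G G' ψ)
    (e : R →+* S) : IsIso (G.map e) (G'.map e) (PowerSeries.map e ψ) :=
  ⟨hψ.1.map e, by simpa using hψ.2.map e⟩

theorem constantCoeff_mulSeries (G : FormalGroup R) :
    ∀ m, PowerSeries.constantCoeff (mulSeries G m) = 0
  | 0 => by simp [mulSeries]
  | m + 1 => constantCoeff_subst_pair G (f := (PowerSeries.X : PowerSeries R))
      (g := mulSeries G m) PowerSeries.constantCoeff_X (constantCoeff_mulSeries G m)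

theorem map_mulSeries (e : R →+* S) (G : FormalGroup R) :
    ∀ m, PowerSeries.map e (mulSeries G m) = mulSeries (G.map e) m
  | 0 => by simp [mulSeries]
  | m + 1 => by
    show MvPowerSeries.map e ((G : MvPowerSeries (Fin 2) R).subst
      ![PowerSeries.X, mulSeries G m]) = _
    rw [map_subst_pair e G (f := (PowerSeries.X : PowerSeries R)) (g := mulSeries G m)
      PowerSeries.constantCoeff_X (constantCoeff_mulSeries G m)]
    have h : (MvPowerSeries.map e (mulSeries G m : MvPowerSeries Unit R)) =
        mulSeries (G.map e) m := map_mulSeries e G m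
    show _ = ((G.map e : FormalGroup S) : MvPowerSeries (Fin 2) S).subst
      ![PowerSeries.X, mulSeries (G.map e) m]
    rw [h]
    congr 1
    ext i : 1
    fin_cases i <;> simp [PowerSeries.X]

theorem hasSubst_mulSeries (G : FormalGroup R) (m : ℕ) : PowerSeries.HasSubst (mulSeries G m) :=
  PowerSeries.HasSubst.of_constantCoeff_zero' (constantCoeff_mulSeries G m)

/-- Substituting a point into the series of multiplication by m is the m-fold sum. -/
theorem subst_mulSeries_succ (G : FormalGroup R) (m : ℕ) {f : MvPowerSeries σ R}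
    (hf : MvPowerSeries.constantCoeff f = 0) :
    PowerSeries.subst f (mulSeries G (m + 1)) =
      (G : MvPowerSeries (Fin 2) R).subst ![f, PowerSeries.subst f (mulSeries G m)] := by
  have hf' : PowerSeries.HasSubst f := PowerSeries.HasSubst.of_constantCoeff_zero hf
  have hpair : MvPowerSeries.HasSubst
      ![(PowerSeries.X : PowerSeries R), mulSeries G m] :=
    hasSubst_pair PowerSeries.constantCoeff_X (constantCoeff_mulSeries G m)
  show PowerSeries.subst f ((G : MvPowerSeries (Fin 2) R).subst
    ![PowerSeries.X, mulSeries G m]) = _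
  rw [PowerSeries.subst_def, subst_comp_subst_apply hpair hf'.const]
  congr 1
  ext i : 1
  fin_cases i
  · simp [PowerSeries.X, subst_X hf'.const]
  · simp [PowerSeries.subst_def]

theorem IsHom.subst_mulSeries {G G' : FormalGroup R} {ψ : PowerSeries R} (hψ : IsHom G G' ψ) :
    ∀ m, PowerSeries.subst (mulSeries G m) ψ = PowerSeries.subst ψ (mulSeries G' m)
  | 0 => by
    have h1 : PowerSeries.subst (0 : PowerSeries R) ψ = 0 :=
      PowerSeries.subst_zero_of_constantCoeff_zero hψ.1
    have h2 : PowerSeries.subst ψ (0 : PowerSeries R) = 0 := by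
      rw [← PowerSeries.coe_substAlgHom hψ.hasSubst, map_zero]
    simp only [mulSeries, h1, h2]
  | m + 1 => by
    rw [show mulSeries G (m + 1) = (G : MvPowerSeries (Fin 2) R).subst
      ![PowerSeries.X, mulSeries G m] from rfl, IsHom.apply hψ (f := (PowerSeries.X : PowerSeries R))
      (g := mulSeries G m) PowerSeries.constantCoeff_X (constantCoeff_mulSeries G m),
      subst_mulSeries_succ G' m (f := (ψ : MvPowerSeries Unit R)) hψ.1,
      IsHom.subst_mulSeries hψ m, PowerSeries.X_subst]

/-- Multiplication by m is an endomorphism of a commutative law. -/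
theorem mulSeries_isHom (G : FormalGroup R) [G.IsComm] : ∀ m, IsHom G G (mulSeries G m)
  | 0 => by
    refine ⟨by simp [mulSeries], ?_⟩
    have hz : ∀ f : MvPowerSeries (Fin 2) R, MvPowerSeries.constantCoeff f = 0 →
        PowerSeries.subst f (0 : PowerSeries R) = 0 := fun f hf => by
      rw [← PowerSeries.coe_substAlgHom (PowerSeries.HasSubst.of_constantCoeff_zero hf), map_zero]
    simp only [mulSeries]
    rw [hz _ G.zero_constantCoeff, hz _ (by simp), hz _ (by simp)]
    exact (FormalGroup.zero_add G (f := (0 : MvPowerSeries (Fin 2) R))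
      PowerSeries.HasSubst.zero).symm
  | m + 1 => by
    refine ⟨constantCoeff_mulSeries G (m + 1), ?_⟩
    have ih := (mulSeries_isHom G m).2
    rw [subst_mulSeries_succ G m G.zero_constantCoeff, ih,
      subst_mulSeries_succ G m (by simp), subst_mulSeries_succ G m (by simp)]
    set A := PowerSeries.subst (MvPowerSeries.X (0 : Fin 2) : MvPowerSeries (Fin 2) R)
      (mulSeries G m)
    set B := PowerSeries.subst (MvPowerSeries.X (1 : Fin 2) : MvPowerSeries (Fin 2) R)
      (mulSeries G m)
    have hA : PowerSeries.HasSubst A := PowerSeries.HasSubst.of_constantCoeff_zero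
      (PowerSeries.constantCoeff_subst_eq_zero (by simp) _ (constantCoeff_mulSeries G m))
    have hB : PowerSeries.HasSubst B := PowerSeries.HasSubst.of_constantCoeff_zero
      (PowerSeries.constantCoeff_subst_eq_zero (by simp) _ (constantCoeff_mulSeries G m))
    let x : G.Point (Fin 2) := ⟨X 0, PowerSeries.HasSubst.X 0⟩
    let y : G.Point (Fin 2) := ⟨X 1, PowerSeries.HasSubst.X 1⟩
    let a : G.Point (Fin 2) := ⟨A, hA⟩
    let b : G.Point (Fin 2) := ⟨B, hB⟩
    have h := congrArg Subtype.val (add_add_add_comm x y a b)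
    simp only [FormalGroup.add_apply] at h
    have e : (G : MvPowerSeries (Fin 2) R) =
        (G : MvPowerSeries (Fin 2) R).subst ![X 0, X 1] := by
      have : (![X 0, X 1] : Fin 2 → MvPowerSeries (Fin 2) R) = MvPowerSeries.X := by
        ext i : 1; fin_cases i <;> rfl
      rw [this, subst_self]; rfl
    simp only [x, y, a, b] at h
    rw [← e] at h
    exact h

/-- The coefficient of X^a in the a'-th power of a law, on the axis Y = 0. -/
theorem coeff_single_pow (G : FormalGroup R) (a m : ℕ) :
    MvPowerSeries.coeff (Finsupp.single (0 : Fin 2) a) ((G : MvPowerSeries (Fin 2) R) ^ m) =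
      if a = m then 1 else 0 := by
  classical
  have h : MvPowerSeries.subst ![(PowerSeries.X : PowerSeries R), 0]
      ((G : MvPowerSeries (Fin 2) R) ^ m) = (PowerSeries.X : PowerSeries R) ^ m := by
    rw [subst_pow (hasSubst_pair (f := (PowerSeries.X : PowerSeries R))
      PowerSeries.constantCoeff_X (map_zero _))]
    exact congrArg (· ^ m) (FormalGroup.Xzero_eq_X G)
  have h2 := congrArg (PowerSeries.coeff a) h
  rw [PowerSeries.coeff_X_pow] at h2
  rw [← h2, PowerSeries.coeff, coeff_subst (hasSubst_pair (f := (PowerSeries.X : PowerSeries R))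
      PowerSeries.constantCoeff_X (map_zero _)),
    finsum_eq_single _ (Finsupp.single (0 : Fin 2) a)]
  · simp [PowerSeries.X, PowerSeries.coeff, MvPowerSeries.coeff_X_pow]
  · intro d hd
    by_cases hd1 : d 1 = 0
    · have : d = Finsupp.single 0 (d 0) := by
        ext i; fin_cases i <;> simp [hd1]
      have hne : ¬ a = d 0 := fun h' => hd (by rw [this, ← h'])
      simp [hd1, PowerSeries.X, MvPowerSeries.coeff_X_pow, Finsupp.single_eq_single_iff]
      intro h'
      exact absurd h' hne
    · simp [hd1]

/-- In characteristic p an endomorphism or homomorphism with zero linear term only involves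
exponents divisible by p. -/
theorem IsHom.coeff_eq_zero_of_not_dvd (p : ℕ) [hp : Fact p.Prime] [CharP R p]
    {G G' : FormalGroup R} {ψ : PowerSeries R} (hψ : IsHom G G' ψ)
    (h1 : PowerSeries.coeff 1 ψ = 0) : ∀ i, ¬ p ∣ i → PowerSeries.coeff i ψ = 0 := by
  classical
  intro i
  induction i using Nat.strong_induction_on with
  | _ i ih =>
    intro hi
    obtain ⟨j, rfl⟩ : ∃ j, i = j + 1 :=
      ⟨i - 1, by have : i ≠ 0 := fun h => hi (by rw [h]; exact dvd_zero p); omega⟩
    have hXs : ∀ k : Fin 2, MvPowerSeries.constantCoeff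
        (PowerSeries.subst (MvPowerSeries.X k : MvPowerSeries (Fin 2) R) ψ) = 0 := fun k =>
      PowerSeries.constantCoeff_subst_eq_zero (by simp) ψ hψ.1
    -- the coefficient of X^j Y on both sides
    set e : Fin 2 →₀ ℕ := Finsupp.single 0 j + Finsupp.single 1 1 with he
    have hR : MvPowerSeries.coeff e ((G' : MvPowerSeries (Fin 2) R).subst
        ![PowerSeries.subst (MvPowerSeries.X (0 : Fin 2) : MvPowerSeries (Fin 2) R) ψ,
          PowerSeries.subst (MvPowerSeries.X (1 : Fin 2) : MvPowerSeries (Fin 2) R) ψ]) = 0 := by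
      rw [coeff_subst (hasSubst_pair (hXs 0) (hXs 1))]
      refine finsum_eq_zero_of_forall_eq_zero fun d => ?_
      by_cases hd : d 1 = 0
      · -- no Y at all
        have h0 : MvPowerSeries.coeff e ((PowerSeries.subst
            (MvPowerSeries.X (0 : Fin 2) : MvPowerSeries (Fin 2) R) ψ) ^ d 0) = 0 := by
          rw [← PowerSeries.subst_pow (PowerSeries.HasSubst.X _), PowerSeries.coeff_subst_single,
            if_neg]
          intro h
          have := DFunLike.congr_fun h 1
          simp [he] at this
        simp [Finsupp.prod_fintype, hd, h0]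
      · -- at least one factor psi(Y), of order at least two
        have h0 : ∀ a : Fin 2 →₀ ℕ, a 1 ≤ 1 → MvPowerSeries.coeff a ((PowerSeries.subst
            (MvPowerSeries.X (1 : Fin 2) : MvPowerSeries (Fin 2) R) ψ) ^ d 1) = 0 := by
          intro a ha
          rw [← PowerSeries.subst_pow (PowerSeries.HasSubst.X _), PowerSeries.coeff_subst_single]
          split_ifs
          · apply PowerSeries.coeff_of_lt_order
            have h2 : (2 : ℕ∞) ≤ ψ.order := by
              refine PowerSeries.le_order _ _ fun k hk => ?_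
              have hk' : k < 2 := by exact_mod_cast hk
              interval_cases k
              · simpa using hψ.1
              · exact h1
            refine lt_of_lt_of_le ?_ (PowerSeries.le_order_pow ψ (d 1))
            refine lt_of_lt_of_le (b := (2 : ℕ∞)) (by exact_mod_cast Nat.lt_succ_of_le ha) ?_
            calc (2 : ℕ∞) ≤ ψ.order := h2
              _ = (1 : ℕ) • ψ.order := (one_nsmul _).symm
              _ ≤ d 1 • ψ.order :=
                nsmul_le_nsmul_left zero_le (Nat.one_le_iff_ne_zero.2 hd)
          · rfl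
        have : MvPowerSeries.coeff e ((PowerSeries.subst
            (MvPowerSeries.X (0 : Fin 2) : MvPowerSeries (Fin 2) R) ψ) ^ d 0 *
            (PowerSeries.subst (MvPowerSeries.X (1 : Fin 2) : MvPowerSeries (Fin 2) R) ψ) ^ d 1)
              = 0 := by
          rw [MvPowerSeries.coeff_mul]
          refine Finset.sum_eq_zero fun x hx => ?_
          rw [h0 x.2 ?_, mul_zero]
          have := DFunLike.congr_fun (Finset.HasAntidiagonal.mem_antidiagonal.1 hx) 1
          simp [he] at this
          omega
        simp [Finsupp.prod_fintype, this]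
    have hL := congrArg (MvPowerSeries.coeff e) hψ.2
    rw [hR, PowerSeries.coeff_subst
      (PowerSeries.HasSubst.of_constantCoeff_zero G.zero_constantCoeff)] at hL
    -- coefficient of X^j Y in G^d
    have hkey : ∀ d : ℕ, MvPowerSeries.coeff e ((G : MvPowerSeries (Fin 2) R) ^ d) =
        MvPowerSeries.coeff (Finsupp.single (0 : Fin 2) j)
          (MvPowerSeries.pderiv R 1 ((G : MvPowerSeries (Fin 2) R) ^ d)) := fun d => by
      rw [coeff_pderiv]
      simp [he]
    have hgt : ∀ d, j + 1 < d → MvPowerSeries.coeff e ((G : MvPowerSeries (Fin 2) R) ^ d) = 0 := by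
      intro d hd
      apply MvPowerSeries.coeff_of_lt_order
      refine lt_of_lt_of_le ?_ (MvPowerSeries.le_order_pow d)
      have h1' : (1 : ℕ∞) ≤ (G : MvPowerSeries (Fin 2) R).order :=
        MvPowerSeries.one_le_order_iff_constCoeff_eq_zero.2 G.zero_constantCoeff
      have he1 : ((Finsupp.degree e : ℕ) : ℕ∞) < (d : ℕ∞) := by
        rw [he, map_add, Finsupp.degree_single, Finsupp.degree_single]
        exact_mod_cast hd
      refine he1.trans_le ?_
      simpa using nsmul_le_nsmul_right h1' d
    rw [finsum_eq_single _ (j + 1)] at hL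
    · -- the main term
      have hd1 : MvPowerSeries.coeff e ((G : MvPowerSeries (Fin 2) R) ^ (j + 1)) = (j + 1 : R) := by
        rw [hkey, MvPowerSeries.pderiv_pow, Nat.add_sub_cancel]
        rw [mul_assoc, ← map_natCast (MvPowerSeries.C : R →+* MvPowerSeries (Fin 2) R),
          MvPowerSeries.coeff_C_mul, MvPowerSeries.coeff_mul]
        rw [Finset.sum_eq_single (Finsupp.single (0 : Fin 2) j, (0 : Fin 2 →₀ ℕ))]
        · simp [coeff_single_pow, coeff_pderiv, G.lin_coeff_Y]
        · intro x hx hne
          have hx' := Finset.HasAntidiagonal.mem_antidiagonal.1 hx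
          have e1 : x.1 = Finsupp.single 0 (x.1 0) := by
            ext k; fin_cases k
            · simp
            · have := DFunLike.congr_fun hx' 1
              simp at this ⊢
              omega
          rw [e1, coeff_single_pow, if_neg, zero_mul]
          intro h
          apply hne
          have hfst : x.1 = Finsupp.single 0 j := by rw [e1, h]
          refine Prod.ext hfst ?_
          have := hx'
          rw [hfst] at this
          simpa using this
        · simp
      rw [hd1, smul_eq_mul] at hL
      have hu : IsUnit ((j + 1 : ℕ) : R) := by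
        have : IsUnit ((j + 1 : ℕ) : ZMod p) := by
          rw [isUnit_iff_ne_zero, Ne, ZMod.natCast_eq_zero_iff]
          exact hi
        simpa using this.map (ZMod.castHom (dvd_refl p) R)
      push_cast at hu
      exact hu.mul_left_eq_zero.1 hL
    · intro d hd
      rcases lt_or_gt_of_ne hd with h | h
      · by_cases hpd : p ∣ d
        · have : (d : R) = 0 := (CharP.cast_eq_zero_iff R p d).2 hpd
          rw [hkey, MvPowerSeries.pderiv_pow]
          simp [this, ← map_natCast (MvPowerSeries.C : R →+* MvPowerSeries (Fin 2) R)]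
        · simp [ih d h hpd]
      · simp [hgt d h]

/-- A homomorphism in X^p comes from a homomorphism of the Frobenius twist. -/
theorem IsHom.of_expand (p : ℕ) [hp : Fact p.Prime] [CharP R p] {G G' : FormalGroup R}
    {φ : PowerSeries R} (hψ : IsHom G G' (PowerSeries.expand p hp.out.ne_zero φ)) :
    IsHom (G.map (frobenius R p)) G' φ := by
  have hp0 : p ≠ 0 := hp.out.ne_zero
  refine ⟨by simpa using hψ.1, ?_⟩
  have hφ0 : PowerSeries.constantCoeff φ = 0 := by simpa using hψ.1
  have hX : ∀ i : Fin 2, MvPowerSeries.constantCoeff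
      (PowerSeries.subst (MvPowerSeries.X i : MvPowerSeries (Fin 2) R) φ) = 0 := fun i =>
    PowerSeries.constantCoeff_subst_eq_zero (by simp) φ hφ0
  have hG : PowerSeries.HasSubst (G : MvPowerSeries (Fin 2) R) :=
    PowerSeries.HasSubst.of_constantCoeff_zero G.zero_constantCoeff
  have hGf : PowerSeries.HasSubst
      ((G.map (frobenius R p) : FormalGroup R) : MvPowerSeries (Fin 2) R) :=
    PowerSeries.HasSubst.of_constantCoeff_zero (G.map (frobenius R p)).zero_constantCoeff
  have e : ∀ (g : MvPowerSeries (Fin 2) R), PowerSeries.HasSubst g →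
      PowerSeries.subst g (PowerSeries.expand p hp0 φ) = PowerSeries.subst (g ^ p) φ := by
    intro g hg
    rw [PowerSeries.expand_apply, PowerSeries.subst_comp_subst_apply (PowerSeries.HasSubst.X_pow hp0)
      hg, PowerSeries.subst_pow hg, PowerSeries.subst_X hg]
  have hL : PowerSeries.subst (G : MvPowerSeries (Fin 2) R) (PowerSeries.expand p hp0 φ) =
      MvPowerSeries.expand p hp0
        (PowerSeries.subst ((G.map (frobenius R p) : FormalGroup R) : MvPowerSeries (Fin 2) R)
          φ) := by
    rw [e _ hG, PowerSeries.expand_subst p hp0 hGf, FormalGroup.map_toPowerSeries,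
      ← MvPowerSeries.map_expand, MvPowerSeries.map_frobenius_expand]
  have hY : ∀ i : Fin 2, PowerSeries.subst (MvPowerSeries.X i : MvPowerSeries (Fin 2) R)
      (PowerSeries.expand p hp0 φ) = MvPowerSeries.expand p hp0
        (PowerSeries.subst (MvPowerSeries.X i : MvPowerSeries (Fin 2) R) φ) := by
    intro i
    rw [e _ (PowerSeries.HasSubst.X i), PowerSeries.expand_subst p hp0 (PowerSeries.HasSubst.X i),
      MvPowerSeries.expand_X]
  have h := hψ.2
  rw [hL, hY 0, hY 1] at h
  have h' : MvPowerSeries.expand p hp0 ((G' : MvPowerSeries (Fin 2) R).subst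
      ![PowerSeries.subst (MvPowerSeries.X (0 : Fin 2) : MvPowerSeries (Fin 2) R) φ,
        PowerSeries.subst (MvPowerSeries.X (1 : Fin 2) : MvPowerSeries (Fin 2) R) φ]) =
      (G' : MvPowerSeries (Fin 2) R).subst
      ![MvPowerSeries.expand p hp0
          (PowerSeries.subst (MvPowerSeries.X (0 : Fin 2) : MvPowerSeries (Fin 2) R) φ),
        MvPowerSeries.expand p hp0
          (PowerSeries.subst (MvPowerSeries.X (1 : Fin 2) : MvPowerSeries (Fin 2) R) φ)] := by
    rw [MvPowerSeries.expand_subst p hp0 (hasSubst_pair (hX 0) (hX 1))]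
    congr 1
    ext i : 1
    fin_cases i <;> simp
  rw [← h'] at h
  ext d
  have := congrArg (MvPowerSeries.coeff (p • d)) h
  simpa using this

/-- A homomorphism whose coefficients below p^a vanish is a series in X^(p^a), coming from
a homomorphism of the twisted law. -/
theorem IsHom.exists_expand (p : ℕ) [hp : Fact p.Prime] [CharP R p] {G G' : FormalGroup R}
    {ψ : PowerSeries R} (hψ : IsHom G G' ψ) :
    ∀ a : ℕ, (∀ i < p ^ a, PowerSeries.coeff i ψ = 0) →
      ∃ φ : PowerSeries R, IsHom (G.map (iterateFrobenius R p a)) G' φ ∧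
        ψ = PowerSeries.expand (p ^ a) (pow_ne_zero a hp.out.ne_zero) φ := by
  intro a
  induction a with
  | zero =>
    intro _
    refine ⟨ψ, ?_, by simp⟩
    convert hψ using 1
    ext d
    simp
  | succ a ih =>
    intro h
    obtain ⟨φ, hφ, rfl⟩ := ih fun i hi =>
      h i (hi.trans_le (Nat.pow_le_pow_right hp.out.pos (Nat.le_succ a)))
    have h1 : PowerSeries.coeff 1 φ = 0 := by
      have := h (p ^ a * 1) (by
        rw [mul_one]; exact Nat.pow_lt_pow_right hp.out.one_lt (Nat.lt_succ_self a))
      rwa [PowerSeries.coeff_expand_mul] at this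
    obtain ⟨φ', rfl⟩ : ∃ φ', φ = PowerSeries.expand p hp.out.ne_zero φ' := by
      refine ⟨PowerSeries.mk fun i => PowerSeries.coeff (p * i) φ, ?_⟩
      ext i
      rw [PowerSeries.coeff_expand]
      split_ifs with hi
      · rw [PowerSeries.coeff_mk, Nat.mul_div_cancel' hi]
      · exact hφ.coeff_eq_zero_of_not_dvd p h1 i hi
    refine ⟨φ', ?_, ?_⟩
    · have := hφ.of_expand p
      convert this using 1
      ext d
      simp only [FormalGroup.map_toPowerSeries, MvPowerSeries.coeff_map, iterateFrobenius_def,
        frobenius_def, pow_succ, pow_mul]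
    · simp only [pow_succ]
      rw [PowerSeries.expand_mul (p ^ a) (pow_ne_zero a hp.out.ne_zero) p hp.out.ne_zero]

end

end Vale.Agent.P217
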