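import Vale.Agent.P217.Base

/-!
P217, module M3: sums of null families and values of power series in `C p`.

`IntCoeff c f` says that the coefficients of `f` land in the valuation ring. Values are taken at
points of positive valuation. The calculus: ring operations, substitution, bounds, continuity,
p-th powers.
-/

open MvPowerSeries

noncomputable section

namespace Vale.Agent.P217

variable {p : ℕ} [Fact p.Prime]

/-! ### The valuation -/

theorem ord_zero : ord (0 : C p) = ⊤ := HahnSeries.orderTop_zero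

theorem ord_neg (x : C p) : ord (-x) = ord x := HahnSeries.orderTop_neg

theorem ord_eq_top {x : C p} : ord x = ⊤ ↔ x = 0 := HahnSeries.orderTop_eq_top

theorem le_ord_add {m : WithTop ℚ} {x y : C p} (hx : m ≤ ord x) (hy : m ≤ ord y) :
    m ≤ ord (x + y) :=
  (le_min hx hy).trans (ord_add x y)

theorem lt_ord_add {m : WithTop ℚ} {x y : C p} (hx : m < ord x) (hy : m < ord y) :
    m < ord (x + y) :=
  (lt_min hx hy).trans_le (ord_add x y)

theorem le_ord_sub {m : WithTop ℚ} {x y : C p} (hx : m ≤ ord x) (hy : m ≤ ord y) :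
    m ≤ ord (x - y) := by
  rw [sub_eq_add_neg]
  exact le_ord_add hx (by rwa [ord_neg])

theorem lt_ord_sub {m : WithTop ℚ} {x y : C p} (hx : m < ord x) (hy : m < ord y) :
    m < ord (x - y) := by
  rw [sub_eq_add_neg]
  exact lt_ord_add hx (by rwa [ord_neg])

theorem le_ord_sum {ι : Type*} {m : WithTop ℚ} (s : Finset ι) {a : ι → C p}
    (h : ∀ i ∈ s, m ≤ ord (a i)) : m ≤ ord (∑ i ∈ s, a i) :=
  Finset.sum_induction a (fun x => m ≤ ord x) (fun _ _ => le_ord_add) (by simp) h

theorem ord_C_nonneg (ω : Kb p) : 0 ≤ ord (HahnSeries.C ω : C p) :=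
  HahnSeries.orderTop_single_le

theorem lt_ord_iff {x : C p} {B : ℚ} : (B : WithTop ℚ) < ord x ↔ ∀ q ≤ B, x.coeff q = 0 := by
  refine ⟨fun h q hq => HahnSeries.coeff_eq_zero_of_lt_orderTop
    ((WithTop.coe_le_coe.mpr hq).trans_lt h), fun h => ?_⟩
  by_contra hn
  rw [not_lt] at hn
  obtain ⟨γ, hγ⟩ := WithTop.ne_top_iff_exists.mp (ne_top_of_le_ne_top WithTop.coe_ne_top hn)
  rw [← hγ, WithTop.coe_le_coe] at hn
  exact HahnSeries.coeff_orderTop_ne hγ.symm (h γ hn)

theorem eq_zero_of_forall_lt_ord {x : C p} (h : ∀ B : ℚ, (B : WithTop ℚ) < ord x) : x = 0 :=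
  HahnSeries.ext (funext fun q => lt_ord_iff.mp (h q) q le_rfl)

theorem eq_of_forall_lt_ord_sub {x y : C p} (h : ∀ B : ℚ, (B : WithTop ℚ) < ord (x - y)) :
    x = y :=
  sub_eq_zero.mp (eq_zero_of_forall_lt_ord h)

/-! ### Null families -/

variable {ι κ : Type*} {a b : ι → C p} {s t : C p}

theorem IsNull.finite_coeff (h : IsNull p a) (q : ℚ) :
    (Function.support fun i => (a i).coeff q).Finite :=
  (h q).subset fun _ hi => HahnSeries.orderTop_le_of_coeff_ne_zero hi

theorem hasSumC_iff :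
    HasSumC p a s ↔ IsNull p a ∧ ∀ q : ℚ, s.coeff q = ∑ᶠ i, (a i).coeff q := by
  classical
  refine ⟨fun ⟨hn, h⟩ => ⟨hn, fun q => ?_⟩, fun ⟨hn, h⟩ => ⟨hn, fun B => ⟨(hn B).toFinset,
    fun t' ht' => lt_ord_iff.mpr fun q hq => ?_⟩⟩⟩
  · obtain ⟨t, ht⟩ := h q
    have h1 := lt_ord_iff.mp (ht (t ∪ (hn.finite_coeff q).toFinset) Finset.subset_union_left) q le_rfl
    rw [HahnSeries.coeff_sub, HahnSeries.coeff_sum, sub_eq_zero] at h1
    rw [h1, finsum_eq_sum_of_support_subset]
    intro i hi
    simp only [Finset.coe_union, Set.mem_union, Set.Finite.coe_toFinset]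
    exact Or.inr hi
  · rw [HahnSeries.coeff_sub, HahnSeries.coeff_sum, h q, sub_eq_zero,
      finsum_eq_sum_of_support_subset]
    intro i hi
    refine ht' ((Set.Finite.mem_toFinset _).mpr ?_)
    exact (HahnSeries.orderTop_le_of_coeff_ne_zero hi).trans (WithTop.coe_le_coe.mpr hq)

theorem HasSumC.isNull (h : HasSumC p a s) : IsNull p a := h.1

theorem HasSumC.coeff_eq (h : HasSumC p a s) (q : ℚ) : s.coeff q = ∑ᶠ i, (a i).coeff q :=
  (hasSumC_iff.mp h).2 q

theorem HasSumC.unique (h : HasSumC p a s) (h' : HasSumC p a t) : s = t :=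
  HahnSeries.ext (funext fun q => (h.coeff_eq q).trans (h'.coeff_eq q).symm)

theorem IsNull.exists_hasSumC (h : IsNull p a) : ∃ s, HasSumC p a s := by
  classical
  set f : ℚ → Kb p := fun q => ∑ᶠ i, (a i).coeff q
  have hpwo : (Function.support f).IsPWO := by
    refine Set.IsWF.isPWO (Set.isWF_iff_no_descending_seq.mpr fun g hg hsub => ?_)
    have hfin := h (g 0)
    have hU : (⋃ i ∈ hfin.toFinset, (a i).support).IsWF :=
      ((Finset.isPWO_bUnion hfin.toFinset).mpr fun i _ => (a i).isPWO_support).isWF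
    refine Set.isWF_iff_no_descending_seq.mp hU g hg fun m => ?_
    have hm := hsub m
    rw [Function.mem_support] at hm
    obtain ⟨i, hi⟩ : ∃ i, (a i).coeff (g m) ≠ 0 := by
      by_contra hall
      push Not at hall
      exact hm (finsum_eq_zero_of_forall_eq_zero hall)
    refine Set.mem_biUnion ((Set.Finite.mem_toFinset _).mpr ?_) hi
    exact (HahnSeries.orderTop_le_of_coeff_ne_zero hi).trans
      (WithTop.coe_le_coe.mpr (hg.antitone (Nat.zero_le m)))
  exact ⟨⟨f, hpwo⟩, hasSumC_iff.mpr ⟨h, fun q => rfl⟩⟩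

theorem IsNull.hasSumC (h : IsNull p a) : HasSumC p a (sumC p a) := by
  rw [sumC, dif_pos h.exists_hasSumC]
  exact h.exists_hasSumC.choose_spec

theorem HasSumC.sumC_eq (h : HasSumC p a s) : sumC p a = s := h.1.hasSumC.unique h

theorem IsNull.mono (h : IsNull p a) (hle : ∀ i, ord (a i) ≤ ord (b i)) : IsNull p b :=
  fun B => (h B).subset fun i hi => (hle i).trans hi

theorem isNull_of_finite_support (T : Finset ι) (h : ∀ i ∉ T, a i = 0) : IsNull p a := fun B =>
  T.finite_toSet.subset fun i hi => by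
    by_contra hn
    rw [Set.mem_ofPred_eq, h i hn, ord_zero, top_le_iff] at hi
    exact WithTop.coe_ne_top hi

theorem hasSumC_of_support_subset (T : Finset ι) (h : ∀ i ∉ T, a i = 0) :
    HasSumC p a (∑ i ∈ T, a i) := by
  refine hasSumC_iff.mpr ⟨isNull_of_finite_support T h, fun q => ?_⟩
  rw [HahnSeries.coeff_sum, finsum_eq_sum_of_support_subset]
  intro i hi
  by_contra hn
  exact hi (by simp [h i hn])

theorem hasSumC_zero : HasSumC p (fun _ : ι => (0 : C p)) 0 := by
  simpa using hasSumC_of_support_subset (a := fun _ : ι => (0 : C p)) ∅ fun _ _ => rfl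

theorem HasSumC.add (ha : HasSumC p a s) (hb : HasSumC p b t) :
    HasSumC p (fun i => a i + b i) (s + t) := by
  classical
  refine ⟨fun B => ((ha.1 B).union (hb.1 B)).subset fun i hi => ?_, fun B => ?_⟩
  · exact min_le_iff.mp ((ord_add _ _).trans hi)
  · obtain ⟨T, hT⟩ := ha.2 B
    obtain ⟨T', hT'⟩ := hb.2 B
    refine ⟨T ∪ T', fun t' ht' => ?_⟩
    rw [Finset.sum_add_distrib, add_sub_add_comm]
    exact lt_ord_add (hT t' (Finset.union_subset_left ht')) (hT' t' (Finset.union_subset_right ht'))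

theorem HasSumC.neg (ha : HasSumC p a s) : HasSumC p (fun i => -a i) (-s) := by
  refine ⟨fun B => by simpa [ord_neg] using ha.1 B, fun B => ?_⟩
  obtain ⟨T, hT⟩ := ha.2 B
  refine ⟨T, fun t' ht' => ?_⟩
  rw [Finset.sum_neg_distrib, ← neg_sub', ord_neg]
  exact hT t' ht'

theorem HasSumC.sub (ha : HasSumC p a s) (hb : HasSumC p b t) :
    HasSumC p (fun i => a i - b i) (s - t) := by
  simpa only [sub_eq_add_neg] using ha.add hb.neg

theorem HasSumC.const_mul (ha : HasSumC p a s) (x : C p) :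
    HasSumC p (fun i => x * a i) (x * s) := by
  by_cases hx : x = 0
  · simpa [hx] using (hasSumC_zero (p := p) (ι := ι))
  obtain ⟨γ, hγ⟩ := WithTop.ne_top_iff_exists.mp (mt ord_eq_top.mp hx)
  have key : ∀ (y : C p) (B : ℚ), (B : WithTop ℚ) < ord (x * y) ↔
      ((B - γ : ℚ) : WithTop ℚ) < ord y := by
    intro y B
    rw [ord_mul, ← hγ]
    cases ord y with
    | top =>
      rw [WithTop.add_top]
      exact iff_of_true (WithTop.coe_lt_top _) (WithTop.coe_lt_top _)
    | coe u => norm_cast; constructor <;> intro h <;> linarith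
  refine ⟨fun B => (ha.1 (B - γ)).subset fun i hi => ?_, fun B => ?_⟩
  · exact not_lt.mp fun h => not_lt.mpr hi ((key _ _).mpr h)
  · obtain ⟨T, hT⟩ := ha.2 (B - γ)
    refine ⟨T, fun t' ht' => ?_⟩
    rw [← Finset.mul_sum, ← mul_sub, key]
    exact hT t' ht'

theorem HasSumC.mul_const (ha : HasSumC p a s) (x : C p) :
    HasSumC p (fun i => a i * x) (s * x) := by
  simpa only [mul_comm _ x] using ha.const_mul x

theorem HasSumC.le_ord (h : HasSumC p a s) {m : WithTop ℚ} (hm : ∀ i, m ≤ ord (a i)) :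
    m ≤ ord s := by
  by_contra hn
  rw [not_le] at hn
  obtain ⟨γ, hγ⟩ := WithTop.ne_top_iff_exists.mp hn.ne_top
  refine HahnSeries.coeff_orderTop_ne hγ.symm ?_
  rw [h.coeff_eq]
  exact finsum_eq_zero_of_forall_eq_zero fun i =>
    HahnSeries.coeff_eq_zero_of_lt_orderTop ((hγ ▸ hn).trans_le (hm i))

theorem HasSumC.lt_ord (h : HasSumC p a s) {B : ℚ} (hm : ∀ i, (B : WithTop ℚ) < ord (a i)) :
    (B : WithTop ℚ) < ord s := by
  rw [lt_ord_iff]
  intro q hq
  rw [h.coeff_eq]
  exact finsum_eq_zero_of_forall_eq_zero fun i => lt_ord_iff.mp (hm i) q hq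

theorem HasSumC.comp_injective_iff {e : κ → ι} (he : Function.Injective e)
    (h0 : ∀ i, i ∉ Set.range e → a i = 0) : HasSumC p (a ∘ e) s ↔ HasSumC p a s := by
  classical
  have hnull : IsNull p (a ∘ e) ↔ IsNull p a := by
    refine ⟨fun h B => ((h B).image e).subset fun i hi => ?_,
      fun h B => ((h B).preimage he.injOn).subset fun j hj => hj⟩
    by_cases hr : i ∈ Set.range e
    · obtain ⟨j, rfl⟩ := hr
      exact ⟨j, hi, rfl⟩
    · rw [Set.mem_ofPred_eq, h0 i hr, ord_zero, top_le_iff] at hi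
      exact absurd hi WithTop.coe_ne_top
  rw [hasSumC_iff, hasSumC_iff, hnull]
  refine and_congr_right fun hn => forall_congr' fun q => ?_
  have hsum : (∑ᶠ j, ((a ∘ e) j).coeff q) = ∑ᶠ i, (a i).coeff q := by
    set T := ((hnull.mpr hn).finite_coeff q).toFinset with hT
    rw [finsum_eq_sum_of_support_subset (fun j => ((a ∘ e) j).coeff q) (s := T)
        (by simp [hT]),
      finsum_eq_sum_of_support_subset (fun i => (a i).coeff q) (s := T.image e) ?_,
      Finset.sum_image fun x _ y _ h => he h]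
    · rfl
    intro i hi
    by_cases hr : i ∈ Set.range e
    · obtain ⟨j, rfl⟩ := hr
      simp only [Finset.coe_image, Set.mem_image]
      exact ⟨j, by simpa [hT] using hi, rfl⟩
    · exact absurd (by simp [h0 i hr]) hi
  rw [hsum]

theorem HasSumC.equiv_iff (e : κ ≃ ι) : HasSumC p (a ∘ e) s ↔ HasSumC p a s :=
  HasSumC.comp_injective_iff e.injective fun i hi => absurd (e.surjective i) hi

/-- Regrouping along a map. -/
theorem HasSumC.fiberwise [DecidableEq κ] (g : ι → κ) {c : κ → C p} (ha : HasSumC p a s)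
    (hc : ∀ j, HasSumC p (fun i => if g i = j then a i else 0) (c j)) : HasSumC p c s := by
  classical
  refine hasSumC_iff.mpr ⟨fun B => ((ha.1 B).image g).subset fun j hj => ?_, fun q => ?_⟩
  · by_contra hn
    refine not_lt.mpr hj ((hc j).lt_ord fun i => ?_)
    split_ifs with hi
    · exact not_le.mp fun h => hn ⟨i, h, hi⟩
    · rw [ord_zero]; exact WithTop.coe_lt_top B
  · set T := (ha.1.finite_coeff q).toFinset with hT
    have hcq : ∀ j, (c j).coeff q = ∑ i ∈ T.filter (fun i => g i = j), (a i).coeff q := by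
      intro j
      rw [(hc j).coeff_eq, finsum_eq_sum_of_support_subset (s := T.filter fun i => g i = j)]
      · exact Finset.sum_congr rfl fun i hi => by rw [if_pos (Finset.mem_filter.mp hi).2]
      · intro i hi
        rw [Function.mem_support] at hi
        split_ifs at hi with hij
        · simpa [hT, hij] using hi
        · simp at hi
    rw [ha.coeff_eq, finsum_eq_sum_of_support_subset (fun i => (a i).coeff q) (s := T) (by simp [hT]),
      finsum_eq_sum_of_support_subset (fun j => (c j).coeff q) (s := T.image g) ?_,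
      Finset.sum_congr rfl fun j _ => hcq j,
      Finset.sum_fiberwise_of_maps_to fun i hi => Finset.mem_image_of_mem g hi]
    intro j hj
    rw [Function.mem_support, hcq] at hj
    obtain ⟨i, hi, -⟩ := Finset.exists_ne_zero_of_sum_ne_zero hj
    rw [Finset.mem_filter] at hi
    exact Finset.mem_image.mpr ⟨i, hi.1, hi.2⟩

theorem IsNull.exists_bound (h : IsNull p a) : ∃ γ : ℚ, ∀ i, (γ : WithTop ℚ) ≤ ord (a i) := by
  classical
  set T := insert (0 : ℚ) ((h 0).toFinset.image fun i => (a i).order) with hT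
  have hne : T.Nonempty := ⟨0, Finset.mem_insert_self _ _⟩
  refine ⟨T.min' hne, fun i => ?_⟩
  by_cases hi : ord (a i) ≤ ((0 : ℚ) : WithTop ℚ)
  · have hne0 : a i ≠ 0 := fun h0 => by
      rw [h0, ord_zero, top_le_iff] at hi
      exact WithTop.coe_ne_top hi
    rw [ord, ← HahnSeries.order_eq_orderTop_of_ne_zero hne0, WithTop.coe_le_coe]
    exact T.min'_le _ (Finset.mem_insert_of_mem (Finset.mem_image_of_mem _ ((h 0).mem_toFinset.mpr hi)))
  · exact (WithTop.coe_le_coe.mpr (T.min'_le 0 (Finset.mem_insert_self _ _))).trans (not_le.mp hi).le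

theorem HasSumC.mul {b : κ → C p} (ha : HasSumC p a s) (hb : HasSumC p b t) :
    HasSumC p (fun x : ι × κ => a x.1 * b x.2) (s * t) := by
  classical
  obtain ⟨γ, hγ⟩ := ha.1.exists_bound
  obtain ⟨δ, hδ⟩ := hb.1.exists_bound
  have hn : IsNull p (fun x : ι × κ => a x.1 * b x.2) := fun B =>
    ((ha.1 (B - δ)).prod (hb.1 (B - γ))).subset fun x hx => by
      rw [Set.mem_ofPred_eq, ord_mul] at hx
      constructor
      · have h1 := (add_le_add le_rfl (hδ x.2)).trans hx
        show ord (a x.1) ≤ _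
        revert h1
        cases ord (a x.1) with
        | top => simp
        | coe u => norm_cast; intro h1; linarith
      · have h1 := (add_le_add (hγ x.1) le_rfl).trans hx
        show ord (b x.2) ≤ _
        revert h1
        cases ord (b x.2) with
        | top => simp
        | coe u => norm_cast; intro h1; linarith
  obtain ⟨σ, hσ⟩ := hn.exists_hasSumC
  have hrow : ∀ i, HasSumC p (fun x : ι × κ => if x.1 = i then a x.1 * b x.2 else 0) (a i * t) := by
    intro i
    refine (HasSumC.comp_injective_iff (e := fun k => (i, k)) (fun k k' h => (Prod.ext_iff.mp h).2)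
      fun x hx => if_neg fun h => hx ⟨x.2, by simp [← h]⟩).mp ?_
    simpa [Function.comp_def] using hb.const_mul (a i)
  have h2 := hσ.fiberwise Prod.fst hrow
  rwa [h2.unique (ha.mul_const t)] at hσ

theorem HasSumC.pow_char_pow (ha : HasSumC p a s) (j : ℕ) :
    HasSumC p (fun i => a i ^ p ^ j) (s ^ p ^ j) := by
  have hq : (0 : ℚ) < ((p ^ j : ℕ) : ℚ) := by exact_mod_cast pow_pos (Fact.out : p.Prime).pos j
  have key : ∀ (y : C p) (B : ℚ), (B : WithTop ℚ) < ord (y ^ p ^ j) ↔
      ((B / (p ^ j : ℕ) : ℚ) : WithTop ℚ) < ord y := by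
    intro y B
    rw [ord_pow]
    cases hy : ord y with
    | top =>
      obtain ⟨m, hm⟩ := Nat.exists_eq_succ_of_ne_zero (pow_pos (Fact.out : p.Prime).pos j).ne'
      have ht : (p ^ j) • (⊤ : WithTop ℚ) = ⊤ := by rw [hm, Nat.succ_eq_add_one, succ_nsmul, WithTop.add_top]
      rw [ht]
      exact iff_of_true (WithTop.coe_lt_top _) (WithTop.coe_lt_top _)
    | coe u =>
      rw [← WithTop.coe_nsmul, WithTop.coe_lt_coe, WithTop.coe_lt_coe, nsmul_eq_mul,
        div_lt_iff₀ hq, mul_comm]
  refine ⟨fun B => (ha.1 (B / (p ^ j : ℕ))).subset fun i hi => ?_, fun B => ?_⟩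
  · exact not_lt.mp fun h => not_lt.mpr hi ((key _ _).mpr h)
  · obtain ⟨T, hT⟩ := ha.2 (B / (p ^ j : ℕ))
    refine ⟨T, fun t' ht' => ?_⟩
    rw [← sum_pow_char_pow, ← sub_pow_char_pow, key]
    exact hT t' ht'

/-! ### Values of series -/

variable {σ τ : Type*} [Fintype σ] [Fintype τ] {R : Type*} [CommRing R] {c : R →+* C p}
  {f g : MvPowerSeries σ R} {x y : σ → C p}

/-- The coefficients of the series land in the valuation ring. -/
def IntCoeff (c : R →+* C p) {σ : Type*} (f : MvPowerSeries σ R) : Prop :=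
  ∀ d, 0 ≤ ord (c (MvPowerSeries.coeff d f))

theorem intCoeff_of (hc : ∀ r, 0 ≤ ord (c r)) {σ : Type*} (f : MvPowerSeries σ R) :
    IntCoeff c f := fun _ => hc _

theorem intCoeff_residue {σ : Type*} (f : MvPowerSeries σ (Kb p)) : IntCoeff HahnSeries.C f :=
  intCoeff_of ord_C_nonneg f

theorem intCoeff_iff {σ : Type*} {f : MvPowerSeries σ R} :
    IntCoeff c f ↔ ∀ d, MvPowerSeries.coeff d f ∈ (OC p).comap c := Iff.rfl

theorem intCoeff_zero {σ : Type*} : IntCoeff c (0 : MvPowerSeries σ R) :=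
  intCoeff_iff.mpr fun d => by simp

theorem IntCoeff.add {σ : Type*} {f g : MvPowerSeries σ R} (hf : IntCoeff c f)
    (hg : IntCoeff c g) : IntCoeff c (f + g) :=
  intCoeff_iff.mpr fun d => by
    rw [map_add]
    exact add_mem (intCoeff_iff.mp hf d) (intCoeff_iff.mp hg d)

theorem IntCoeff.neg {σ : Type*} {f : MvPowerSeries σ R} (hf : IntCoeff c f) : IntCoeff c (-f) :=
  intCoeff_iff.mpr fun d => by
    rw [map_neg]
    exact neg_mem (intCoeff_iff.mp hf d)

theorem IntCoeff.sub {σ : Type*} {f g : MvPowerSeries σ R} (hf : IntCoeff c f)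
    (hg : IntCoeff c g) : IntCoeff c (f - g) := by
  rw [sub_eq_add_neg]
  exact hf.add hg.neg

theorem IntCoeff.mul {σ : Type*} {f g : MvPowerSeries σ R} (hf : IntCoeff c f)
    (hg : IntCoeff c g) : IntCoeff c (f * g) :=
  intCoeff_iff.mpr fun d => by
    classical
    rw [coeff_mul]
    exact sum_mem fun x _ => mul_mem (intCoeff_iff.mp hf _) (intCoeff_iff.mp hg _)

theorem intCoeff_monomial {σ : Type*} (d : σ →₀ ℕ) {r : R} (hr : 0 ≤ ord (c r)) :
    IntCoeff c (monomial d r) := fun e => by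
  classical
  rw [coeff_monomial]
  split_ifs
  · exact hr
  · simp

theorem intCoeff_one {σ : Type*} : IntCoeff c (1 : MvPowerSeries σ R) :=
  intCoeff_monomial (σ := σ) 0 (r := 1) (by simp)

theorem intCoeff_C {σ : Type*} {r : R} (hr : 0 ≤ ord (c r)) :
    IntCoeff c (MvPowerSeries.C r : MvPowerSeries σ R) :=
  intCoeff_monomial (σ := σ) 0 hr

theorem intCoeff_X {σ : Type*} (i : σ) : IntCoeff c (MvPowerSeries.X i : MvPowerSeries σ R) :=
  intCoeff_monomial (σ := σ) _ (by simp)

theorem IntCoeff.pow {σ : Type*} {f : MvPowerSeries σ R} (hf : IntCoeff c f) (m : ℕ) :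
    IntCoeff c (f ^ m) := by
  induction m with
  | zero => simpa using intCoeff_one
  | succ m ih => rw [pow_succ]; exact ih.mul hf

theorem IntCoeff.prod {σ : Type*} {ι : Type*} (T : Finset ι) {f : ι → MvPowerSeries σ R}
    (hf : ∀ i ∈ T, IntCoeff c (f i)) : IntCoeff c (∏ i ∈ T, f i) :=
  Finset.prod_induction f (IntCoeff c) (fun _ _ ha hb => ha.mul hb) intCoeff_one hf

omit [Fintype τ] in
theorem IntCoeff.subst {f : MvPowerSeries σ R} {φ : σ → MvPowerSeries τ R}
    (hf : IntCoeff c f) (hφ : ∀ i, IntCoeff c (φ i))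
    (hφ0 : ∀ i, constantCoeff (φ i) = 0) : IntCoeff c (MvPowerSeries.subst φ f) :=
  intCoeff_iff.mpr fun e => by
    rw [coeff_subst (hasSubst_of_constantCoeff_zero hφ0)]
    refine finsum_induction _ (Subring.zero_mem _) (fun _ _ => Subring.add_mem _) fun d => ?_
    rw [smul_eq_mul, Finsupp.prod_fintype _ _ fun i => pow_zero (φ i)]
    exact mul_mem (intCoeff_iff.mp hf d)
      (intCoeff_iff.mp (IntCoeff.prod _ fun i _ => (hφ i).pow _) e)

theorem exists_pos_bound (hx : ∀ i, 0 < ord (x i)) :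
    ∃ ε : ℚ, 0 < ε ∧ ∀ i, (ε : WithTop ℚ) ≤ ord (x i) := by
  classical
  set T := insert (1 : ℚ) ((Finset.univ.filter fun i => x i ≠ 0).image fun i => (x i).order) with hT
  have hne : T.Nonempty := ⟨1, Finset.mem_insert_self _ _⟩
  refine ⟨T.min' hne, ?_, fun i => ?_⟩
  · rw [Finset.lt_min'_iff]
    intro q hq
    rw [hT, Finset.mem_insert, Finset.mem_image] at hq
    rcases hq with rfl | ⟨i, hi, rfl⟩
    · exact one_pos
    · have := hx i
      rw [ord, ← HahnSeries.order_eq_orderTop_of_ne_zero (Finset.mem_filter.mp hi).2] at this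
      exact_mod_cast this
  · by_cases h0 : x i = 0
    · simp [h0]
    · rw [ord, ← HahnSeries.order_eq_orderTop_of_ne_zero h0, WithTop.coe_le_coe]
      exact T.min'_le _ (Finset.mem_insert_of_mem
        (Finset.mem_image_of_mem _ (Finset.mem_filter.mpr ⟨Finset.mem_univ _, h0⟩)))

theorem le_ord_prod_pow {ε : ℚ} (hε : ∀ i, (ε : WithTop ℚ) ≤ ord (x i)) (d : σ →₀ ℕ) :
    (((∑ i, d i : ℕ) • ε : ℚ) : WithTop ℚ) ≤ ord (∏ i, x i ^ d i) := by
  classical
  have h : ∀ T : Finset σ, (((∑ i ∈ T, d i : ℕ) • ε : ℚ) : WithTop ℚ) ≤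
      ord (∏ i ∈ T, x i ^ d i) := by
    intro T
    induction T using Finset.induction_on with
    | empty => simp
    | @insert i T hi ih =>
      rw [Finset.sum_insert hi, Finset.prod_insert hi, add_nsmul, WithTop.coe_add, ord_mul, ord_pow,
        WithTop.coe_nsmul]
      exact add_le_add (nsmul_le_nsmul_right (hε i) _) ih
  exact h _

theorem le_ord_term (hf : IntCoeff c f) {ε : ℚ} (hε : ∀ i, (ε : WithTop ℚ) ≤ ord (x i))
    (d : σ →₀ ℕ) :
    (((∑ i, d i : ℕ) • ε : ℚ) : WithTop ℚ) ≤
      ord (c (MvPowerSeries.coeff d f) * ∏ i, x i ^ d i) := by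
  rw [ord_mul]
  exact (le_ord_prod_pow hε d).trans (le_add_of_nonneg_left (hf d))

theorem finite_exponents (N : ℕ) : {d : σ →₀ ℕ | ∀ i, d i < N}.Finite := by
  refine ((Set.Finite.pi (t := fun _ : σ => Set.Iio N) fun _ => Set.finite_Iio N).preimage
    (f := fun d : σ →₀ ℕ => (d : σ → ℕ)) DFunLike.coe_injective.injOn).subset ?_
  intro d hd
  simpa using hd

theorem isNull_eval (hf : IntCoeff c f) (hx : ∀ i, 0 < ord (x i)) :
    IsNull p (fun d : σ →₀ ℕ => c (MvPowerSeries.coeff d f) * ∏ i, x i ^ d i) := by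
  classical
  obtain ⟨ε, hε0, hε⟩ := exists_pos_bound hx
  intro B
  obtain ⟨N, hN⟩ := exists_nat_gt (B / ε)
  refine (finite_exponents N).subset fun d hd i => ?_
  by_contra hi
  rw [not_lt] at hi
  have h1 := (le_ord_term hf hε d).trans hd
  rw [WithTop.coe_le_coe, nsmul_eq_mul] at h1
  have h2 : (N : ℚ) ≤ ((∑ i, d i : ℕ) : ℚ) := by
    exact_mod_cast hi.trans (Finset.single_le_sum (fun j _ => Nat.zero_le (d j)) (Finset.mem_univ i))
  have h3 : (B / ε) * ε < (N : ℚ) * ε := mul_lt_mul_of_pos_right hN hε0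
  rw [div_mul_cancel₀ B hε0.ne'] at h3
  nlinarith [mul_le_mul_of_nonneg_right h2 hε0.le]

theorem hasEvalC (hf : IntCoeff c f) (hx : ∀ i, 0 < ord (x i)) :
    HasEvalC p c f x (evalC p c f x) :=
  (isNull_eval hf hx).hasSumC

theorem HasEvalC.evalC_eq {y : C p} (h : HasEvalC p c f x y) : evalC p c f x = y := h.sumC_eq

theorem evalC_map {S : Type*} [CommRing S] (φ : S →+* R) (c : R →+* C p) (f : MvPowerSeries σ S)
    (x : σ → C p) : evalC p c (MvPowerSeries.map φ f) x = evalC p (c.comp φ) f x := by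
  simp only [evalC, coeff_map, RingHom.comp_apply]

theorem evalC_zero : evalC p c (0 : MvPowerSeries σ R) x = 0 := by
  simp only [evalC, map_zero, zero_mul]
  exact hasSumC_zero.sumC_eq

theorem evalC_add (hf : IntCoeff c f) (hg : IntCoeff c g) (hx : ∀ i, 0 < ord (x i)) :
    evalC p c (f + g) x = evalC p c f x + evalC p c g x := by
  refine HasEvalC.evalC_eq ?_
  have := HasSumC.add (hasEvalC hf hx) (hasEvalC hg hx)
  simpa only [HasEvalC, map_add, add_mul] using this

theorem evalC_neg (hf : IntCoeff c f) (hx : ∀ i, 0 < ord (x i)) :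
    evalC p c (-f) x = -evalC p c f x := by
  refine HasEvalC.evalC_eq ?_
  have := HasSumC.neg (hasEvalC hf hx)
  simpa only [HasEvalC, map_neg, neg_mul] using this

theorem evalC_sub (hf : IntCoeff c f) (hg : IntCoeff c g) (hx : ∀ i, 0 < ord (x i)) :
    evalC p c (f - g) x = evalC p c f x - evalC p c g x := by
  rw [sub_eq_add_neg, evalC_add hf hg.neg hx, evalC_neg hg hx, sub_eq_add_neg]

theorem evalC_monomial (d : σ →₀ ℕ) (r : R) :
    evalC p c (monomial d r) x = c r * ∏ i, x i ^ d i := by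
  classical
  refine HasEvalC.evalC_eq ?_
  have h := hasSumC_of_support_subset (p := p)
    (a := fun e : σ →₀ ℕ => c (MvPowerSeries.coeff e (monomial d r)) * ∏ i, x i ^ e i) {d}
    fun e he => by simp [coeff_monomial, Finset.notMem_singleton.mp he]
  simpa [HasEvalC] using h

theorem evalC_C (r : R) : evalC p c (MvPowerSeries.C r) x = c r := by
  simpa using evalC_monomial (c := c) (x := x) 0 r

theorem evalC_one : evalC p c (1 : MvPowerSeries σ R) x = 1 := by
  rw [← map_one (MvPowerSeries.C (σ := σ) (R := R)), evalC_C, map_one]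

theorem evalC_X (i : σ) : evalC p c (MvPowerSeries.X i) x = x i := by
  classical
  rw [MvPowerSeries.X, evalC_monomial, map_one, one_mul,
    Finset.prod_eq_single i (fun j _ hj => by simp [Finsupp.single_eq_of_ne hj]) (by simp)]
  simp

theorem evalC_mul (hf : IntCoeff c f) (hg : IntCoeff c g) (hx : ∀ i, 0 < ord (x i)) :
    evalC p c (f * g) x = evalC p c f x * evalC p c g x := by
  classical
  refine HasEvalC.evalC_eq ((HasSumC.mul (hasEvalC hf hx) (hasEvalC hg hx)).fiberwise
    (fun de : (σ →₀ ℕ) × (σ →₀ ℕ) => de.1 + de.2) fun m => ?_)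
  have h := hasSumC_of_support_subset (p := p)
    (a := fun de : (σ →₀ ℕ) × (σ →₀ ℕ) => if de.1 + de.2 = m then
      (c (MvPowerSeries.coeff de.1 f) * ∏ i, x i ^ de.1 i) *
        (c (MvPowerSeries.coeff de.2 g) * ∏ i, x i ^ de.2 i) else 0)
    (Finset.HasAntidiagonal.antidiagonal m)
    fun de hde => if_neg fun h => hde (Finset.HasAntidiagonal.mem_antidiagonal.mpr h)
  convert h using 1
  rw [coeff_mul, map_sum, Finset.sum_mul]
  refine Finset.sum_congr rfl fun de hde => ?_
  rw [Finset.HasAntidiagonal.mem_antidiagonal] at hde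
  rw [if_pos hde, map_mul, ← hde]
  simp only [Finsupp.add_apply, pow_add, Finset.prod_mul_distrib]
  ring

theorem evalC_pow (hf : IntCoeff c f) (hx : ∀ i, 0 < ord (x i)) (m : ℕ) :
    evalC p c (f ^ m) x = evalC p c f x ^ m := by
  induction m with
  | zero => rw [pow_zero, pow_zero, evalC_one]
  | succ m ih => rw [pow_succ, pow_succ, evalC_mul (hf.pow m) hf hx, ih]

theorem evalC_prod {ι : Type*} (T : Finset ι) {φ : ι → MvPowerSeries σ R}
    (hφ : ∀ i, IntCoeff c (φ i)) (hx : ∀ i, 0 < ord (x i)) :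
    evalC p c (∏ i ∈ T, φ i) x = ∏ i ∈ T, evalC p c (φ i) x := by
  classical
  induction T using Finset.induction_on with
  | empty => simp [evalC_one]
  | @insert i T hi ih =>
    rw [Finset.prod_insert hi, Finset.prod_insert hi,
      evalC_mul (hφ i) (IntCoeff.prod _ fun j _ => hφ j) hx, ih]

theorem evalC_sum {ι : Type*} (T : Finset ι) {φ : ι → MvPowerSeries σ R}
    (hφ : ∀ i, IntCoeff c (φ i)) (hx : ∀ i, 0 < ord (x i)) :
    evalC p c (∑ i ∈ T, φ i) x = ∑ i ∈ T, evalC p c (φ i) x := by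
  classical
  induction T using Finset.induction_on with
  | empty => simp [evalC_zero]
  | @insert i T hi ih =>
    have hT : IntCoeff c (∑ j ∈ T, φ j) :=
      Finset.sum_induction φ (IntCoeff c) (fun _ _ h h' => h.add h') intCoeff_zero fun j _ => hφ j
    rw [Finset.sum_insert hi, Finset.sum_insert hi, evalC_add (hφ i) hT hx, ih]

variable (c) in
/-- Evaluation as a ring homomorphism. -/
def evalHom (hc : ∀ r, 0 ≤ ord (c r)) (x : σ → C p) (hx : ∀ i, 0 < ord (x i)) :
    MvPowerSeries σ R →+* C p where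
  toFun f := evalC p c f x
  map_zero' := evalC_zero
  map_one' := evalC_one
  map_add' f g := evalC_add (intCoeff_of hc f) (intCoeff_of hc g) hx
  map_mul' f g := evalC_mul (intCoeff_of hc f) (intCoeff_of hc g) hx

/-! ### Bounds -/

theorem ord_evalC_nonneg (hf : IntCoeff c f) (hx : ∀ i, 0 < ord (x i)) :
    0 ≤ ord (evalC p c f x) := by
  refine (hasEvalC hf hx).le_ord fun d => ?_
  rw [ord_mul]
  exact add_nonneg (hf d)
    ((OC p).prod_mem (t := Finset.univ) fun i _ => (OC p).pow_mem (hx i).le (d i))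

theorem le_ord_evalC (hf : IntCoeff c f) (hx : ∀ i, 0 < ord (x i)) {m : WithTop ℚ}
    (h : ∀ d, MvPowerSeries.coeff d f ≠ 0 →
      m ≤ ord (c (MvPowerSeries.coeff d f) * ∏ i, x i ^ d i)) :
    m ≤ ord (evalC p c f x) := by
  refine (hasEvalC hf hx).le_ord fun d => ?_
  by_cases hd : MvPowerSeries.coeff d f = 0
  · simp [hd]
  · exact h d hd

theorem le_ord_evalC_of_degree (hf : IntCoeff c f) {ε : ℚ} (hε0 : 0 < ε)
    (hε : ∀ i, (ε : WithTop ℚ) ≤ ord (x i)) {N : ℕ}
    (hN : ∀ d : σ →₀ ℕ, ∑ i, d i < N → MvPowerSeries.coeff d f = 0) :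
    ((N • ε : ℚ) : WithTop ℚ) ≤ ord (evalC p c f x) := by
  refine le_ord_evalC hf (fun i => (WithTop.coe_pos.mpr hε0).trans_le (hε i)) fun d hd => ?_
  exact (WithTop.coe_le_coe.mpr (nsmul_le_nsmul_left hε0.le (not_lt.mp fun h => hd (hN d h)))).trans
    (le_ord_term hf hε d)

theorem ord_evalC_pos (hf : IntCoeff c f) (hf0 : constantCoeff f = 0) (hx : ∀ i, 0 < ord (x i)) :
    0 < ord (evalC p c f x) := by
  obtain ⟨ε, hε0, hε⟩ := exists_pos_bound hx
  refine (WithTop.coe_pos.mpr hε0).trans_le ?_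
  simpa using le_ord_evalC_of_degree hf hε0 hε (N := 1) fun d hd => by
    have : d = 0 := by
      ext i
      have := Finset.single_le_sum (f := fun j => d j) (fun j _ => Nat.zero_le _) (Finset.mem_univ i)
      simp only [Finsupp.coe_zero, Pi.zero_apply]
      omega
    subst this
    rwa [coeff_zero_eq_constantCoeff_apply]

theorem le_ord_pow_sub {u w : C p} (hu : 0 ≤ ord u) (hw : 0 ≤ ord w) {δ : WithTop ℚ}
    (h : δ ≤ ord (u - w)) (m : ℕ) : δ ≤ ord (u ^ m - w ^ m) := by
  induction m with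
  | zero => simp
  | succ m ih =>
    rw [pow_succ, pow_succ, show u ^ m * u - w ^ m * w = (u ^ m - w ^ m) * u + w ^ m * (u - w) by ring]
    refine le_ord_add ?_ ?_
    · rw [ord_mul]; exact ih.trans (le_add_of_nonneg_right hu)
    · rw [ord_mul]; exact h.trans (le_add_of_nonneg_left ((OC p).pow_mem hw m))

/-- Values depend 1-Lipschitz on the point. -/
theorem le_ord_evalC_sub (hf : IntCoeff c f) (hx : ∀ i, 0 < ord (x i)) (hy : ∀ i, 0 < ord (y i))
    {δ : WithTop ℚ} (h : ∀ i, δ ≤ ord (x i - y i)) :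
    δ ≤ ord (evalC p c f x - evalC p c f y) := by
  classical
  refine (HasSumC.sub (hasEvalC hf hx) (hasEvalC hf hy)).le_ord fun d => ?_
  rw [← mul_sub, ord_mul]
  refine le_trans ?_ (le_add_of_nonneg_left (hf d))
  suffices ∀ T : Finset σ, δ ≤ ord ((∏ i ∈ T, x i ^ d i) - ∏ i ∈ T, y i ^ d i) from this _
  intro T
  induction T using Finset.induction_on with
  | empty => simp
  | @insert i T hi ih =>
    rw [Finset.prod_insert hi, Finset.prod_insert hi,
      show x i ^ d i * (∏ j ∈ T, x j ^ d j) - y i ^ d i * ∏ j ∈ T, y j ^ d j =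
        (x i ^ d i - y i ^ d i) * (∏ j ∈ T, x j ^ d j) +
          y i ^ d i * ((∏ j ∈ T, x j ^ d j) - ∏ j ∈ T, y j ^ d j) by ring]
    refine le_ord_add ?_ ?_
    · rw [ord_mul]
      exact (le_ord_pow_sub (hx i).le (hy i).le (h i) _).trans (le_add_of_nonneg_right
        ((OC p).prod_mem fun j _ => (OC p).pow_mem (hx j).le _))
    · rw [ord_mul]
      exact ih.trans (le_add_of_nonneg_left ((OC p).pow_mem (hy i).le _))

/-! ### Substitution -/

theorem evalC_subst {f : MvPowerSeries σ R} {φ : σ → MvPowerSeries τ R} {x : τ → C p}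
    (hf : IntCoeff c f) (hφ : ∀ i, IntCoeff c (φ i)) (hφ0 : ∀ i, constantCoeff (φ i) = 0)
    (hx : ∀ i, 0 < ord (x i)) :
    evalC p c (MvPowerSeries.subst φ f) x = evalC p c f (fun i => evalC p c (φ i) x) := by
  classical
  have hs : HasSubst φ := hasSubst_of_constantCoeff_zero hφ0
  set z := fun i => evalC p c (φ i) x
  have hz : ∀ i, 0 < ord (z i) := fun i => ord_evalC_pos (hφ i) (hφ0 i) hx
  obtain ⟨ε, hε0, hε⟩ := exists_pos_bound hx
  obtain ⟨η, hη0, hη⟩ := exists_pos_bound hz
  refine eq_of_forall_lt_ord_sub fun B => ?_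
  obtain ⟨N, hN⟩ := exists_nat_gt (B / min ε η)
  have hm : 0 < min ε η := lt_min hε0 hη0
  have hB : ∀ e : ℚ, min ε η ≤ e → B < (N • e : ℚ) := fun e he => by
    rw [nsmul_eq_mul]
    rw [div_lt_iff₀ hm] at hN
    exact hN.trans_le (mul_le_mul_of_nonneg_left he (Nat.cast_nonneg N))
  set T := (finite_exponents (σ := σ) N).toFinset with hT
  set P := ∑ d ∈ T, monomial d (MvPowerSeries.coeff d f) with hP
  have hPint : ∀ d, IntCoeff c (monomial d (MvPowerSeries.coeff d f)) := fun d =>
    intCoeff_monomial d (hf d)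
  have hPi : IntCoeff c P :=
    Finset.sum_induction _ (IntCoeff c) (fun _ _ h h' => h.add h') intCoeff_zero fun d _ => hPint d
  have hrest : IntCoeff c (f - P) := hf.sub hPi
  have hvan : ∀ d : σ →₀ ℕ, ∑ i, d i < N → MvPowerSeries.coeff d (f - P) = 0 := by
    intro d hd
    have hdT : d ∈ T := (Set.Finite.mem_toFinset _).mpr fun i =>
      (Finset.single_le_sum (fun j _ => Nat.zero_le (d j)) (Finset.mem_univ i)).trans_lt hd
    rw [map_sub, hP, map_sum, Finset.sum_eq_single d (fun e _ he => coeff_monomial_ne he.symm _)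
      (fun h => absurd hdT h), coeff_monomial_same, sub_self]
  have hvan' : ∀ e : τ →₀ ℕ, ∑ i, e i < N →
      MvPowerSeries.coeff e (MvPowerSeries.subst φ (f - P)) = 0 := by
    intro e he
    refine coeff_of_lt_order (lt_of_lt_of_le ?_ (le_order_subst hs _))
    have h1 : (N : ℕ∞) ≤ (f - P).order := nat_le_order fun d hd => hvan d (by
      rwa [Finsupp.degree_eq_sum] at hd)
    refine lt_of_lt_of_le ?_ (h1.trans (le_mul_of_one_le_left (zero_le) (le_iInf fun i =>
      one_le_order_iff_constCoeff_eq_zero.mpr (hφ0 i))))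
    rw [Finsupp.degree_eq_sum]
    exact_mod_cast he
  have hmono : ∀ d, MvPowerSeries.subst φ (monomial d (MvPowerSeries.coeff d f)) =
      MvPowerSeries.C (MvPowerSeries.coeff d f) * ∏ i, φ i ^ d i := by
    intro d
    rw [← MvPolynomial.coe_monomial, subst_coe, MvPolynomial.aeval_monomial,
      Finsupp.prod_fintype _ _ fun i => pow_zero (φ i)]
    rfl
  have hPev : evalC p c (MvPowerSeries.subst φ P) x = evalC p c P z := by
    rw [hP, ← coe_substAlgHom hs, map_sum, coe_substAlgHom hs,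
      evalC_sum _ (fun d => (hPint d).subst hφ hφ0) hx, evalC_sum _ hPint hz]
    refine Finset.sum_congr rfl fun d _ => ?_
    rw [hmono, evalC_mul (intCoeff_C (hf d)) (IntCoeff.prod _ fun i _ => (hφ i).pow _) hx, evalC_C,
      evalC_prod _ (fun i => (hφ i).pow _) hx, evalC_monomial]
    congr 1
    exact Finset.prod_congr rfl fun i _ => evalC_pow (hφ i) hx _
  have e1 : MvPowerSeries.subst φ f = MvPowerSeries.subst φ P + MvPowerSeries.subst φ (f - P) := by
    rw [← coe_substAlgHom hs, ← map_add, add_sub_cancel]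
  have e2 : evalC p c f z = evalC p c P z + evalC p c (f - P) z := by
    rw [← evalC_add hPi hrest hz, add_sub_cancel]
  rw [e1, evalC_add (hPi.subst hφ hφ0) (hrest.subst hφ hφ0) hx, e2, hPev, add_sub_add_left_eq_sub]
  refine lt_ord_sub ?_ ?_
  · exact (WithTop.coe_lt_coe.mpr (hB ε (min_le_left _ _))).trans_le
      (le_ord_evalC_of_degree (hrest.subst hφ hφ0) hε0 hε hvan')
  · exact (WithTop.coe_lt_coe.mpr (hB η (min_le_right _ _))).trans_le
      (le_ord_evalC_of_degree hrest hη0 hη hvan)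

theorem evalC_pow_char_pow (hf : IntCoeff c f) (hx : ∀ i, 0 < ord (x i)) (j : ℕ) :
    evalC p c f x ^ p ^ j =
      evalC p ((iterateFrobenius (C p) p j).comp c) f (fun i => x i ^ p ^ j) := by
  refine (HasEvalC.evalC_eq ?_).symm
  have h := HasSumC.pow_char_pow (hasEvalC hf hx) j
  simp only [mul_pow, ← Finset.prod_pow, ← pow_mul, mul_comm _ (p ^ j)] at h
  simpa only [HasEvalC, RingHom.comp_apply, iterateFrobenius_def, ← pow_mul] using h

/-! ### One variable -/

variable {f₁ g₁ : PowerSeries R} {u w : C p}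

theorem intCoeff_iff₁ :
    IntCoeff c (f₁ : MvPowerSeries Unit R) ↔ ∀ m, 0 ≤ ord (c (PowerSeries.coeff m f₁)) := by
  refine ⟨fun h m => h _, fun h d => ?_⟩
  rw [show d = Finsupp.single () (d ()) from Finsupp.unique_single d]
  exact h _

theorem hasSumC_eval₁ (hf : IntCoeff c (f₁ : MvPowerSeries Unit R)) (hu : 0 < ord u) :
    HasSumC p (fun m : ℕ => c (PowerSeries.coeff m f₁) * u ^ m) (eval₁C p c f₁ u) := by
  have h := hasEvalC (x := fun _ : Unit => u) hf fun _ => hu
  have h' := (HasSumC.equiv_iff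
    (Finsupp.uniqueEquiv (M := ℕ) (α := Unit) ()).symm).mpr h
  convert h' using 1
  · ext1 m
    simp [PowerSeries.coeff]
  · rfl

theorem eval₁C_add (hf : IntCoeff c (f₁ : MvPowerSeries Unit R))
    (hg : IntCoeff c (g₁ : MvPowerSeries Unit R)) (hu : 0 < ord u) :
    eval₁C p c (f₁ + g₁) u = eval₁C p c f₁ u + eval₁C p c g₁ u :=
  evalC_add hf hg fun _ => hu

theorem eval₁C_sub (hf : IntCoeff c (f₁ : MvPowerSeries Unit R))
    (hg : IntCoeff c (g₁ : MvPowerSeries Unit R)) (hu : 0 < ord u) :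
    eval₁C p c (f₁ - g₁) u = eval₁C p c f₁ u - eval₁C p c g₁ u :=
  evalC_sub hf hg fun _ => hu

theorem eval₁C_mul (hf : IntCoeff c (f₁ : MvPowerSeries Unit R))
    (hg : IntCoeff c (g₁ : MvPowerSeries Unit R)) (hu : 0 < ord u) :
    eval₁C p c (f₁ * g₁) u = eval₁C p c f₁ u * eval₁C p c g₁ u :=
  evalC_mul hf hg fun _ => hu

theorem eval₁C_zero : eval₁C p c (0 : PowerSeries R) u = 0 := evalC_zero

theorem eval₁C_X : eval₁C p c (PowerSeries.X : PowerSeries R) u = u := evalC_X _

theorem eval₁C_X_pow (m : ℕ) : eval₁C p c (PowerSeries.X ^ m : PowerSeries R) u = u ^ m := by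
  rw [PowerSeries.X_pow_eq, eval₁C]
  refine (evalC_monomial (c := c) (x := fun _ : Unit => u) (Finsupp.single () m) 1).trans ?_
  simp

theorem ord_eval₁C_pos (hf : IntCoeff c (f₁ : MvPowerSeries Unit R))
    (hf0 : PowerSeries.constantCoeff f₁ = 0) (hu : 0 < ord u) : 0 < ord (eval₁C p c f₁ u) :=
  ord_evalC_pos hf hf0 fun _ => hu

theorem le_ord_eval₁C_sub (hf : IntCoeff c (f₁ : MvPowerSeries Unit R)) (hu : 0 < ord u)
    (hw : 0 < ord w) {δ : WithTop ℚ} (h : δ ≤ ord (u - w)) :
    δ ≤ ord (eval₁C p c f₁ u - eval₁C p c f₁ w) :=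
  le_ord_evalC_sub hf (fun _ => hu) (fun _ => hw) fun _ => h

/-- A series in one variable at the value of a series. -/
theorem evalC_subst₁ {φ : MvPowerSeries τ R} {x : τ → C p}
    (hf : IntCoeff c (f₁ : MvPowerSeries Unit R)) (hφ : IntCoeff c φ)
    (hφ0 : constantCoeff φ = 0) (hx : ∀ i, 0 < ord (x i)) :
    evalC p c (PowerSeries.subst φ f₁) x = eval₁C p c f₁ (evalC p c φ x) :=
  evalC_subst hf (fun _ => hφ) (fun _ => hφ0) hx

theorem eval₁C_subst (hf : IntCoeff c (f₁ : MvPowerSeries Unit R))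
    (hg : IntCoeff c (g₁ : MvPowerSeries Unit R)) (hg0 : PowerSeries.constantCoeff g₁ = 0)
    (hu : 0 < ord u) :
    eval₁C p c (PowerSeries.subst g₁ f₁) u = eval₁C p c f₁ (eval₁C p c g₁ u) :=
  evalC_subst₁ hf hg hg0 fun _ => hu

/-! ### Formal group laws -/

variable {G : FormalGroup R}

theorem vec2_pos {u w : C p} (hu : 0 < ord u) (hw : 0 < ord w) :
    ∀ i, 0 < ord (![u, w] i) := fun i => by fin_cases i <;> simpa

theorem ord_fadd_pos (hG : IntCoeff c G.toPowerSeries) (hu : 0 < ord u) (hw : 0 < ord w) :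
    0 < ord (fadd p c G u w) :=
  ord_evalC_pos hG G.zero_constantCoeff (vec2_pos hu hw)

theorem evalC_fgl_subst (hG : IntCoeff c G.toPowerSeries) {φ ψ : MvPowerSeries τ R}
    {x : τ → C p} (hφ : IntCoeff c φ) (hψ : IntCoeff c ψ) (hφ0 : constantCoeff φ = 0)
    (hψ0 : constantCoeff ψ = 0) (hx : ∀ i, 0 < ord (x i)) :
    evalC p c (G.toPowerSeries.subst ![φ, ψ]) x =
      fadd p c G (evalC p c φ x) (evalC p c ψ x) := by
  rw [evalC_subst hG (fun i => by fin_cases i <;> simpa) (fun i => by fin_cases i <;> simpa) hx]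
  refine congrArg (evalC p c G.toPowerSeries) (funext fun i => ?_)
  fin_cases i <;> simp

theorem fadd_assoc (hG : IntCoeff c G.toPowerSeries) {u v w : C p} (hu : 0 < ord u)
    (hv : 0 < ord v) (hw : 0 < ord w) :
    fadd p c G (fadd p c G u v) w = fadd p c G u (fadd p c G v w) := by
  have hx : ∀ i, 0 < ord (![u, v, w] i) := fun i => by fin_cases i <;> simpa
  have hX : ∀ i : Fin 3, constantCoeff (X i : MvPowerSeries (Fin 3) R) = 0 := fun i =>
    constantCoeff_X i
  have h := congrArg (fun f => evalC p c f ![u, v, w]) G.assoc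
  have h01 : IntCoeff c (G.toPowerSeries.subst ![(X 0 : MvPowerSeries (Fin 3) R), X 1]) :=
    hG.subst (fun i => by fin_cases i <;> exact intCoeff_X _)
      (fun i => by fin_cases i <;> exact hX _)
  have h12 : IntCoeff c (G.toPowerSeries.subst ![(X 1 : MvPowerSeries (Fin 3) R), X 2]) :=
    hG.subst (fun i => by fin_cases i <;> exact intCoeff_X _)
      (fun i => by fin_cases i <;> exact hX _)
  have z01 := constantCoeff_subst_eq_zero
    (a := ![(X 0 : MvPowerSeries (Fin 3) R), X 1])
    (hasSubst_of_constantCoeff_zero fun i => by fin_cases i <;> exact hX _)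
    (fun i => by fin_cases i <;> exact hX _) G.zero_constantCoeff
  have z12 := constantCoeff_subst_eq_zero
    (a := ![(X 1 : MvPowerSeries (Fin 3) R), X 2])
    (hasSubst_of_constantCoeff_zero fun i => by fin_cases i <;> exact hX _)
    (fun i => by fin_cases i <;> exact hX _) G.zero_constantCoeff
  rw [evalC_fgl_subst hG h01 (intCoeff_X _) z01 (hX _) hx,
    evalC_fgl_subst hG (intCoeff_X _) h12 (hX _) z12 hx,
    evalC_fgl_subst hG (intCoeff_X _) (intCoeff_X _) (hX _) (hX _) hx,
    evalC_fgl_subst hG (intCoeff_X _) (intCoeff_X _) (hX _) (hX _) hx] at h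
  simpa [evalC_X] using h

theorem mulSeries_constantCoeff (G : FormalGroup R) (m : ℕ) :
    PowerSeries.constantCoeff (mulSeries G m) = 0 := by
  induction m with
  | zero => simp [mulSeries]
  | succ m ih =>
    have h : ∀ i, constantCoeff ((![PowerSeries.X, mulSeries G m] : Fin 2 → PowerSeries R) i) = 0 :=
      fun i => by fin_cases i <;> [exact constantCoeff_X _; exact ih]
    exact constantCoeff_subst_eq_zero (hasSubst_of_constantCoeff_zero h) h G.zero_constantCoeff

theorem intCoeff_mulSeries (hG : IntCoeff c G.toPowerSeries) (m : ℕ) :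
    IntCoeff c (mulSeries G m : MvPowerSeries Unit R) := by
  induction m with
  | zero => exact intCoeff_zero
  | succ m ih =>
    exact hG.subst (fun i => by fin_cases i <;> [exact intCoeff_X _; exact ih])
      fun i => by fin_cases i <;> [exact constantCoeff_X _; exact mulSeries_constantCoeff G m]

theorem eval₁C_mulSeries_zero : eval₁C p c (mulSeries G 0) u = 0 := eval₁C_zero

theorem eval₁C_mulSeries_succ (hG : IntCoeff c G.toPowerSeries) (hu : 0 < ord u) (m : ℕ) :
    eval₁C p c (mulSeries G (m + 1)) u = fadd p c G u (eval₁C p c (mulSeries G m) u) := by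
  refine (evalC_fgl_subst hG (intCoeff_X _) (intCoeff_mulSeries hG m) (constantCoeff_X _)
    (mulSeries_constantCoeff G m) (fun _ : Unit => hu)).trans ?_
  exact congrArg (fun z => fadd p c G z _) (evalC_X _)

/-! ### Homomorphisms to `C p` -/

/-- A series without small exponents is in the ideal of the `N`-th powers of the variables. -/
theorem mem_span_X_pow {σ : Type*} (T : Finset σ) (N : ℕ) (f : MvPowerSeries σ R)
    (h : ∀ d : σ →₀ ℕ, (∀ i ∈ T, d i < N) → MvPowerSeries.coeff d f = 0) :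
    ∃ φ : σ → MvPowerSeries σ R, f = ∑ i ∈ T, MvPowerSeries.X i ^ N * φ i := by
  classical
  induction T using Finset.induction_on generalizing f with
  | empty => exact ⟨fun _ => 0, by ext d; simp [h d]⟩
  | @insert i T hi ih =>
    set g : MvPowerSeries σ R := fun e => MvPowerSeries.coeff (e + Finsupp.single i N) f with hg
    have hcg : ∀ d, Finsupp.single i N ≤ d → MvPowerSeries.coeff d (X i ^ N * g) =
        MvPowerSeries.coeff d f := fun d hd => by
      rw [X_pow_eq, coeff_monomial_mul, if_pos hd, one_mul]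
      show MvPowerSeries.coeff (d - Finsupp.single i N + Finsupp.single i N) f = _
      rw [tsub_add_cancel_of_le hd]
    obtain ⟨φ, hφ⟩ := ih (f - X i ^ N * g) fun d hd => by
      rw [map_sub]
      by_cases hle : Finsupp.single i N ≤ d
      · rw [hcg d hle, sub_self]
      · rw [X_pow_eq, coeff_monomial_mul, if_neg hle, sub_zero]
        refine h d fun j hj => ?_
        rcases Finset.mem_insert.mp hj with rfl | hj
        · rw [Finsupp.single_le_iff, not_le] at hle
          exact hle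
        · exact hd j hj
    refine ⟨Function.update φ i g, ?_⟩
    have hne : ∀ j ∈ T, X j ^ N * Function.update φ i g j = X j ^ N * φ j := fun j hj => by
      rw [Function.update_of_ne (ne_of_mem_of_not_mem hj hi)]
    rw [Finset.sum_insert hi, Function.update_self, Finset.sum_congr rfl hne]
    rw [← hφ, add_sub_cancel]

/-- A homomorphism with integral values is evaluation at the images of the variables. -/
theorem hom_eq_evalC (χ : MvPowerSeries σ R →+* C p) (hint : ∀ f, 0 ≤ ord (χ f))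
    (hX : ∀ i, 0 < ord (χ (MvPowerSeries.X i))) (f : MvPowerSeries σ R) :
    χ f = evalC p (χ.comp MvPowerSeries.C) f (fun i => χ (MvPowerSeries.X i)) := by
  classical
  set c' := χ.comp (MvPowerSeries.C (σ := σ) (R := R))
  set z := fun i => χ (MvPowerSeries.X i)
  have hc : ∀ r, 0 ≤ ord (c' r) := fun r => hint _
  obtain ⟨ε, hε0, hε⟩ := exists_pos_bound hX
  refine eq_of_forall_lt_ord_sub fun B => ?_
  obtain ⟨N, hN⟩ := exists_nat_gt (B / ε)
  have hB : (B : WithTop ℚ) < ((N • ε : ℚ) : WithTop ℚ) := by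
    rw [WithTop.coe_lt_coe, nsmul_eq_mul]
    exact (div_lt_iff₀ hε0).mp hN
  set T := (finite_exponents (σ := σ) N).toFinset
  set P := ∑ d ∈ T, monomial d (MvPowerSeries.coeff d f) with hP
  have hvan : ∀ d : σ →₀ ℕ, (∀ i, d i < N) → MvPowerSeries.coeff d (f - P) = 0 := by
    intro d hd
    have hdT : d ∈ T := (Set.Finite.mem_toFinset _).mpr hd
    rw [map_sub, hP, map_sum, Finset.sum_eq_single d (fun e _ he => coeff_monomial_ne he.symm _)
      (fun h => absurd hdT h), coeff_monomial_same, sub_self]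
  have hPz : χ P = evalC p c' P z := by
    rw [hP, map_sum, evalC_sum _ (fun d => intCoeff_of hc _) hX]
    refine Finset.sum_congr rfl fun d _ => ?_
    rw [← MvPolynomial.coe_monomial, ← MvPolynomial.coeToMvPowerSeries.ringHom_apply,
      MvPolynomial.monomial_eq, map_mul, map_mul, Finsupp.prod_fintype _ _ fun i => pow_zero _,
      map_prod, map_prod, evalC_mul (intCoeff_of hc _) (intCoeff_of hc _) hX,
      evalC_prod _ (fun i => intCoeff_of hc _) hX]
    congr 1
    · rw [MvPolynomial.coeToMvPowerSeries.ringHom_apply, MvPolynomial.coe_C, evalC_C]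
      rfl
    · refine Finset.prod_congr rfl fun i _ => ?_
      rw [map_pow, map_pow, MvPolynomial.coeToMvPowerSeries.ringHom_apply, MvPolynomial.coe_X,
        evalC_pow (intCoeff_X i) hX, evalC_X]
  have h1 : (B : WithTop ℚ) < ord (χ (f - P)) := by
    obtain ⟨φ, hφ⟩ := mem_span_X_pow Finset.univ N (f - P) fun d hd =>
      hvan d fun i => hd i (Finset.mem_univ i)
    refine hB.trans_le ?_
    rw [hφ, map_sum]
    refine le_ord_sum _ fun i _ => ?_
    rw [map_mul, map_pow, ord_mul, ord_pow, WithTop.coe_nsmul]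
    exact (nsmul_le_nsmul_right (hε i) N).trans (le_add_of_nonneg_right (hint _))
  have h2 : (B : WithTop ℚ) < ord (evalC p c' (f - P) z) :=
    hB.trans_le (le_ord_evalC_of_degree (intCoeff_of hc _) hε0 hε fun d hd => hvan d fun i =>
      (Finset.single_le_sum (fun j _ => Nat.zero_le (d j)) (Finset.mem_univ i)).trans_lt hd)
  have e2 : evalC p c' f z = evalC p c' P z + evalC p c' (f - P) z := by
    rw [← evalC_add (intCoeff_of hc _) (intCoeff_of hc _) hX, add_sub_cancel]
  rw [show χ f = χ P + χ (f - P) by rw [← map_add, add_sub_cancel], e2, hPz,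
    add_sub_add_left_eq_sub]
  exact lt_ord_sub h1 h2

/-! ### p-th powers and roots -/

theorem coeff_pow_supp {h : C p} {a : ℚ} (hh : ∀ q, a ≤ q → h.coeff q = 0) (m : ℕ) :
    ∀ q, (m + 1 : ℕ) • a ≤ q → (h ^ (m + 1)).coeff q = 0 := by
  induction m with
  | zero => intro q hq; rw [pow_one]; exact hh q (by simpa using hq)
  | succ m ih =>
    intro q hq
    rw [pow_succ, HahnSeries.coeff_mul]
    refine Finset.sum_eq_zero fun ij hij => ?_
    rw [Finset.mem_antidiagonal] at hij
    obtain ⟨hi, hj, hsum⟩ := hij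
    by_cases h1 : (m + 1 : ℕ) • a ≤ ij.1
    · rw [ih _ h1, zero_mul]
    · rw [hh ij.2 (by rw [succ_nsmul] at hq; linarith [not_le.mp h1]), mul_zero]

theorem coeff_pow_char (y : C p) (δ : ℚ) : (y ^ p).coeff δ = y.coeff (δ / p) ^ p := by
  classical
  have hp : (0 : ℚ) < p := by exact_mod_cast (Fact.out : p.Prime).pos
  set a := δ / (p : ℚ) with ha
  have hpa : p • a = δ := by rw [nsmul_eq_mul, ha]; field_simp
  let hd : C p := ⟨fun q => if q < a then y.coeff q else 0, y.isPWO_support.mono fun q hq => by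
    rw [Function.mem_support] at hq
    split_ifs at hq with h
    · exact hq
    · exact absurd rfl hq⟩
  set t := y - hd - HahnSeries.single a (y.coeff a) with ht
  have htord : (a : WithTop ℚ) < ord t := by
    refine lt_ord_iff.mpr fun q hq => ?_
    rw [ht, HahnSeries.coeff_sub, HahnSeries.coeff_sub]
    rcases lt_or_eq_of_le hq with h | h
    · show y.coeff q - (if q < a then y.coeff q else 0) - _ = _
      rw [if_pos h, HahnSeries.coeff_single_of_ne h.ne, sub_self, sub_zero]
    · show y.coeff q - (if q < a then y.coeff q else 0) - _ = _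
      rw [h, if_neg (lt_irrefl a), HahnSeries.coeff_single_same, sub_zero, sub_self]
  have hy : y = hd + HahnSeries.single a (y.coeff a) + t := by rw [ht]; ring
  conv_lhs => rw [hy]
  rw [add_pow_char, add_pow_char, HahnSeries.coeff_add, HahnSeries.coeff_add,
    HahnSeries.single_pow, hpa, HahnSeries.coeff_single_same]
  have h1 : (hd ^ p).coeff δ = 0 := by
    obtain ⟨m, hm⟩ := Nat.exists_eq_succ_of_ne_zero (Fact.out : p.Prime).ne_zero
    refine (congrArg (fun k : ℕ => (hd ^ k).coeff δ) hm).trans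
      (coeff_pow_supp (a := a) (fun q hq => ?_) m δ (le_of_eq ?_))
    · exact if_neg (not_lt.mpr hq)
    · exact ((congrArg (fun k : ℕ => k • a) hm).symm.trans hpa)
  have h2 : (t ^ p).coeff δ = 0 := by
    refine lt_ord_iff.mp ?_ δ le_rfl
    rw [ord_pow, ← hpa]
    revert htord
    cases ord t with
    | top =>
      intro _
      obtain ⟨m, hm⟩ := Nat.exists_eq_succ_of_ne_zero (Fact.out : p.Prime).ne_zero
      rw [hm, Nat.succ_eq_add_one, succ_nsmul _ m, succ_nsmul (⊤ : WithTop ℚ) m, WithTop.add_top]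
      exact WithTop.coe_lt_top _
    | coe u =>
      intro h
      rw [WithTop.coe_lt_coe] at h
      rw [← WithTop.coe_nsmul, WithTop.coe_lt_coe, nsmul_eq_mul, nsmul_eq_mul]
      exact mul_lt_mul_of_pos_left h hp
  rw [h1, h2, zero_add, add_zero]

theorem coeff_root (x : C p) (q : ℚ) :
    (root p x).coeff q = (frobeniusEquiv (Kb p) p).symm (x.coeff (q * p)) := by
  have hp : (p : ℚ) ≠ 0 := by exact_mod_cast (Fact.out : p.Prime).ne_zero
  unfold root
  conv_lhs => rw [show q = (q * p) / (p : ℚ) by field_simp]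
  exact HahnSeries.embDomain_coeff

theorem root_pow (x : C p) : root p x ^ p = x := by
  have hp : (p : ℚ) ≠ 0 := by exact_mod_cast (Fact.out : p.Prime).ne_zero
  refine HahnSeries.ext (funext fun δ => ?_)
  rw [coeff_pow_char, coeff_root, div_mul_cancel₀ δ hp]
  exact frobeniusEquiv_symm_pow_p (Kb p) p _

instance : PerfectRing (C p) p :=
  PerfectRing.ofSurjective (C p) p fun x => ⟨root p x, by rw [frobenius_def, root_pow]⟩

theorem root_eq_symm (x : C p) : root p x = (frobeniusEquiv (C p) p).symm x := by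
  refine (frobeniusEquiv (C p) p).injective ?_
  rw [RingEquiv.apply_symm_apply, frobeniusEquiv_def, root_pow]

theorem powZ_natCast (x : C p) (j : ℕ) : powZ p x (j : ℤ) = x ^ p ^ j := rfl

theorem powZ_negSucc (x : C p) (j : ℕ) :
    powZ p x (Int.negSucc j) = (root p)^[j + 1] x := rfl

theorem powZ_zero (x : C p) : powZ p x 0 = x := by
  show x ^ p ^ 0 = x
  rw [pow_zero, pow_one]

theorem powZ_add_one (x : C p) (j : ℤ) : powZ p x (j + 1) = powZ p x j ^ p := by
  cases j with
  | ofNat j =>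
    show x ^ p ^ (j + 1) = (x ^ p ^ j) ^ p
    rw [← pow_mul, pow_succ]
  | negSucc j =>
    cases j with
    | zero =>
      show x ^ p ^ 0 = ((root p)^[1] x) ^ p
      simp [root_pow]
    | succ j =>
      show (root p)^[j + 1] x = ((root p)^[j + 1 + 1] x) ^ p
      rw [Function.iterate_succ_apply' (root p) (j + 1), root_pow]

theorem pow_char_injective : Function.Injective fun y : C p => y ^ p :=
  frobenius_inj (C p) p

theorem powZ_powZ (x : C p) (i j : ℤ) : powZ p (powZ p x i) j = powZ p x (i + j) := by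
  induction j using Int.induction_on with
  | zero => rw [powZ_zero, add_zero]
  | succ j ih => rw [powZ_add_one, ih, ← add_assoc, powZ_add_one]
  | pred j ih =>
    refine pow_char_injective ?_
    show powZ p (powZ p x i) (-(j : ℤ) - 1) ^ p = powZ p x (i + (-(j : ℤ) - 1)) ^ p
    rw [← powZ_add_one, ← powZ_add_one, sub_add_cancel, ih,
      show i + (-(j : ℤ) - 1) + 1 = i + -(j : ℤ) by ring]

theorem powZ_mul (x y : C p) (j : ℤ) : powZ p (x * y) j = powZ p x j * powZ p y j := by
  induction j using Int.induction_on with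
  | zero => simp only [powZ_zero]
  | succ j ih => rw [powZ_add_one, powZ_add_one, powZ_add_one, ih, mul_pow]
  | pred j ih =>
    refine pow_char_injective ?_
    show powZ p (x * y) (-(j : ℤ) - 1) ^ p = (powZ p x (-(j:ℤ) - 1) * powZ p y (-(j:ℤ) - 1)) ^ p
    rw [mul_pow, ← powZ_add_one, ← powZ_add_one, ← powZ_add_one, sub_add_cancel, ih]

theorem powZ_add (x y : C p) (j : ℤ) : powZ p (x + y) j = powZ p x j + powZ p y j := by
  induction j using Int.induction_on with
  | zero => simp only [powZ_zero]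
  | succ j ih => rw [powZ_add_one, powZ_add_one, powZ_add_one, ih, add_pow_char]
  | pred j ih =>
    refine pow_char_injective ?_
    show powZ p (x + y) (-(j : ℤ) - 1) ^ p = (powZ p x (-(j:ℤ) - 1) + powZ p y (-(j:ℤ) - 1)) ^ p
    rw [add_pow_char, ← powZ_add_one, ← powZ_add_one, ← powZ_add_one, sub_add_cancel, ih]

theorem powZ_zero_left (j : ℤ) : powZ p (0 : C p) j = 0 := by
  have h := powZ_add (0 : C p) 0 j
  rw [add_zero] at h
  exact left_eq_add.mp h

theorem powZ_one_left (j : ℤ) : powZ p (1 : C p) j = 1 := by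
  induction j using Int.induction_on with
  | zero => rw [powZ_zero]
  | succ j ih => rw [powZ_add_one, ih, one_pow]
  | pred j ih =>
    refine pow_char_injective ?_
    show powZ p (1 : C p) (-(j : ℤ) - 1) ^ p = (1 : C p) ^ p
    rw [← powZ_add_one, sub_add_cancel, ih, one_pow]

theorem ord_pow_p {x : C p} {q : ℚ} : ord (x ^ p) = ((p • q : ℚ) : WithTop ℚ) ↔ ord x = q := by
  have hp := (Fact.out : p.Prime).pos
  rw [ord_pow]
  cases ord x with
  | top =>
    obtain ⟨m, hm⟩ := Nat.exists_eq_succ_of_ne_zero hp.ne'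
    rw [hm, Nat.succ_eq_add_one, succ_nsmul (⊤ : WithTop ℚ) m, WithTop.add_top]
    exact iff_of_false WithTop.top_ne_coe WithTop.top_ne_coe
  | coe u =>
    rw [← WithTop.coe_nsmul, WithTop.coe_inj, WithTop.coe_inj]
    exact ⟨fun h => (nsmul_right_injective hp.ne') h, fun h => by rw [h]⟩

theorem ord_powZ {x : C p} {q : ℚ} (h : ord x = q) (j : ℤ) :
    ord (powZ p x j) = (((p : ℚ) ^ j * q : ℚ) : WithTop ℚ) := by
  have hp : (p : ℚ) ≠ 0 := by exact_mod_cast (Fact.out : p.Prime).ne_zero
  induction j using Int.induction_on with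
  | zero => rw [powZ_zero, h, zpow_zero, one_mul]
  | succ j ih =>
    rw [powZ_add_one, ord_pow, ih, ← WithTop.coe_nsmul, nsmul_eq_mul, zpow_add_one₀ hp]
    congr 1
    ring
  | pred j ih =>
    rw [← ord_pow_p, ← powZ_add_one, sub_add_cancel, ih, nsmul_eq_mul, zpow_sub_one₀ hp]
    congr 1
    field_simp

theorem ord_powZ_pos {x : C p} (h : 0 < ord x) (j : ℤ) : 0 < ord (powZ p x j) := by
  by_cases hx : x = 0
  · simp [hx, powZ_zero_left]
  obtain ⟨q, hq⟩ := WithTop.ne_top_iff_exists.mp (mt ord_eq_top.mp hx)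
  rw [← hq, WithTop.coe_pos] at h
  rw [ord_powZ hq.symm, WithTop.coe_pos]
  exact mul_pos (zpow_pos (by exact_mod_cast (Fact.out : p.Prime).pos) j) h

theorem ord_powZ_nonneg {x : C p} (h : 0 ≤ ord x) (j : ℤ) : 0 ≤ ord (powZ p x j) := by
  by_cases hx : x = 0
  · simp [hx, powZ_zero_left]
  obtain ⟨q, hq⟩ := WithTop.ne_top_iff_exists.mp (mt ord_eq_top.mp hx)
  rw [← hq, WithTop.coe_nonneg] at h
  rw [ord_powZ hq.symm, WithTop.coe_nonneg]
  exact mul_nonneg (zpow_nonneg (Nat.cast_nonneg p) j) h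

end Vale.Agent.P217
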