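import Vale.Agent.P217.Classify.Bud
import Vale.Agent.P217.Eval
import Vale.Agent.P217.Rigid.Law
import Vale.Agent.P217.Hahn.AlgClosed

/-!
P217, module M7: a commutative law of height h over an algebraically closed field of
characteristic p is isomorphic to the Honda law, and over `C p` integrally so.
-/

namespace Vale.Agent.P217

noncomputable section

namespace Classify

open MvPowerSeries Finsupp
open Vale.Agent.P217.Rigid (Agree agree_iff coeff_subst_sub)

variable {p : ℕ} [hp : Fact p.Prime] {k : Type*} [Field k]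

/-- The coefficients of `θ` below `j`. -/
def lo (j : ℕ) (θ : PowerSeries k) : PowerSeries k :=
  PowerSeries.mk fun i => if i < j then PowerSeries.coeff i θ else 0

theorem coeff_lo_lt {i j : ℕ} (θ : PowerSeries k) (h : i < j) :
    PowerSeries.coeff i (lo j θ) = PowerSeries.coeff i θ := by simp [lo, h]

theorem coeff_lo_self (j : ℕ) (θ : PowerSeries k) : PowerSeries.coeff j (lo j θ) = 0 := by
  simp [lo]

theorem exists_recursion (step : ℕ → PowerSeries k → k) :
    ∃ θ : PowerSeries k, ∀ j, PowerSeries.coeff j θ = step j (lo j θ) := by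
  classical
  let T : ℕ → PowerSeries k := fun n => n.rec 0 fun j t => t + PowerSeries.monomial j (step j t)
  have hT : ∀ j, T (j + 1) = T j + PowerSeries.monomial j (step j (T j)) := fun j => rfl
  have hhi : ∀ j i, j ≤ i → PowerSeries.coeff i (T j) = 0 := by
    intro j
    induction j with
    | zero => intro i _; simp [T]
    | succ j ih =>
      intro i hi
      rw [hT, map_add, ih i (by omega), PowerSeries.coeff_monomial, if_neg (by omega), add_zero]
  have hlo : ∀ j i, i < j → PowerSeries.coeff i (T j) = PowerSeries.coeff i (T (i + 1)) := by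
    intro j
    induction j with
    | zero => intro i hi; omega
    | succ j ih =>
      intro i hi
      rcases (Nat.lt_succ_iff.mp hi).eq_or_lt with h | h
      · rw [h]
      · rw [hT, map_add, ih i h, PowerSeries.coeff_monomial, if_neg (by omega), add_zero]
  refine ⟨PowerSeries.mk fun i => PowerSeries.coeff i (T (i + 1)), fun j => ?_⟩
  have e : lo j (PowerSeries.mk fun i => PowerSeries.coeff i (T (i + 1))) = T j := by
    ext i
    rw [lo, PowerSeries.coeff_mk]
    split_ifs with h
    · rw [PowerSeries.coeff_mk]; exact (hlo j i h).symm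
    · exact (hhi j i (not_lt.mp h)).symm
  rw [PowerSeries.coeff_mk, e, hT, map_add, hhi j j le_rfl, PowerSeries.coeff_monomial_same,
    zero_add]

theorem exists_X_pow_mul {q : ℕ} {P : PowerSeries k} (hP : ∀ i < q, PowerSeries.coeff i P = 0) :
    ∃ P' : PowerSeries k, P = PowerSeries.X ^ q * P' ∧
      PowerSeries.constantCoeff P' = PowerSeries.coeff q P := by
  obtain ⟨P', rfl⟩ := PowerSeries.X_pow_dvd_iff.mpr hP
  refine ⟨P', rfl, ?_⟩
  rw [← PowerSeries.coeff_zero_eq_constantCoeff_apply]
  simpa using (PowerSeries.coeff_X_pow_mul P' q 0).symm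

theorem hasSubst_of_low {q : ℕ} (hq : 0 < q) {P : PowerSeries k}
    (hP : ∀ i < q, PowerSeries.coeff i P = 0) : PowerSeries.HasSubst P :=
  PowerSeries.HasSubst.of_constantCoeff_zero' (by
    rw [← PowerSeries.coeff_zero_eq_constantCoeff_apply]; exact hP 0 hq)

theorem coeff_subst_high_zero {q d : ℕ} (hd : d < q) {P θ : PowerSeries k}
    (hP : ∀ i < q, PowerSeries.coeff i P = 0) (h0 : PowerSeries.constantCoeff θ = 0) :
    PowerSeries.coeff d (PowerSeries.subst P θ) = 0 := by
  obtain ⟨P', hP', -⟩ := exists_X_pow_mul hP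
  rw [PowerSeries.coeff_subst' (hasSubst_of_low (by omega) hP)]
  refine finsum_eq_zero_of_forall_eq_zero fun i => ?_
  rcases Nat.eq_zero_or_pos i with rfl | hi
  · simp [h0]
  · rw [hP', mul_pow, ← pow_mul, PowerSeries.coeff_X_pow_mul', if_neg, smul_zero]
    intro h
    nlinarith

theorem coeff_subst_high {q j : ℕ} (hq : 0 < q) {P : PowerSeries k}
    (hP : ∀ i < q, PowerSeries.coeff i P = 0) {θ θ' : PowerSeries k}
    (h : ∀ i < j, PowerSeries.coeff i θ = PowerSeries.coeff i θ') :
    PowerSeries.coeff (q * j) (PowerSeries.subst P θ) -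
        PowerSeries.coeff (q * j) (PowerSeries.subst P θ') =
      (PowerSeries.coeff j θ - PowerSeries.coeff j θ') * PowerSeries.coeff q P ^ j := by
  obtain ⟨P', hP', hP'q⟩ := exists_X_pow_mul hP
  have hs := hasSubst_of_low hq hP
  have hc : ∀ i, PowerSeries.coeff (q * j) (P ^ i) =
      if q * i ≤ q * j then PowerSeries.coeff (q * j - q * i) (P' ^ i) else 0 := fun i => by
    rw [hP', mul_pow, ← pow_mul, PowerSeries.coeff_X_pow_mul']
  rw [PowerSeries.coeff_subst' hs, PowerSeries.coeff_subst' hs, ← finsum_sub_distrib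
    (PowerSeries.coeff_subst_finite' hs θ _) (PowerSeries.coeff_subst_finite' hs θ' _),
    finsum_eq_single _ j]
  · rw [hc, if_pos le_rfl, Nat.sub_self, PowerSeries.coeff_zero_eq_constantCoeff_apply, map_pow,
      hP'q, smul_eq_mul, smul_eq_mul, sub_mul]
  · intro i hi
    rcases lt_or_gt_of_ne hi with h' | h'
    · simp [h i h']
    · have : ¬ q * i ≤ q * j := by
        simp only [not_le]
        exact Nat.mul_lt_mul_of_pos_left h' hq
      simp [hc, this]

variable [CharP k p]

theorem coeff_pow_char_pow (θ : PowerSeries k) (h j : ℕ) :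
    PowerSeries.coeff (p ^ h * j) (θ ^ p ^ h) = PowerSeries.coeff j θ ^ p ^ h := by
  have : ExpChar k p := ExpChar.prime hp.out
  have := MvPowerSeries.map_iterateFrobenius_expand p hp.out.ne_zero (θ : MvPowerSeries Unit k) h
  show MvPowerSeries.coeff (single () (p ^ h * j)) ((θ : MvPowerSeries Unit k) ^ p ^ h) = _
  rw [← this, MvPowerSeries.coeff_map, ← smul_eq_mul, ← Finsupp.smul_single,
    MvPowerSeries.coeff_expand_smul, iterateFrobenius_def]
  rfl

theorem coeff_pow_eq_zero {θ : PowerSeries k} (h0 : PowerSeries.constantCoeff θ = 0) {q d : ℕ}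
    (hd : d < q) : PowerSeries.coeff d (θ ^ q) = 0 :=
  PowerSeries.X_pow_dvd_iff.mp (pow_dvd_pow_of_dvd (PowerSeries.X_dvd_iff.mpr h0) q) d hd

theorem defect_top {G H : FormalGroup k} {θ θ' : PowerSeries k}
    (h0 : PowerSeries.constantCoeff θ = 0) (h0' : PowerSeries.constantCoeff θ' = 0) {d : ℕ}
    (h : ∀ i < d, PowerSeries.coeff i θ = PowerSeries.coeff i θ') {a b : ℕ} (ha : 0 < a)
    (hb : 0 < b) (hab : a + b = d) :
    coeff (m2 a b) (defect G H θ) - coeff (m2 a b) (defect G H θ') =
      (PowerSeries.coeff d θ - PowerSeries.coeff d θ') * (d.choose a : k) := by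
  classical
  have he : degree (m2 a b) = d := by rw [degree_m2, hab]
  have h1 := coeff_subst_top G.zero_constantCoeff h he.le
  rw [coeff_law_pow G he, m2_zero] at h1
  let T : PowerSeries k → Fin 2 → MvPowerSeries (Fin 2) k := fun φ i =>
    PowerSeries.subst (X i : MvPowerSeries (Fin 2) k) φ
  have hagree : ∀ i, Agree d (T θ i) (T θ' i) := by
    intro i f hf
    simp only [T, PowerSeries.coeff_subst_single]
    split_ifs with hfi
    · refine h (f i) ?_
      rw [hfi, degree_single] at hf
      exact hf
    · rfl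
  have hmixed : ∀ (φ : PowerSeries k) (i : Fin 2), coeff (m2 a b) (T φ i) = 0 := by
    intro φ i
    simp only [T, PowerSeries.coeff_subst_single]
    rw [if_neg]
    intro hm
    have hz0 := DFunLike.congr_fun hm 0
    have hz1 := DFunLike.congr_fun hm 1
    fin_cases i <;> simp [m2] at hz0 hz1 <;> omega
  have hc : ∀ (φ : PowerSeries k), PowerSeries.constantCoeff φ = 0 → ∀ i,
      constantCoeff (T φ i) = 0 := fun φ hφ i => constantCoeff_point hφ (constantCoeff_X i)
  have s1 := coeff_subst_sub (H : MvPowerSeries (Fin 2) k) 0 ![T θ 0, T θ 1] ![T θ' 0, T θ 1]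
    (fun i => by fin_cases i <;> simp [hc θ h0]) (hc θ' h0' 0)
    (fun i hi => by fin_cases i <;> simp_all) (n := d) (hagree 0) (d := m2 a b) he.le
  have s2 := coeff_subst_sub (H : MvPowerSeries (Fin 2) k) 1 ![T θ' 0, T θ 1] ![T θ' 0, T θ' 1]
    (fun i => by fin_cases i <;> simp [hc θ' h0', hc θ h0]) (hc θ' h0' 1)
    (fun i hi => by fin_cases i <;> simp_all) (n := d) (hagree 1) (d := m2 a b) he.le
  simp only [Matrix.cons_val_zero, Matrix.cons_val_one, hmixed, sub_self, mul_zero, T] at s1 s2
  simp only [defect, map_sub]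
  linear_combination h1 - s1 - s2

theorem not_dvd_good {r j : ℕ} (hr : r = p ∨ ¬ p ∣ r) (hj : 0 < j) (hjr : j < r) :
    ¬ p ∣ j ∨ ¬ p ∣ r - j := by
  rcases hr with rfl | hr
  · exact Or.inl fun h => absurd (Nat.le_of_dvd hj h) (not_le.mpr hjr)
  · by_contra hcon
    rw [not_or, not_not, not_not] at hcon
    exact hr (by simpa [Nat.add_sub_cancel' hjr.le] using Nat.dvd_add hcon.1 hcon.2)

/-- A series solving the equation at p-power degrees and normalised elsewhere is a
homomorphism. -/
theorem isHom_of_equations {h : ℕ} {G H : FormalGroup k} [G.IsComm] [H.IsComm]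
    (hH : mulSeries H p = PowerSeries.X ^ p ^ h)
    (hG : ∀ i < p ^ h, PowerSeries.coeff i (mulSeries G p) = 0) {θ : PowerSeries k}
    (h0 : PowerSeries.constantCoeff θ = 0)
    (heq : ∀ l, PowerSeries.coeff (p ^ h * p ^ l) (PowerSeries.subst (mulSeries G p) θ) =
      PowerSeries.coeff (p ^ l) θ ^ p ^ h)
    (hnorm : ∀ v r, 2 ≤ r → ¬ p ∣ r → coc G H θ (p ^ v * r) (p ^ v) = 0) :
    IsHom G H θ := by
  classical
  refine isHom_of_defect h0 ?_
  suffices hall : ∀ d, ∀ e : Fin 2 →₀ ℕ, degree e < d → coeff e (defect G H θ) = 0 by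
    ext e
    simpa using hall (degree e + 1) e (Nat.lt_succ_self _)
  intro d
  induction d with
  | zero => intro e he; omega
  | succ d hD =>
    intro e he
    rcases (Nat.lt_succ_iff.mp he).lt_or_eq with he' | he'
    · exact hD e he'
    set a := e 0 with hea
    set b := e 1 with heb
    have hab : a + b = d := by rw [← he', degree_eq_sum, Fin.sum_univ_two]
    rw [eq_m2 e, ← hea, ← heb]
    rcases Nat.eq_zero_or_pos a with ha | ha
    · rw [ha]; exact (defect_axis h0 b).2
    rcases Nat.eq_zero_or_pos b with hb | hb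
    · rw [hb]; exact (defect_axis h0 a).1
    have hgoal : ∀ v r, p ^ v * r = d → 2 ≤ r → (r = p ∨ ¬ p ∣ r) →
        coc G H θ d (p ^ v) = 0 → coeff (m2 a b) (defect G H θ) = 0 := by
      intro v r hd hr hrp hcs
      subst hd
      have := eq_zero (p := p) (c := coc G H θ (p ^ v * r)) (fun a m ha ham hm =>
          coc_cocycle h0 hD ha ham hm)
        (fun a _ ha' => coc_symm h0 ha'.le) hr (fun j => not_dvd_good hrp) hcs ha (by omega)
      rwa [coc, show p ^ v * r - a = b by omega] at this
    obtain ⟨v, r, hpr, hdv⟩ := Nat.exists_eq_pow_mul_and_not_dvd (show d ≠ 0 by omega) p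
      hp.out.ne_one
    rcases (show r = 0 ∨ r = 1 ∨ 2 ≤ r by omega) with rfl | rfl | hr
    · exact absurd (dvd_zero p) hpr
    · -- a power of p
      obtain ⟨v, rfl⟩ : ∃ v', v = v' + 1 := ⟨v - 1, by
        rcases Nat.eq_zero_or_pos v with rfl | hv
        · simp at hdv; omega
        · omega⟩
      rw [mul_one, pow_succ] at hdv
      refine hgoal v p hdv.symm hp.out.two_le (Or.inl rfl) ?_
      subst hdv
      have hsum := coeff_subst_mulSeries_sub h0 hD p (single () (p ^ v * p))
        (by rw [degree_single])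
      rw [if_pos (degree_single _ _), Finset.sum_comm] at hsum
      simp_rw [← Finset.mul_sum] at hsum
      rw [sum_eq (fun a m ha ham hm => coc_cocycle h0 hD ha ham hm)
        (by rw [coc, Nat.sub_zero]; exact (defect_axis h0 _).2)
        (by rw [coc, Nat.sub_self]; exact (defect_axis h0 _).1)] at hsum
      have hθ : PowerSeries.HasSubst θ := PowerSeries.HasSubst.of_constantCoeff_zero' h0
      have hpow : PowerSeries.subst θ (mulSeries H p) = θ ^ p ^ h := by
        rw [hH, PowerSeries.subst_pow hθ, PowerSeries.subst_X hθ]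
      have hzero : PowerSeries.coeff (p ^ v * p) (PowerSeries.subst (mulSeries G p) θ) -
          PowerSeries.coeff (p ^ v * p) (PowerSeries.subst θ (mulSeries H p)) = 0 := by
        rw [hpow, ← pow_succ]
        rcases lt_or_ge (v + 1) h with hvh | hvh
        · have hlt : p ^ (v + 1) < p ^ h := Nat.pow_lt_pow_right hp.out.one_lt hvh
          rw [coeff_subst_high_zero hlt hG h0, coeff_pow_eq_zero h0 hlt, sub_zero]
        · obtain ⟨l, hl⟩ := Nat.exists_eq_add_of_le hvh
          rw [hl, pow_add, heq, coeff_pow_char_pow, sub_self]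
      change MvPowerSeries.coeff (single () (p ^ v * p)) _ -
        MvPowerSeries.coeff (single () (p ^ v * p)) _ = 0 at hzero
      rw [hzero] at hsum
      exact neg_eq_zero.mp hsum.symm
    · exact hgoal v r hdv.symm hr (Or.inr hpr) (hdv ▸ hnorm v r hr hpr)

theorem exists_root_eq [IsAlgClosed k] {q : ℕ} (hq : 2 ≤ q) (b c : k) :
    ∃ t : k, t ^ q = b * t + c := by
  have hdeg : (Polynomial.X ^ q - Polynomial.C b * Polynomial.X - Polynomial.C c : Polynomial k).degree
      ≠ 0 := by
    intro h
    have h1 := Polynomial.natDegree_eq_of_degree_eq_some (n := 0) h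
    have h2 : q ≤ (Polynomial.X ^ q - Polynomial.C b * Polynomial.X - Polynomial.C c :
        Polynomial k).natDegree := by
      refine Polynomial.le_natDegree_of_ne_zero ?_
      simp [Polynomial.coeff_X_pow, Polynomial.coeff_X, Polynomial.coeff_C, show q ≠ 0 by omega,
        show ¬ (1 = q) by omega]
    omega
  obtain ⟨t, ht⟩ := IsAlgClosed.exists_root _ hdeg
  refine ⟨t, ?_⟩
  simp only [Polynomial.IsRoot.def, Polynomial.eval_sub, Polynomial.eval_pow, Polynomial.eval_X,
    Polynomial.eval_mul, Polynomial.eval_C] at ht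
  linear_combination ht

/-- Laws of height h over an algebraically closed field are isomorphic to a law whose
multiplication by p is X^(p^h). -/
theorem exists_isIso [IsAlgClosed k] {h : ℕ} (hh : 1 ≤ h) {G H : FormalGroup k} [G.IsComm]
    [H.IsComm] (hH : mulSeries H p = PowerSeries.X ^ p ^ h)
    (hG : ∀ i < p ^ h, PowerSeries.coeff i (mulSeries G p) = 0)
    (hG' : PowerSeries.coeff (p ^ h) (mulSeries G p) ≠ 0) : ∃ θ, IsIso G H θ := by
  classical
  set q := p ^ h with hqdef
  set P := mulSeries G p
  set a := PowerSeries.coeff q P with hadef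
  have hq : 2 ≤ q := le_trans hp.out.two_le (Nat.le_self_pow (by omega) p)
  obtain ⟨root, hroot⟩ := Classical.axiom_of_choice
    (fun bc : k × k => exists_root_eq hq bc.1 bc.2)
  obtain ⟨t1, ht1⟩ := IsAlgClosed.exists_pow_nat_eq a (show 0 < q - 1 by omega)
  obtain ⟨θ, hθ⟩ := exists_recursion (fun j l : _ =>
    if j = 0 then (0 : k) else if j = 1 then t1 else
      if ∃ n, p ^ n = j then root (a ^ j, PowerSeries.coeff (q * j) (PowerSeries.subst P l))
      else - coeff (m2 (ordProj[p] j) (j - ordProj[p] j)) (defect G H l) /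
        (j.choose (ordProj[p] j) : k))
  have hz : PowerSeries.coeff 0 θ = 0 := by rw [hθ 0]; simp
  have h0 : PowerSeries.constantCoeff θ = 0 := by
    rwa [← PowerSeries.coeff_zero_eq_constantCoeff_apply]
  have h1 : PowerSeries.coeff 1 θ = t1 := by rw [hθ 1]; simp
  have ht10 : t1 ≠ 0 := fun h => by
    rw [h, zero_pow (by omega)] at ht1
    exact hG' ht1.symm
  have hlo0 : ∀ j, 0 < j → PowerSeries.constantCoeff (lo j θ) = 0 := fun j hj => by
    rw [← PowerSeries.coeff_zero_eq_constantCoeff_apply, coeff_lo_lt θ hj, hz]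
  refine ⟨θ, isHom_of_equations hH hG h0 ?_ ?_, ?_⟩
  · intro l
    have hdiff := coeff_subst_high (j := p ^ l) (show 0 < q by omega) hG (θ := θ)
      (θ' := lo (p ^ l) θ) (fun i hi => (coeff_lo_lt θ hi).symm)
    rw [coeff_lo_self, sub_zero, sub_eq_iff_eq_add, ← hadef] at hdiff
    rw [hdiff]
    rcases Nat.eq_zero_or_pos l with rfl | hl
    · have hlo : lo 1 θ = 0 := by
        ext i
        simp only [lo, PowerSeries.coeff_mk, map_zero]
        split_ifs with hi
        · obtain rfl : i = 0 := by omega
          exact hz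
        · rfl
      have hsub : PowerSeries.subst P (0 : PowerSeries k) = 0 := by
        rw [← PowerSeries.coe_substAlgHom (hasSubst_of_low (show 0 < q by omega) hG), map_zero]
      rw [pow_zero, hlo, hsub, h1, map_zero, add_zero, pow_one, ← ht1]
      conv_rhs => rw [show p ^ h = q - 1 + 1 by omega, pow_succ]
      ring
    · have hne : p ^ l ≠ 0 ∧ p ^ l ≠ 1 := ⟨pow_ne_zero _ hp.out.ne_zero,
        (Nat.one_lt_pow (by omega) hp.out.one_lt).ne'⟩
      rw [show PowerSeries.coeff (p ^ l) θ = root (a ^ p ^ l,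
        PowerSeries.coeff (q * p ^ l) (PowerSeries.subst P (lo (p ^ l) θ))) by
          rw [hθ (p ^ l), if_neg hne.1, if_neg hne.2, if_pos ⟨l, rfl⟩]]
      rw [hroot]
      ring
  · intro v r hr hpr
    set j := p ^ v * r with hj
    have hs : 0 < p ^ v := pow_pos hp.out.pos v
    have hsj : p ^ v < j := by nlinarith
    have hnot : ¬ ∃ n, p ^ n = j := by
      rintro ⟨n, hn⟩
      have hd : r ∣ p ^ n := hn ▸ dvd_mul_left r (p ^ v)
      obtain ⟨i, -, rfl⟩ := (Nat.dvd_prime_pow hp.out).mp hd
      rcases Nat.eq_zero_or_pos i with rfl | hi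
      · simp at hr
      · exact hpr (dvd_pow_self p (by omega))
    have hproj : ordProj[p] j = p ^ v := by
      rw [hj, Nat.factorization_mul hs.ne' (by omega), Finsupp.add_apply,
        hp.out.factorization_pow, Finsupp.single_eq_same,
        Nat.factorization_eq_zero_of_not_dvd hpr, add_zero]
    have hchoose : (j.choose (p ^ v) : k) = (r : k) := by
      have := cast_choose_split p k v (a := r) (c := 1) hs hs
      simpa [← hj] using this
    have hrne : (r : k) ≠ 0 := fun h => hpr ((CharP.cast_eq_zero_iff k p r).mp h)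
    have hdiff := defect_top (G := G) (H := H) h0 (hlo0 j (by omega))
      (fun i hi => (coeff_lo_lt θ hi).symm) hs (show 0 < j - p ^ v by omega) (by omega)
    rw [coeff_lo_self, sub_zero, hchoose, hθ j, if_neg (by omega), if_neg (by omega), if_neg hnot,
      hproj, hchoose, div_mul_cancel₀ _ hrne] at hdiff
    rw [coc]
    linear_combination hdiff
  · rw [h1]
    exact ht10.isUnit

end Classify

variable (p : ℕ) [Fact p.Prime]

/-- An isomorphism from an integral law to a law with [p] = X^(p^h) is integral. -/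
theorem ord_coeff_nonneg_of_isHom {h : ℕ} (hh : 1 ≤ h) {G H : FormalGroup (C p)}
    (hH : mulSeries H p = PowerSeries.X ^ p ^ h) (hint : ∀ d, 0 ≤ ord (MvPowerSeries.coeff d G.toPowerSeries))
    (hG : ∀ i < p ^ h, PowerSeries.coeff i (mulSeries G p) = 0) {θ : PowerSeries (C p)}
    (hθ : IsHom G H θ) : ∀ i, 0 ≤ ord (PowerSeries.coeff i θ) := by
  intro i
  induction i using Nat.strong_induction_on with
  | _ i ih =>
    set q := p ^ h with hqdef
    have hq : 2 ≤ q := le_trans (Fact.out : p.Prime).two_le (Nat.le_self_pow (by omega) p)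
    set P := mulSeries G p with hP
    have hPint : IntCoeff (RingHom.id (C p)) (P : MvPowerSeries Unit (C p)) :=
      intCoeff_mulSeries (c := RingHom.id (C p)) hint p
    have hlint : IntCoeff (RingHom.id (C p)) (Classify.lo i θ : MvPowerSeries Unit (C p)) := by
      intro e
      obtain ⟨m, rfl⟩ : ∃ m, Finsupp.single () m = e := ⟨e (), by ext; simp⟩
      show 0 ≤ ord (PowerSeries.coeff m (Classify.lo i θ))
      simp only [Classify.lo, PowerSeries.coeff_mk]
      split_ifs with hm
      · exact ih m hm
      · simp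
    have hc : 0 ≤ ord (PowerSeries.coeff (q * i) (PowerSeries.subst P (Classify.lo i θ))) :=
      (hlint.subst (φ := fun _ : Unit => (P : MvPowerSeries Unit (C p))) (fun _ => hPint)
        (fun _ => constantCoeff_mulSeries G p)) (Finsupp.single () (q * i))
    have ha : 0 ≤ ord (PowerSeries.coeff q P) := hPint (Finsupp.single () q)
    have hθs : PowerSeries.HasSubst θ := hθ.hasSubst
    have heq : PowerSeries.subst P θ = θ ^ q := by
      rw [hP, hθ.subst_mulSeries p, hH, PowerSeries.subst_pow hθs, PowerSeries.subst_X hθs]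
    have hdiff := Classify.coeff_subst_high (j := i) (show 0 < q by omega) hG (θ := θ)
      (θ' := Classify.lo i θ) (fun m hm => (Classify.coeff_lo_lt θ hm).symm)
    rw [Classify.coeff_lo_self, sub_zero, sub_eq_iff_eq_add, heq,
      Classify.coeff_pow_char_pow θ h i] at hdiff
    by_contra hneg
    rw [not_le] at hneg
    obtain ⟨x, hx⟩ : ∃ x : ℚ, ord (PowerSeries.coeff i θ) = x :=
      ⟨_, (WithTop.coe_untop _ (ne_top_of_lt hneg)).symm⟩
    rw [hx] at hneg
    have hx0 : x < 0 := by exact_mod_cast hneg
    have hlow : (x : WithTop ℚ) ≤ ord (PowerSeries.coeff i θ * PowerSeries.coeff q P ^ i +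
        PowerSeries.coeff (q * i) (PowerSeries.subst P (Classify.lo i θ))) := by
      refine le_ord_add ?_ (le_trans hneg.le hc)
      rw [ord_mul, hx, ord_pow]
      exact le_add_of_nonneg_right (nsmul_nonneg ha i)
    rw [← hdiff, ord_pow, hx, ← WithTop.coe_nsmul, WithTop.coe_le_coe, nsmul_eq_mul] at hlow
    have : (2 : ℚ) ≤ (q : ℚ) := by exact_mod_cast hq
    nlinarith

/-- M7: a law of height h over C is isomorphic to the Honda law by an integral series. -/
theorem classifyStatement : ClassifyStatement p := by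
  intro h hh H hH G hGc hint hG hG'
  have := hGc
  have : H.IsComm := Rigid.isComm_hondaKb p hh hH
  have : (H.map (HahnSeries.C : Kb p →+* C p)).IsComm := Rigid.isComm_map H _
  have hHC : mulSeries (H.map (HahnSeries.C : Kb p →+* C p)) p = PowerSeries.X ^ p ^ h := by
    rw [← map_mulSeries, hH.1, map_pow, PowerSeries.map_X]
  obtain ⟨θ, hθ⟩ := Classify.exists_isIso (p := p) hh hHC hG hG'
  exact ⟨θ, hθ, ord_coeff_nonneg_of_isHom p hh hHC hint hG hθ.1⟩

end

end Vale.Agent.P217
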