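import Mathlib

/-!
Commutative algebra for P217: one-dimensional quotients avoiding an element, and finiteness over
a complete base.
-/

namespace Vale.Agent.P217

open Ideal IsLocalRing

/-- In a Noetherian local ring an element outside a radical ideal stays outside some prime above
it that has only the maximal ideal over it and that element. -/
theorem exists_prime_avoid {R : Type*} [CommRing R] [IsNoetherianRing R] [IsLocalRing R]
    {J : Ideal R} (hJ : J.IsRadical) {u : R} (hu : u ∉ J) :
    ∃ Q : Ideal R, Q.IsPrime ∧ J ≤ Q ∧ u ∉ Q ∧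
      maximalIdeal R ≤ (Q ⊔ span {u}).radical := by
  obtain ⟨P, hP, hJP, huP⟩ : ∃ P : Ideal R, P.IsPrime ∧ J ≤ P ∧ u ∉ P := by
    by_contra h
    push Not at h
    apply hu
    rw [← hJ.radical, radical_eq_sInf, Submodule.mem_sInf]
    intro P hP
    exact h P hP.2 hP.1
  obtain ⟨Q, ⟨hQ, hPQ, huQ⟩, hmax⟩ :=
    set_has_maximal_iff_noetherian.mpr (inferInstance : IsNoetherian R R)
      {Q : Ideal R | Q.IsPrime ∧ P ≤ Q ∧ u ∉ Q} ⟨P, hP, le_rfl, huP⟩
  refine ⟨Q, hQ, hJP.trans hPQ, huQ, ?_⟩
  intro y hy
  by_contra hy'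
  rw [← Ideal.sInf_minimalPrimes, Submodule.mem_sInf] at hy'
  push Not at hy'
  obtain ⟨M, hM, hyM⟩ := hy'
  -- avoid all minimal primes over Q + (u)
  let T := Ideal.minimalPrimes (Q ⊔ span {u})
  have hTfin : T.Finite := Ideal.finite_minimalPrimes_of_isNoetherianRing R (Q ⊔ span {u})
  have hne : ∀ N ∈ T, N ≠ maximalIdeal R := by
    intro N hN h
    have hMm : M ≤ maximalIdeal R := le_maximalIdeal hM.1.1.ne_top
    have : N ≤ M := by
      subst h
      exact hN.2 hM.1 hMm
    exact hyM (this (h ▸ hy))
  obtain ⟨z, hz, hzT⟩ : ∃ z ∈ maximalIdeal R, ∀ N ∈ T, z ∉ N := by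
    by_contra h
    push Not at h
    have hsub : (maximalIdeal R : Set R) ⊆ ⋃ N ∈ (hTfin.toFinset : Set (Ideal R)), (N : Set R) := by
      intro z hz
      obtain ⟨N, hN, hzN⟩ := h z hz
      simp only [Set.mem_iUnion]
      exact ⟨N, by simpa using hN, hzN⟩
    obtain ⟨N, hN, hle⟩ := (Ideal.subset_union_prime (s := hTfin.toFinset)
      (⊥ : Ideal R) (⊥ : Ideal R)
      (fun N hN _ _ => ((hTfin.mem_toFinset).mp hN).1.1)).mp hsub
    have hN' := hTfin.mem_toFinset.mp hN
    exact hne N hN' (le_antisymm (le_maximalIdeal hN'.1.1.ne_top) hle)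
  have hle : Q ⊔ span {z} ≤ maximalIdeal R :=
    sup_le (le_maximalIdeal hQ.ne_top) ((span_singleton_le_iff_mem _).mpr hz)
  obtain ⟨Q', hQ', -⟩ := Ideal.exists_minimalPrimes_le hle
  have := hQ'.1.1
  have hQQ' : Q < Q' := by
    refine lt_of_le_of_ne (le_sup_left.trans hQ'.1.2) fun h => ?_
    have hzQ : z ∈ Q := h ▸ hQ'.1.2 (mem_sup_right (mem_span_singleton_self z))
    exact hzT M hM (hM.1.2 (mem_sup_left hzQ))
  by_cases huQ' : u ∈ Q'
  · -- otherwise a chain of length two below a prime minimal over one element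
    obtain ⟨N, hN, hNQ'⟩ := Ideal.exists_minimalPrimes_le
      (show Q ⊔ span {u} ≤ Q' from sup_le hQQ'.le ((span_singleton_le_iff_mem _).mpr huQ'))
    have := hN.1.1
    have hNlt : N < Q' := lt_of_le_of_ne hNQ' fun h =>
      hzT N hN (h ▸ hQ'.1.2 (mem_sup_right (mem_span_singleton_self z)))
    have hQN : Q < N := lt_of_le_of_ne (le_sup_left.trans hN.1.2) fun h =>
      huQ (h ▸ hN.1.2 (mem_sup_right (mem_span_singleton_self u)))
    have hmin := Ideal.mem_minimalPrimes_span_of_mem_minimalPrimes_span_insert hNlt z (Q : Set R)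
      (by
        have : span (insert z (Q : Set R)) = Q ⊔ span {z} := by
          rw [span_insert, span_eq, sup_comm]
        rw [this]
        exact hQ')
      (Q : Set R) (SetLike.coe_subset_coe.mpr hQN.le)
      ((Set.subset_insert _ _).trans (subset_span.trans le_radical))
    rw [span_eq, Ideal.minimalPrimes_eq_subsingleton_self] at hmin
    exact hQN.ne (Set.mem_singleton_iff.mp hmin).symm
  · exact hmax Q' ⟨inferInstance, hPQ.trans hQQ'.le, huQ'⟩ hQQ'

open Finset in
/-- An algebra whose reduction modulo `t` is finite, and which is separated, is finite over a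
`t`-adically complete base. -/
theorem moduleFinite_of_finite_quotient (Λ : Type*) [CommRing Λ] (t : Λ)
    [IsPrecomplete (span {t}) Λ] {A : Type*} [CommRing A] [Algebra Λ A]
    (hH : ⨅ k : ℕ, span {algebraMap Λ A t} ^ k = ⊥)
    (hfin : Finite (A ⧸ span {algebraMap Λ A t})) : Module.Finite Λ A := by
  classical
  let τ := algebraMap Λ A t
  let π := Ideal.Quotient.mk (span {τ})
  have := Fintype.ofFinite (A ⧸ span {τ})
  choose b hb using fun q : A ⧸ span {τ} => Ideal.Quotient.mk_surjective q
  have hstep : ∀ x : A, ∃ y, x = b (π x) + τ * y := by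
    intro x
    have : x - b (π x) ∈ span {τ} := by
      rw [← Ideal.Quotient.eq, hb]
    obtain ⟨y, hy⟩ := mem_span_singleton.mp this
    exact ⟨y, by rw [← hy]; ring⟩
  choose next hnext using hstep
  refine ⟨⟨univ.image b, ?_⟩⟩
  rw [eq_top_iff]
  intro x _
  let xs : ℕ → A := fun j => next^[j] x
  let c : (A ⧸ span {τ}) → ℕ → Λ := fun q N => ∑ j ∈ range N, if π (xs j) = q then t ^ j else 0
  have hsum : ∀ N, x = ∑ q, algebraMap Λ A (c q N) * b q + τ ^ N * xs N := by
    intro N
    induction N with
    | zero => simp [c, xs]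
    | succ N ih =>
      have hs : xs (N + 1) = next (xs N) := Function.iterate_succ_apply' next N x
      have hc : ∀ q, algebraMap Λ A (c q (N + 1)) * b q =
          algebraMap Λ A (c q N) * b q + (if π (xs N) = q then τ ^ N * b q else 0) := by
        intro q
        simp only [c, sum_range_succ, map_add, add_mul]
        split_ifs <;> simp [τ]
      simp only [hc, sum_add_distrib, sum_ite_eq, mem_univ, if_true, hs]
      conv_lhs => rw [ih, hnext (xs N)]
      ring
  have hC : ∀ q, ∃ L, ∀ N, c q N - L ∈ span {t} ^ N := by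
    intro q
    obtain ⟨L, hL⟩ := IsPrecomplete.prec (inferInstance : IsPrecomplete (span {t}) Λ) (f := c q)
      (fun {m k} hmk => by
        rw [SModEq.sub_mem, smul_eq_mul, Ideal.mul_top, span_singleton_pow, mem_span_singleton]
        have : c q m - c q k = -∑ j ∈ Ico m k, if π (xs j) = q then t ^ j else 0 := by
          rw [sum_Ico_eq_sub _ hmk]; ring
        rw [this, dvd_neg]
        refine dvd_sum fun j hj => ?_
        split_ifs
        · exact pow_dvd_pow _ (mem_Ico.mp hj).1
        · exact dvd_zero _)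
    refine ⟨L, fun N => ?_⟩
    have := hL N
    rwa [SModEq.sub_mem, smul_eq_mul, Ideal.mul_top] at this
  choose L hL using hC
  have hx : x = ∑ q, L q • b q := by
    rw [← sub_eq_zero, ← Submodule.mem_bot (R := A), ← hH, Submodule.mem_iInf]
    intro N
    have hd : x - ∑ q, L q • b q =
        ∑ q, algebraMap Λ A (c q N - L q) * b q + τ ^ N * xs N := by
      conv_lhs => rw [hsum N]
      simp only [Algebra.smul_def, map_sub, sub_mul, sum_sub_distrib]
      ring
    rw [hd, span_singleton_pow, mem_span_singleton]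
    refine dvd_add (dvd_sum fun q _ => Dvd.dvd.mul_right ?_ _) (dvd_mul_right _ _)
    have h := hL q N
    rw [span_singleton_pow, mem_span_singleton] at h
    simpa [τ, map_pow] using map_dvd (algebraMap Λ A) h
  rw [hx]
  refine Submodule.sum_mem _ fun q _ => Submodule.smul_mem _ _ (Submodule.subset_span ?_)
  simp

end Vale.Agent.P217
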