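import Vale.Agent.P217.Iface
import Vale.Agent.P217.PointAlg

/-!
P217, module M4: points on the zero set of a radical ideal.
-/

namespace Vale.Agent.P217

noncomputable section

open Ideal IsLocalRing

variable (p n : ℕ) [Fact p.Prime]

theorem res_surjective : Function.Surjective (res p n) := fun a =>
  ⟨MvPowerSeries.C (WittVector.teichmuller p a), by
    simp [res, WittVector.constantCoeff, WittVector.teichmuller_coeff_zero]⟩

theorem ker_res : RingHom.ker (res p n) = maximalIdeal (E p n) :=
  eq_maximalIdeal (RingHom.ker_isMaximal_of_surjective _ (res_surjective p n))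

theorem res_u (j : Fin (n - 1)) : res p n (u p n j) = 0 := by
  simp [res, u]

theorem u_mem_maximal (j : Fin (n - 1)) : u p n j ∈ maximalIdeal (E p n) := by
  rw [← ker_res, RingHom.mem_ker, res_u]

theorem natCast_p_mem_maximal : (p : E p n) ∈ maximalIdeal (E p n) := by
  rw [← ker_res, RingHom.mem_ker, map_natCast, CharP.cast_eq_zero]

/-- A prime avoiding `u`, with the data needed for finiteness. -/
theorem exists_curve {J : Ideal (E p n)} (hJ : J.IsRadical) {v : E p n} (hv : v ∉ J)
    (hvm : v ∈ maximalIdeal (E p n)) :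
    ∃ Q : Ideal (E p n), Q.IsPrime ∧ J ≤ Q ∧ v ∉ Q ∧
      (∀ j, ∃ N : ℕ, 0 < N ∧ u p n j ^ N ∈ Q ⊔ span {v}) ∧
      Finite ((E p n ⧸ Q) ⧸ span {Ideal.Quotient.mk Q v}) ∧
      ⨅ k : ℕ, span {Ideal.Quotient.mk Q v} ^ k = ⊥ := by
  obtain ⟨Q, hQ, hJQ, hvQ, hrad⟩ := exists_prime_avoid hJ hv
  have := hQ
  obtain ⟨N, hN⟩ := exists_pow_le_of_le_radical_of_fg hrad (IsNoetherian.noetherian _)
  have hN1 : maximalIdeal (E p n) ^ (N + 1) ≤ Q ⊔ span {v} :=
    (pow_le_pow_right (Nat.le_succ N)).trans hN
  refine ⟨Q, hQ, hJQ, hvQ, fun j => ⟨N + 1, Nat.succ_pos N,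
    hN1 (pow_mem_pow (u_mem_maximal p n j) _)⟩, ?_, ?_⟩
  · have : Finite (E p n ⧸ maximalIdeal (E p n)) := by
      exact Finite.of_equiv _ ((RingHom.quotientKerEquivOfSurjective (res_surjective p n)).symm.trans
        (Ideal.quotEquivOfEq (ker_res p n))).toEquiv
    have := Ideal.finite_quotient_pow (I := maximalIdeal (E p n)) (IsNoetherian.noetherian _) N
    let g := (Ideal.Quotient.mk (span {Ideal.Quotient.mk Q v})).comp (Ideal.Quotient.mk Q)
    have hg : ∀ x ∈ maximalIdeal (E p n) ^ N, g x = 0 := by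
      intro x hx
      obtain ⟨a, ha, b, hb, rfl⟩ := Submodule.mem_sup.mp (hN hx)
      obtain ⟨c, rfl⟩ := mem_span_singleton.mp hb
      rw [show g (a + v * c) = Ideal.Quotient.mk (span {Ideal.Quotient.mk Q v})
          (Ideal.Quotient.mk Q a + Ideal.Quotient.mk Q v * Ideal.Quotient.mk Q c) by simp [g],
        Ideal.Quotient.eq_zero_iff_mem.mpr ha, zero_add, Ideal.Quotient.eq_zero_iff_mem]
      exact mem_span_singleton.mpr ⟨_, rfl⟩
    refine Finite.of_surjective (Ideal.Quotient.lift _ g hg) ?_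
    exact Ideal.Quotient.lift_surjective_of_surjective _ hg
      (Ideal.Quotient.mk_surjective.comp Ideal.Quotient.mk_surjective)
  · have : Nontrivial (E p n ⧸ Q) := Ideal.Quotient.nontrivial_iff.mpr hQ.ne_top
    have : IsLocalRing (E p n ⧸ Q) :=
      .of_surjective' (Ideal.Quotient.mk Q) Ideal.Quotient.mk_surjective
    refine Ideal.iInf_pow_eq_bot_of_isLocalRing _ fun h => ?_
    rw [span_singleton_eq_top] at h
    obtain ⟨c, hc⟩ := isUnit_iff_exists_inv.mp h
    obtain ⟨c, rfl⟩ := Ideal.Quotient.mk_surjective c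
    rw [← map_mul, ← map_one (Ideal.Quotient.mk Q), Ideal.Quotient.eq] at hc
    have h1 : (1 : E p n) ∈ maximalIdeal (E p n) := by
      have := (maximalIdeal (E p n)).sub_mem (Ideal.mul_mem_right c _ hvm)
        (le_maximalIdeal hQ.ne_top hc)
      simp at this
    exact (maximalIdeal.isMaximal _).ne_top ((eq_top_iff_one _).mpr h1)

/-- Witt vectors of a finite field with zero constant coefficient are divisible by p. -/
theorem witt_dvd_of_constantCoeff {x : W p n} (h : WittVector.constantCoeff x = 0) :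
    (p : W p n) ∣ x :=
  mem_span_singleton.mp ((WittVector.mem_span_p_iff_coeff_zero_eq_zero x).mpr h)

/-- Kernel of the reduction mod p. -/
theorem map_constantCoeff_eq_zero {x : E p n}
    (h : MvPowerSeries.map (WittVector.constantCoeff : W p n →+* K p n) x = 0) :
    (p : E p n) ∣ x := by
  have hd : ∀ d, (p : W p n) ∣ MvPowerSeries.coeff d x := fun d =>
    witt_dvd_of_constantCoeff p n (by simpa using congrArg (MvPowerSeries.coeff d) h)
  choose c hc using hd
  let c' : E p n := c
  refine ⟨c', MvPowerSeries.ext fun d => ?_⟩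
  rw [← map_natCast (MvPowerSeries.C : W p n →+* E p n), MvPowerSeries.coeff_C_mul, hc d]
  rfl

theorem map_constantCoeff_surjective :
    Function.Surjective (MvPowerSeries.map (WittVector.constantCoeff : W p n →+* K p n) :
      E p n → MvPowerSeries (Fin (n - 1)) (K p n)) := fun f =>
  ⟨fun d => WittVector.teichmuller p (MvPowerSeries.coeff d f), MvPowerSeries.ext fun d => by
    simp [WittVector.constantCoeff]
    exact WittVector.teichmuller_coeff_zero p _⟩

theorem ord_ofPowerSeries_nonneg (f : PowerSeries (Kb p)) :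
    0 ≤ ord (HahnSeries.ofPowerSeries ℚ (Kb p) f : C p) := by
  refine HahnSeries.le_orderTop_iff_forall.mpr fun q hq => ?_
  rw [HahnSeries.ofPowerSeries_apply]
  refine HahnSeries.embDomain_of_notMem_range ?_
  rintro ⟨m, rfl⟩
  have : (m : ℚ) < 0 := WithTop.coe_lt_coe.mp hq
  exact absurd this (not_lt.mpr (Nat.cast_nonneg m))

theorem ord_nonneg_of_monic {R : Type*} [CommRing R] (c : R →+* C p) (hc : ∀ r, 0 ≤ ord (c r))
    {P : Polynomial R} (hP : P.Monic) {y : C p} (hy : P.eval₂ c y = 0) : 0 ≤ ord y := by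
  by_contra hneg
  rw [not_le] at hneg
  have hy0 : y ≠ 0 := by
    rintro rfl
    simp [ord] at hneg
  obtain ⟨w, hw⟩ := WithTop.ne_top_iff_exists.mp (HahnSeries.orderTop_ne_top.mpr hy0)
  have hw0 : w < 0 := by
    have : (w : WithTop ℚ) < (0 : ℚ) := by simpa [← hw] using hneg
    exact WithTop.coe_lt_coe.mp this
  have hpow : ∀ i : ℕ, ord (y ^ i) = ((i * w : ℚ) : WithTop ℚ) := by
    intro i
    rw [ord_pow, ord, ← hw, ← WithTop.coe_nsmul, nsmul_eq_mul]
  rw [Polynomial.eval₂_eq_sum_range, Finset.sum_range_succ,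
    show P.coeff P.natDegree = 1 from hP, map_one, one_mul, add_eq_zero_iff_eq_neg'] at hy
  have hlt : ord (y ^ P.natDegree) < ord (-∑ i ∈ Finset.range P.natDegree, c (P.coeff i) * y ^ i) := by
    rw [ord, ord, HahnSeries.orderTop_neg]
    have key : ∀ s : Finset ℕ, (∀ i ∈ s, i < P.natDegree) →
        ord (y ^ P.natDegree) < ord (∑ i ∈ s, c (P.coeff i) * y ^ i) := by
      intro s
      induction s using Finset.induction with
      | empty =>
        intro _
        rw [Finset.sum_empty, hpow, ord, HahnSeries.orderTop_zero]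
        exact WithTop.coe_lt_top _
      | insert a s has ih =>
        intro hs
        rw [Finset.sum_insert has]
        refine lt_of_lt_of_le (lt_min ?_ (ih fun i hi => hs i (Finset.mem_insert_of_mem hi)))
          (ord_add _ _)
        refine lt_of_lt_of_le ?_ (ord_mul (c (P.coeff a)) (y ^ a)).ge
        refine lt_of_lt_of_le ?_ (le_add_of_nonneg_left (hc _))
        rw [hpow, hpow, WithTop.coe_lt_coe]
        have : (a : ℚ) < P.natDegree := by exact_mod_cast hs a (Finset.mem_insert_self a s)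
        exact mul_lt_mul_of_neg_right this hw0
    exact key _ fun i hi => Finset.mem_range.mp hi
  rw [hy] at hlt
  exact lt_irrefl _ hlt

/-- A finite domain over a ring of constants of nonnegative valuation maps to `C p`. -/
theorem exists_hom_C [IsAlgClosed (C p)] {Λ A : Type*} [CommRing Λ] [IsDomain Λ] [CommRing A]
    [IsDomain A] [Algebra Λ A] [Module.Finite Λ A]
    (hinj : Function.Injective (algebraMap Λ A)) (base : Λ →+* C p)
    (hb : Function.Injective base) (hnn : ∀ l, 0 ≤ ord (base l)) :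
    ∃ φ : A →+* C p, (∀ a, 0 ≤ ord (φ a)) ∧ ∀ l, φ (algebraMap Λ A l) = base l := by
  let _ : Algebra Λ (C p) := base.toAlgebra
  have : Module.IsTorsionFree Λ (C p) := Module.isTorsionFree_iff_algebraMap_injective.mpr hb
  have : Module.IsTorsionFree Λ A := Module.isTorsionFree_iff_algebraMap_injective.mpr hinj
  have : Algebra.IsIntegral Λ A := Algebra.IsIntegral.of_finite _ _
  let φ : A →ₐ[Λ] C p := IsAlgClosed.lift
  refine ⟨φ.toRingHom, fun a => ?_, φ.commutes⟩
  obtain ⟨P, hP, hPe⟩ := Algebra.IsIntegral.isIntegral (R := Λ) a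
  refine ord_nonneg_of_monic p base hnn hP ?_
  have h0 := congrArg φ.toRingHom hPe
  have e : φ.toRingHom.comp (algebraMap Λ A) = base := φ.comp_algebraMap
  rw [Polynomial.hom_eval₂, map_zero, e] at h0
  exact h0

/-- The structure map `F_p[[T]] → C p`. -/
def toC : PowerSeries (ZMod p) →+* C p :=
  (HahnSeries.ofPowerSeries ℚ (Kb p)).comp (PowerSeries.map (algebraMap (ZMod p) (Kb p)))

theorem toC_injective : Function.Injective (toC p) := by
  intro a b h
  have h' : HahnSeries.ofPowerSeries ℚ (Kb p) (PowerSeries.map (algebraMap (ZMod p) (Kb p)) a) =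
      HahnSeries.ofPowerSeries ℚ (Kb p) (PowerSeries.map (algebraMap (ZMod p) (Kb p)) b) := by
    simpa only [toC, RingHom.comp_apply] using h
  exact PowerSeries.map_injective _ (algebraMap (ZMod p) (Kb p)).injective
    (HahnSeries.ofPowerSeries_injective h')

/-- A domain finite over `F_p[[T]]` maps to `C p` with `T` going to `t`. -/
theorem exists_hom_curve [IsAlgClosed (C p)] {A : Type*} [CommRing A] [IsDomain A]
    (alg : PowerSeries (ZMod p) →+* A) {v : A} (hv : alg PowerSeries.X = v) (hv0 : v ≠ 0)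
    (hfin : Finite (A ⧸ span {v})) (hH : ⨅ k : ℕ, span {v} ^ k = ⊥) :
    ∃ φ : A →+* C p, (∀ a, 0 ≤ ord (φ a)) ∧ φ v = HahnSeries.single (1 : ℚ) 1 := by
  let _ : Algebra (PowerSeries (ZMod p)) A := alg.toAlgebra
  have halgX : algebraMap (PowerSeries (ZMod p)) A PowerSeries.X = v := hv
  subst hv
  have hinj : Function.Injective (algebraMap (PowerSeries (ZMod p)) A) := by
    rw [injective_iff_map_eq_zero]
    intro f hf
    by_contra hf0
    obtain ⟨k, hk⟩ := IsDiscreteValuationRing.associated_pow_irreducible hf0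
      (PowerSeries.X_irreducible (R := ZMod p))
    obtain ⟨c, rfl⟩ := hk.symm
    rw [map_mul, map_pow] at hf
    rcases mul_eq_zero.mp hf with h | h
    · exact hv0 (eq_zero_of_pow_eq_zero h)
    · exact (c.isUnit.map _).ne_zero h
  have : IsPrecomplete (span {(PowerSeries.X : PowerSeries (ZMod p))}) (PowerSeries (ZMod p)) :=
    IsAdicComplete.toIsPrecomplete
  have : Module.Finite (PowerSeries (ZMod p)) A :=
    moduleFinite_of_finite_quotient _ PowerSeries.X hH hfin
  obtain ⟨φ, hφ, hφc⟩ := exists_hom_C p hinj (toC p) (toC_injective p)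
    (fun r => ord_ofPowerSeries_nonneg p _)
  exact ⟨φ, hφ, (hφc PowerSeries.X).trans (by
    rw [toC, RingHom.comp_apply, PowerSeries.map_X, HahnSeries.ofPowerSeries_X])⟩

/-- M4: a point of characteristic p. -/
theorem pointStatement (hC : ClosedStatement p) : PointStatement p n := by
  intro J hJ hpJ i hi
  have : IsAlgClosed (C p) := hC
  obtain ⟨Q, hQ, hJQ, hiQ, hpow, hfin, hHaus⟩ := exists_curve p n hJ hi (u_mem_maximal p n i)
  have := hQ
  let red : E p n →+* MvPowerSeries (Fin (n - 1)) (K p n) :=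
    MvPowerSeries.map (WittVector.constantCoeff : W p n →+* K p n)
  have hker : RingHom.ker red ≤ RingHom.ker (Ideal.Quotient.mk Q) := by
    intro x hx
    obtain ⟨c, rfl⟩ := map_constantCoeff_eq_zero p n hx
    rw [RingHom.mem_ker, Ideal.Quotient.eq_zero_iff_mem]
    exact Q.mul_mem_right _ (hJQ hpJ)
  let g := red.liftOfSurjective (map_constantCoeff_surjective p n) ⟨Ideal.Quotient.mk Q, hker⟩
  have hg : ∀ e, g (red e) = Ideal.Quotient.mk Q e := fun e =>
    RingHom.liftOfRightInverse_comp_apply _ _ _ _ e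
  have hs : PowerSeries.HasSubst
      (MvPowerSeries.X i : MvPowerSeries (Fin (n - 1)) (K p n)) :=
    PowerSeries.HasSubst.of_constantCoeff_zero (MvPowerSeries.constantCoeff_X i)
  let alg := g.comp (PowerSeries.substAlgHom (R := ZMod p) hs).toRingHom
  have halgX : alg PowerSeries.X = Ideal.Quotient.mk Q (u p n i) := by
    rw [← hg]
    change g _ = g _
    congr 1
    rw [AlgHom.toRingHom_eq_coe, RingHom.coe_coe, PowerSeries.substAlgHom_X]
    simp [red, u]
  obtain ⟨φ, hφ, hφu⟩ := exists_hom_curve p alg halgX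
    (mt Ideal.Quotient.eq_zero_iff_mem.mp hiQ) hfin hHaus
  let x : E p n →+* C p := φ.comp (Ideal.Quotient.mk Q)
  have hbase : x (u p n i) = HahnSeries.single (1 : ℚ) 1 := by
    exact hφu
  have hpos : ∀ e, 0 ≤ ord (x e) := fun e => hφ _
  have hord : ord (x (u p n i)) = (1 : ℚ) := by
    rw [hbase, ord, HahnSeries.orderTop_single one_ne_zero]
  refine ⟨x, hpos, fun j => ?_, fun e he => ?_, ?_⟩
  · obtain ⟨N, hN, hmem⟩ := hpow j
    obtain ⟨a, ha, b, hb, hab⟩ := Submodule.mem_sup.mp hmem
    obtain ⟨c, rfl⟩ := mem_span_singleton.mp hb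
    have hx : x (u p n j) ^ N = x (u p n i) * x c := by
      rw [← map_pow, ← hab, map_add, map_mul]
      have : x a = 0 := by simp [x, Ideal.Quotient.eq_zero_iff_mem.mpr ha]
      rw [this, zero_add]
    by_contra hle
    rw [not_lt] at hle
    have h1 : ord (x (u p n j) ^ N) ≤ 0 := by
      rw [ord_pow]
      exact nsmul_nonpos hle N
    rw [hx, ord_mul, hord] at h1
    have : ((1 : ℚ) : WithTop ℚ) ≤ 0 := le_trans (le_add_of_nonneg_right (hpos c)) h1
    exact absurd (WithTop.coe_le_coe.mp this) (by norm_num)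
  · simp [x, Ideal.Quotient.eq_zero_iff_mem.mpr (hJQ he)]
  · rw [hbase]
    exact HahnSeries.single_ne_zero one_ne_zero

end

end Vale.Agent.P217
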