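import Vale.Agent.P217.Iface
import Vale.Agent.P217.Series
import Vale.Agent.P217.Point

/-!
P217, module M4: the height ideals are prime and invariant.
-/

namespace Vale.Agent.P217

noncomputable section

open Ideal

/-- A series whose coefficients vanish on exponents supported outside `s` lies in the ideal of
the variables in `s`. -/
theorem mem_span_X_image {σ R : Type*} [CommRing R] (s : Finset σ) (g : MvPowerSeries σ R)
    (hg : ∀ d : σ →₀ ℕ, (∀ i ∈ s, d i = 0) → MvPowerSeries.coeff d g = 0) :
    g ∈ Ideal.span (MvPowerSeries.X '' (s : Set σ)) := by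
  classical
  induction s using Finset.induction_on generalizing g with
  | empty =>
    have : g = 0 := by
      ext d
      simpa using hg d (by simp)
    simp [this]
  | @insert a s ha ih =>
    let g0 : MvPowerSeries σ R := fun d => if d a = 0 then MvPowerSeries.coeff d g else 0
    have hc : ∀ d, MvPowerSeries.coeff d g0 = if d a = 0 then MvPowerSeries.coeff d g else 0 :=
      fun d => rfl
    have h1 : g0 ∈ Ideal.span (MvPowerSeries.X '' (s : Set σ)) := by
      refine ih g0 fun d hd => ?_
      rw [hc]
      split_ifs with h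
      · apply hg
        intro i hi
        rcases Finset.mem_insert.1 hi with rfl | hi
        · exact h
        · exact hd i hi
      · rfl
    obtain ⟨q, hq⟩ : MvPowerSeries.X a ∣ g - g0 := by
      rw [MvPowerSeries.X_dvd_iff]
      intro d hd
      rw [map_sub, hc, if_pos hd, sub_self]
    have e : g = MvPowerSeries.X a * q + g0 := by rw [← hq]; ring
    rw [e, Finset.coe_insert, Set.image_insert_eq]
    exact Ideal.add_mem _ (Ideal.mul_mem_right _ _ (Ideal.subset_span (Set.mem_insert _ _)))
      (Ideal.span_mono (Set.subset_insert _ _) h1)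

/-- Cancelling an invertible substitution in low degrees. -/
theorem coeff_eq_zero_of_subst {R : Type*} [CommRing R] {ψ g : PowerSeries R}
    (h0 : PowerSeries.constantCoeff ψ = 0) (h1 : IsUnit (PowerSeries.coeff 1 ψ)) {N : ℕ}
    (h : ∀ m < N, PowerSeries.coeff m (PowerSeries.subst ψ g) = 0) :
    ∀ m < N, PowerSeries.coeff m g = 0 := by
  intro m
  induction m using Nat.strong_induction_on with
  | _ m ih =>
    intro hm
    have hs := h m hm
    rw [PowerSeries.coeff_subst' (PowerSeries.HasSubst.of_constantCoeff_zero' h0)] at hs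
    obtain ⟨q, hq⟩ : PowerSeries.X ∣ ψ := PowerSeries.X_dvd_iff.mpr h0
    have hq1 : PowerSeries.constantCoeff q = PowerSeries.coeff 1 ψ := by
      rw [hq, show (1 : ℕ) = 0 + 1 from rfl, PowerSeries.coeff_succ_X_mul,
        PowerSeries.coeff_zero_eq_constantCoeff]
    rw [finsum_eq_single _ m] at hs
    · have hc : PowerSeries.coeff m (ψ ^ m) = PowerSeries.coeff 1 ψ ^ m := by
        conv_lhs => rw [hq, mul_pow]
        rw [PowerSeries.coeff_X_pow_mul', if_pos le_rfl, Nat.sub_self,
          PowerSeries.coeff_zero_eq_constantCoeff, map_pow, hq1]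
      rw [hc, smul_eq_mul] at hs
      exact (h1.pow m).mul_left_eq_zero.mp hs
    · intro d hd
      rcases lt_or_gt_of_ne hd with h' | h'
      · rw [ih d h' (h'.trans hm), zero_smul]
      · rw [hq, mul_pow, PowerSeries.coeff_X_pow_mul', if_neg (not_le.mpr h'), smul_zero]

/-- A series composed with one vanishing below degree `N` vanishes below degree `N`. -/
theorem coeff_subst_eq_zero_of_low {R : Type*} [CommRing R] {ψ g : PowerSeries R}
    (h0 : PowerSeries.constantCoeff ψ = 0) (hg0 : PowerSeries.constantCoeff g = 0) {N : ℕ}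
    (hg : ∀ m < N, PowerSeries.coeff m g = 0) :
    ∀ m < N, PowerSeries.coeff m (PowerSeries.subst g ψ) = 0 := by
  intro m hm
  rw [PowerSeries.coeff_subst' (PowerSeries.HasSubst.of_constantCoeff_zero' hg0)]
  refine finsum_eq_zero_of_forall_eq_zero fun d => ?_
  rcases Nat.eq_zero_or_pos d with rfl | hd
  · rw [PowerSeries.coeff_zero_eq_constantCoeff, h0, zero_smul]
  · have hdvd : PowerSeries.X ^ N ∣ g ^ d :=
      (PowerSeries.X_pow_dvd_iff.mpr hg).trans (dvd_pow_self g hd.ne')
    rw [PowerSeries.X_pow_dvd_iff.mp hdvd m hm, smul_zero]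

variable (p n : ℕ) [Fact p.Prime]

theorem heightIdeal_mono {a b : ℕ} (hab : a ≤ b) : heightIdeal p n a ≤ heightIdeal p n b := by
  cases a with
  | zero => exact bot_le
  | succ a =>
    obtain ⟨b, rfl⟩ : ∃ c, b = c + 1 := ⟨b - 1, by omega⟩
    rw [heightIdeal, heightIdeal]
    refine Ideal.span_mono (Set.insert_subset_insert ?_)
    rintro x ⟨i, hi, rfl⟩
    exact ⟨i, by omega, rfl⟩

/-- The exponents not involving the first `h` variables. -/
abbrev Free (h : ℕ) (d : Fin (n - 1) →₀ ℕ) : Prop := ∀ i : Fin (n - 1), (i : ℕ) < h → d i = 0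

/-- Reduction modulo `p` and the first `h` variables, as a function. -/
def restrictFun (h : ℕ) (f : E p n) : MvPowerSeries (Fin (n - 1)) (K p n) := fun d =>
  if Free n h d then WittVector.constantCoeff (MvPowerSeries.coeff d f) else 0

theorem coeff_restrictFun (h : ℕ) (f : E p n) (d : Fin (n - 1) →₀ ℕ) :
    MvPowerSeries.coeff d (restrictFun p n h f) =
      if Free n h d then WittVector.constantCoeff (MvPowerSeries.coeff d f) else 0 := rfl

/-- Reduction modulo `p` and the first `h` variables. -/
def restrictHom (h : ℕ) : E p n →+* MvPowerSeries (Fin (n - 1)) (K p n) where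
  toFun := restrictFun p n h
  map_one' := by
    classical
    ext d
    rw [coeff_restrictFun, MvPowerSeries.coeff_one, MvPowerSeries.coeff_one]
    by_cases hd : Free n h d
    · rw [if_pos hd]
      split_ifs <;> simp
    · rw [if_neg hd, if_neg]
      rintro rfl
      exact hd fun i _ => rfl
  map_zero' := by
    ext d
    rw [coeff_restrictFun]
    simp
  map_add' f g := by
    ext d
    simp only [coeff_restrictFun, map_add]
    split_ifs <;> simp
  map_mul' f g := by
    classical
    ext d
    rw [coeff_restrictFun, MvPowerSeries.coeff_mul, MvPowerSeries.coeff_mul, map_sum]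
    simp only [coeff_restrictFun]
    split_ifs with hd
    · refine Finset.sum_congr rfl fun x hx => ?_
      have hx' := Finset.HasAntidiagonal.mem_antidiagonal.1 hx
      have hle : ∀ i : Fin (n - 1), (i : ℕ) < h → x.1 i = 0 ∧ x.2 i = 0 := fun i hi => by
        have := DFunLike.congr_fun hx' i
        rw [Finsupp.add_apply, hd i hi] at this
        omega
      rw [if_pos (show Free n h x.1 from fun i hi => (hle i hi).1),
        if_pos (show Free n h x.2 from fun i hi => (hle i hi).2), map_mul]
    · refine (Finset.sum_eq_zero fun x hx => ?_).symm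
      have hx' := Finset.HasAntidiagonal.mem_antidiagonal.1 hx
      by_cases h1 : Free n h x.1
      · rw [if_neg (c := Free n h x.2) fun h2 => hd fun i hi => by
          rw [← hx', Finsupp.add_apply, h1 i hi, h2 i hi], mul_zero]
      · rw [if_neg h1, zero_mul]

theorem coeff_restrictHom (h : ℕ) (f : E p n) (d : Fin (n - 1) →₀ ℕ) :
    MvPowerSeries.coeff d (restrictHom p n h f) =
      if Free n h d then WittVector.constantCoeff (MvPowerSeries.coeff d f) else 0 := rfl

theorem ker_restrictHom (h : ℕ) : RingHom.ker (restrictHom p n h) = heightIdeal p n (h + 1) := by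
  classical
  apply le_antisymm
  · intro x hx
    rw [RingHom.mem_ker] at hx
    let x0 : E p n := fun d => if Free n h d then MvPowerSeries.coeff d x else 0
    have hc : ∀ d, MvPowerSeries.coeff d x0 = if Free n h d then MvPowerSeries.coeff d x else 0 :=
      fun d => rfl
    have h0 : (p : E p n) ∣ x0 := by
      refine map_constantCoeff_eq_zero p n (MvPowerSeries.ext fun d => ?_)
      have hd := congrArg (MvPowerSeries.coeff d) hx
      rw [coeff_restrictHom] at hd
      rw [MvPowerSeries.coeff_map, hc]
      split_ifs with hf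
      · rw [if_pos hf] at hd
        simpa using hd
      · simp
    have h1 := mem_span_X_image (Finset.univ.filter fun i : Fin (n - 1) => (i : ℕ) < h) (x - x0)
      (fun d hd => by
        rw [map_sub, hc, if_pos (show Free n h d from fun i hi => hd i (by simpa using hi)),
          sub_self])
    obtain ⟨q, hq⟩ := h0
    have e : x = (x - x0) + (p : E p n) * q := by rw [← hq]; ring
    rw [e, heightIdeal]
    refine Ideal.add_mem _ (Ideal.span_mono ?_ h1)
      (Ideal.mul_mem_right _ _ (Ideal.subset_span (Set.mem_insert _ _)))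
    rintro y ⟨i, hi, rfl⟩
    exact Set.mem_insert_of_mem _ ⟨i, by simpa using hi, rfl⟩
  · rw [heightIdeal, Ideal.span_le]
    rintro y (rfl | ⟨i, hi, rfl⟩)
    · rw [SetLike.mem_coe, RingHom.mem_ker, map_natCast,
        ← map_natCast (MvPowerSeries.C : K p n →+* MvPowerSeries (Fin (n - 1)) (K p n)),
        CharP.cast_eq_zero, map_zero]
    · rw [SetLike.mem_coe, RingHom.mem_ker]
      ext d
      rw [coeff_restrictHom, u, MvPowerSeries.coeff_X]
      split_ifs with h1 h2
      · subst h2
        have := h1 i hi
        simp at this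
      · simp
      · simp

theorem isPrime_heightIdeal : ∀ h, (heightIdeal p n h).IsPrime
  | 0 => by
    have : IsDomain (E p n) := NoZeroDivisors.to_isDomain _
    exact Ideal.isPrime_bot
  | h + 1 => by
    rw [← ker_restrictHom]
    have : IsDomain (MvPowerSeries (Fin (n - 1)) (K p n)) := NoZeroDivisors.to_isDomain _
    exact RingHom.ker_isPrime _

/-- The top height ideal is the kernel of the reduction. -/
theorem heightIdeal_le_ker_res (h : ℕ) : heightIdeal p n h ≤ RingHom.ker (res p n) := by
  cases h with
  | zero => exact bot_le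
  | succ h =>
    rw [heightIdeal, Ideal.span_le]
    rintro y (rfl | ⟨i, -, rfl⟩)
    · simp [RingHom.mem_ker]
    · rw [SetLike.mem_coe, RingHom.mem_ker, res_u]

theorem ker_res_le_top (hn : 1 ≤ n) : RingHom.ker (res p n) ≤ heightIdeal p n n := by
  obtain ⟨m, rfl⟩ : ∃ m, n = m + 1 := ⟨n - 1, by omega⟩
  rw [← ker_restrictHom]
  intro x hx
  rw [RingHom.mem_ker]
  ext d
  rw [RingHom.mem_ker] at hx
  classical
  rw [coeff_restrictHom]
  split_ifs with hd
  · have : d = 0 := Finsupp.ext fun i => hd i (by omega)
    subst this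
    simpa [res, MvPowerSeries.coeff_zero_eq_constantCoeff_apply] using hx
  · simp

/-- The action preserves the height ideals. -/
theorem heightIdeal_le_comap_act {F : FormalGroup (E p n)} (hF : IsStandard p n F)
    {ψ : PowerSeries (E p n)} {φ : E p n →ₐ[W p n] E p n}
    (hψ : IsIso F (F.map (φ : E p n →+* E p n)) ψ) (i : Fin (n - 1)) :
    ∀ a ≤ (i : ℕ) + 1, heightIdeal p n a ≤
      (heightIdeal p n ((i : ℕ) + 1)).comap (φ : E p n →+* E p n) := by
  have hN : ∀ m < p ^ ((i : ℕ) + 1),
      φ (PowerSeries.coeff m (mulSeries F p)) ∈ heightIdeal p n ((i : ℕ) + 1) := by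
    let π := Ideal.Quotient.mk (heightIdeal p n ((i : ℕ) + 1))
    have hm := hψ.map π
    have hsub := hm.1.subst_mulSeries p
    have hlow : ∀ m < p ^ ((i : ℕ) + 1),
        PowerSeries.coeff m (mulSeries (F.map π) p) = 0 := by
      intro m hm
      rw [← map_mulSeries, PowerSeries.coeff_map]
      exact Ideal.Quotient.eq_zero_iff_mem.mpr ((hF.1 i).1 m hm)
    have h2 := coeff_subst_eq_zero_of_low hm.1.1 (constantCoeff_mulSeries _ p) hlow
    rw [hsub] at h2
    intro m hm'
    have h3 := coeff_eq_zero_of_subst hm.1.1 hm.2 h2 m hm'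
    rw [← map_mulSeries, PowerSeries.coeff_map, ← map_mulSeries, PowerSeries.coeff_map] at h3
    exact Ideal.Quotient.eq_zero_iff_mem.mp h3
  intro a
  induction a with
  | zero => exact fun _ => bot_le
  | succ a ih =>
    intro ha
    rw [heightIdeal, Ideal.span_le]
    rintro y (rfl | ⟨j, hj, rfl⟩)
    · rw [SetLike.mem_coe, Ideal.mem_comap, map_natCast]
      rw [heightIdeal]
      exact Ideal.subset_span (Set.mem_insert _ _)
    · rw [SetLike.mem_coe, Ideal.mem_comap]
      have h1 := hN (p ^ ((j : ℕ) + 1))
        (Nat.pow_lt_pow_right (Fact.out : p.Prime).one_lt (by omega))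
      have h2 := ih (by omega) (heightIdeal_mono p n (by omega) (hF.1 j).2)
      rw [Ideal.mem_comap, map_sub] at h2
      have := Ideal.sub_mem _ h1 h2
      simpa using this

/-- M4: the converse direction. -/
theorem converseStatement : ConverseStatement p n := by
  intro hn F hF h hh
  refine ⟨isPrime_heightIdeal p n h, fun g φ hφ x hx => ?_, fun x hx => ?_⟩
  · obtain ⟨-, hres, ψ, hψ, -⟩ := hφ
    rcases Nat.eq_zero_or_pos h with rfl | hpos
    · have : x = 0 := by simpa [heightIdeal] using hx
      simp [this, heightIdeal]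
    rcases lt_or_eq_of_le hh with hlt | rfl
    · let i : Fin (n - 1) := ⟨h - 1, by omega⟩
      have hi : (i : ℕ) + 1 = h := Nat.succ_pred_eq_of_pos hpos
      have := heightIdeal_le_comap_act p n hF.standard hψ i ((i : ℕ) + 1) le_rfl
      rw [hi] at this
      exact this hx
    · apply ker_res_le_top p h hn
      have hle : heightIdeal p h h ≤
          RingHom.ker ((res p h).comp (φ : E p h →+* E p h)) := by
        obtain ⟨m, rfl⟩ : ∃ m, h = m + 1 := ⟨h - 1, by omega⟩
        rw [heightIdeal, Ideal.span_le]
        rintro y (rfl | ⟨j, -, rfl⟩)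
        · simp [RingHom.mem_ker]
        · rw [SetLike.mem_coe, RingHom.mem_ker, RingHom.comp_apply]
          exact hres j
      exact hle hx
  · cases h with
    | zero =>
      have : x = 0 := by simpa [heightIdeal] using hx
      simp [this, heightIdeal]
    | succ h =>
      have hle : heightIdeal p n (h + 1) ≤
          (heightIdeal p n (h + 1)).comap (galois p n) := by
        conv_lhs => rw [heightIdeal]
        rw [Ideal.span_le]
        rintro y (rfl | ⟨j, hj, rfl⟩)
        · rw [SetLike.mem_coe, Ideal.mem_comap, map_natCast, heightIdeal]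
          exact Ideal.subset_span (Set.mem_insert _ _)
        · rw [SetLike.mem_coe, Ideal.mem_comap, u, galois, MvPowerSeries.map_X, heightIdeal]
          exact Ideal.subset_span (Set.mem_insert_of_mem _ ⟨j, hj, rfl⟩)
      exact hle hx

end

end Vale.Agent.P217
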