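import Vale.Agent.P217.Eval
import Vale.Agent.P217.Hahn.AlgClosed

/-!
P217, module M3: Weierstrass preparation over the valuation ring of `C p`, and the zeros of a
series with given residual degree.
-/

open PowerSeries

noncomputable section

namespace Vale.Agent.P217

variable {p : ℕ} [Fact p.Prime]

/-- The ideal of the elements of valuation at least `ε` in the valuation ring. -/
def tIdeal (p : ℕ) [Fact p.Prime] (ε : ℚ) (hε : 0 ≤ ε) : Ideal (OC p) :=
  Ideal.span {⟨tpow p ε, mem_OC p |>.mpr (by rw [ord_tpow]; exact WithTop.coe_nonneg.mpr hε)⟩}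

theorem mem_tIdeal_pow {ε : ℚ} (hε : 0 ≤ ε) (m : ℕ) {x : OC p} :
    x ∈ tIdeal p ε hε ^ m ↔ ((m • ε : ℚ) : WithTop ℚ) ≤ ord (x : C p) := by
  rw [tIdeal, Ideal.span_singleton_pow, Ideal.mem_span_singleton']
  constructor
  · rintro ⟨a, rfl⟩
    rw [Subring.coe_mul, SubmonoidClass.coe_pow, ord_mul, ord_pow, ord_tpow, WithTop.coe_nsmul]
    exact le_add_of_nonneg_left ((mem_OC p).mp a.2)
  · intro h
    refine ⟨⟨(x : C p) * tpow p (-(m • ε)), (mem_OC p).mpr ?_⟩, Subtype.ext ?_⟩
    · rw [ord_mul, ord_tpow]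
      revert h
      cases ord (x : C p) with
      | top =>
        intro _
        rw [WithTop.top_add]
        exact le_top
      | coe u =>
        intro h
        rw [WithTop.coe_le_coe] at h
        rw [← WithTop.coe_add, WithTop.coe_nonneg]
        linarith
    · have hpow : tpow p ε ^ m = tpow p (m • ε) := by simp [tpow, HahnSeries.single_pow]
      rw [Subring.coe_mul, SubmonoidClass.coe_pow, hpow, mul_assoc, ← tpow_add, neg_add_cancel]
      simp [tpow]

theorem mem_tIdeal {ε : ℚ} (hε : 0 ≤ ε) {x : OC p} :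
    x ∈ tIdeal p ε hε ↔ (ε : WithTop ℚ) ≤ ord (x : C p) := by
  simpa using mem_tIdeal_pow (p := p) hε 1 (x := x)

theorem isAdicComplete_tIdeal {ε : ℚ} (hε : 0 < ε) :
    IsAdicComplete (tIdeal p ε hε.le) (OC p) := by
  classical
  refine { haus' := fun x hx => ?_, prec' := fun {f} hf => ?_ }
  · refine Subtype.ext (eq_zero_of_forall_lt_ord fun B => ?_)
    obtain ⟨m, hm⟩ := exists_nat_gt (B / ε)
    have h := hx m
    rw [SModEq.zero, Ideal.smul_eq_mul, Ideal.mul_top, mem_tIdeal_pow] at h
    refine lt_of_lt_of_le (WithTop.coe_lt_coe.mpr ?_) h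
    rw [nsmul_eq_mul]
    exact (div_lt_iff₀ hε).mp hm
  · have hd : ∀ a b, a ≤ b → ((a • ε : ℚ) : WithTop ℚ) ≤ ord ((f b : C p) - (f a : C p)) := by
      intro a b hab
      have h := hf hab
      rw [SModEq.sub_mem, Ideal.smul_eq_mul, Ideal.mul_top, mem_tIdeal_pow] at h
      rw [← ord_neg, neg_sub]
      simpa using h
    set d : ℕ → C p := fun i => (f (i + 1) : C p) - (f i : C p) with hdd
    have hnull : IsNull p d := fun B => by
      obtain ⟨N, hN⟩ := exists_nat_gt (B / ε)
      refine (Set.finite_lt_nat N).subset fun i hi => ?_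
      by_contra hge
      have h1 : ((i • ε : ℚ) : WithTop ℚ) ≤ (B : WithTop ℚ) := (hd i (i + 1) i.le_succ).trans hi
      rw [WithTop.coe_le_coe, nsmul_eq_mul] at h1
      have h2 : (N : ℚ) ≤ i := by exact_mod_cast not_lt.mp hge
      have h3 := (div_lt_iff₀ hε).mp hN
      nlinarith [mul_le_mul_of_nonneg_right h2 hε.le]
    obtain ⟨s, hs⟩ := hnull.exists_hasSumC
    have hs0 : 0 ≤ ord s := hs.le_ord fun i => le_ord_sub ((mem_OC p).mp (f (i + 1)).2)
      ((mem_OC p).mp (f i).2)
    refine ⟨f 0 + ⟨s, (mem_OC p).mpr hs0⟩, fun k => ?_⟩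
    rw [SModEq.sub_mem, Ideal.smul_eq_mul, Ideal.mul_top, mem_tIdeal_pow]
    have hfin := hasSumC_of_support_subset (p := p)
      (a := fun i => if i < k then d i else 0) (Finset.range k)
      fun i hi => if_neg fun h => hi (Finset.mem_range.mpr h)
    rw [Finset.sum_congr rfl (fun i hi => if_pos (Finset.mem_range.mp hi)), hdd,
      Finset.sum_range_sub (fun i => (f i : C p))] at hfin
    have htail := (hs.sub hfin).le_ord (m := ((k • ε : ℚ) : WithTop ℚ)) fun i => by
      by_cases hik : i < k
      · simp [hdd, hik]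
      · rw [hdd]
        simp only [if_neg hik, sub_zero]
        exact (WithTop.coe_le_coe.mpr (nsmul_le_nsmul_left hε.le (not_lt.mp hik))).trans
          (hd i (i + 1) i.le_succ)
    rw [← ord_neg] at htail
    convert htail using 2
    push_cast
    ring

theorem isUnit_OC {x : OC p} (h : ord (x : C p) = 0) : IsUnit x := by
  have hx : (x : C p) ≠ 0 := fun h0 => by
    rw [h0, ord_zero] at h
    exact WithTop.top_ne_coe (α := ℚ) (a := 0) h
  have hinv : ord ((x : C p)⁻¹) = 0 := by
    have h1 : ord (x : C p) + ord ((x : C p)⁻¹) = 0 := by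
      rw [← ord_mul, mul_inv_cancel₀ hx, ord_one]
    rwa [h, zero_add] at h1
  exact isUnit_iff_exists_inv.mpr
    ⟨⟨(x : C p)⁻¹, (mem_OC p).mpr hinv.ge⟩, Subtype.ext (mul_inv_cancel₀ hx)⟩

/-- Weierstrass preparation. -/
theorem exists_distinguished {g : PowerSeries (C p)}
    (hg : IntCoeff (RingHom.id (C p)) (g : MvPowerSeries Unit (C p))) {D : ℕ}
    (hlow : ∀ i < D, 0 < ord (coeff i g)) (hD : ord (coeff D g) = 0) :
    ∃ (P : Polynomial (C p)) (U : PowerSeries (C p)), P.Monic ∧ P.natDegree = D ∧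
      (∀ i < D, 0 < ord (P.coeff i)) ∧ (∀ i, 0 ≤ ord (coeff i U)) ∧
      ord (constantCoeff U) = 0 ∧ g = (P : PowerSeries (C p)) * U := by
  obtain ⟨ε₀, hε₀, hb⟩ := exists_pos_bound (x := fun i : Fin D => coeff i g) fun i => hlow i i.isLt
  have := isAdicComplete_tIdeal (p := p) hε₀
  set I := tIdeal p ε₀ hε₀.le
  set g' : PowerSeries (OC p) :=
    PowerSeries.mk fun i => ⟨coeff i g, (mem_OC p).mpr (intCoeff_iff₁.mp hg i)⟩ with hg'
  have hmap : g'.map (OC p).subtype = g := by ext i; simp [hg']
  have hI : ∀ i < D, coeff i g' ∈ I := fun i hi => by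
    rw [mem_tIdeal]
    simpa [hg'] using hb ⟨i, hi⟩
  have hnI : coeff D g' ∉ I := fun h => by
    rw [mem_tIdeal] at h
    simp only [hg', coeff_mk] at h
    rw [hD] at h
    exact not_lt.mpr h (WithTop.coe_pos.mpr hε₀)
  have hItop : I ≠ ⊤ := fun h => hnI (h ▸ Submodule.mem_top)
  have hord : (g'.map (Ideal.Quotient.mk I)).order = (D : ℕ∞) := by
    rw [order_eq_nat]
    refine ⟨?_, fun i hi => ?_⟩
    · rw [coeff_map]
      exact fun h => hnI (Ideal.Quotient.eq_zero_iff_mem.mp h)
    · rw [coeff_map]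
      exact Ideal.Quotient.eq_zero_iff_mem.mpr (hI i hi)
  have hordn : (g'.map (Ideal.Quotient.mk I)).order.toNat = D := by rw [hord]; rfl
  have H : g'.IsWeierstrassDivisorAt I := by
    rw [PowerSeries.IsWeierstrassDivisorAt, hordn]
    exact isUnit_OC (by simpa [hg'] using hD)
  have hdiv := H.isWeierstrassDivisionAt_div_mod (f := PowerSeries.X ^ D)
  set q := H.div (PowerSeries.X ^ D)
  set r := H.mod (PowerSeries.X ^ D)
  have heq : (PowerSeries.X ^ D : PowerSeries (OC p)) = g' * q + r :=
    hdiv.eq_mul_add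
  have hdeg : r.degree < (D : ℕ) := by
    have h := hdiv.degree_lt
    rwa [hordn] at h
  set φ := Ideal.Quotient.mk I
  -- reduction of the division
  have hr : ∀ i < D, r.coeff i ∈ I := fun i hi => by
    have h := congrArg (coeff i) heq
    rw [coeff_X_pow, if_neg hi.ne, map_add, Polynomial.coeff_coe] at h
    have h1 : coeff i (g' * q) ∈ I := by
      rw [coeff_mul]
      refine Ideal.sum_mem _ fun ab hab => I.mul_mem_right _ (hI _ ?_)
      have := Finset.HasAntidiagonal.mem_antidiagonal.mp hab
      omega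
    have h2 : r.coeff i = -(coeff i (g' * q)) := eq_neg_of_add_eq_zero_right h.symm
    rw [h2]
    exact I.neg_mem h1
  have hq0 : IsUnit (constantCoeff q) := by
    have h := congrArg (coeff D) heq
    rw [coeff_X_pow, if_pos rfl, map_add, Polynomial.coeff_coe,
      Polynomial.coeff_eq_zero_of_degree_lt hdeg, add_zero, coeff_mul,
      Finset.sum_eq_add_sum_sdiff_singleton_of_mem
        ((Finset.HasAntidiagonal.mem_antidiagonal (a := (D, 0))).mpr (add_zero D))] at h
    refine isUnit_OC ?_
    rw [coeff_zero_eq_constantCoeff_apply] at h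
    set rest := ∑ x ∈ Finset.HasAntidiagonal.antidiagonal D \ {(D, 0)}, coeff x.1 g' * coeff x.2 q
    have hrest : rest ∈ I := by
      refine Ideal.sum_mem _ fun ab hab => I.mul_mem_right _ (hI _ ?_)
      rw [Finset.mem_sdiff, Finset.HasAntidiagonal.mem_antidiagonal, Finset.mem_singleton] at hab
      rcases lt_or_ge ab.1 D with h' | h'
      · exact h'
      · exact absurd (Prod.ext (by omega) (by omega)) hab.2
    rw [mem_tIdeal] at hrest
    have hprod : ((coeff D g' : OC p) : C p) * ((constantCoeff q : OC p) : C p) =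
        1 - ((rest : OC p) : C p) := by
      rw [eq_sub_iff_add_eq, ← Subring.coe_mul, ← Subring.coe_add, ← h, Subring.coe_one]
    have h1 : ord ((1 : C p) - ((rest : OC p) : C p)) = 0 := by
      have hlt : ord (1 : C p) < ord (-((rest : OC p) : C p)) := by
        rw [ord_one, ord_neg]
        exact (WithTop.coe_pos.mpr hε₀).trans_le hrest
      rw [sub_eq_add_neg]
      exact (HahnSeries.orderTop_add_eq_left hlt).trans ord_one
    rw [← hprod, ord_mul, show ((coeff D g' : OC p) : C p) = coeff D g by simp [hg'], hD, zero_add] at h1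
    exact h1
  obtain ⟨qu, hqu⟩ := PowerSeries.isUnit_iff_constantCoeff.mpr hq0
  set P' : Polynomial (OC p) := Polynomial.X ^ D - r
  have hP : (P' : PowerSeries (OC p)) = g' * q := by
    rw [Polynomial.coe_sub, Polynomial.coe_pow, Polynomial.coe_X, heq, add_sub_cancel_right]
  have hgPU : g' = (P' : PowerSeries (OC p)) * ↑qu⁻¹ := by
    rw [hP, ← hqu, mul_assoc, Units.mul_inv, mul_one]
  have hmon : P'.Monic := Polynomial.monic_X_pow_sub hdeg
  have hnat : P'.natDegree = D := by
    refine Polynomial.natDegree_eq_of_degree_eq_some ?_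
    rw [Polynomial.degree_sub_eq_left_of_degree_lt (by simpa using hdeg), Polynomial.degree_X_pow]
  refine ⟨P'.map (OC p).subtype, (↑qu⁻¹ : PowerSeries (OC p)).map (OC p).subtype,
    hmon.map _, ?_, fun i hi => ?_, fun i => ?_, ?_, ?_⟩
  · rw [hmon.natDegree_map, hnat]
  · rw [Polynomial.coeff_map, Polynomial.coeff_sub, Polynomial.coeff_X_pow, if_neg hi.ne, zero_sub]
    simp only [Subring.coe_subtype, Subring.coe_neg, ord_neg]
    exact (WithTop.coe_pos.mpr hε₀).trans_le ((mem_tIdeal hε₀.le).mp (hr i hi))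
  · rw [coeff_map]
    exact (mem_OC p).mp (coeff i (↑qu⁻¹ : PowerSeries (OC p))).2
  · have h1 := congrArg (fun f => ((constantCoeff f : OC p) : C p)) (Units.mul_inv qu)
    simp only [map_mul, map_one, Subring.coe_mul, Subring.coe_one] at h1
    have h2 := congrArg ord h1
    rw [ord_mul, ord_one] at h2
    rw [← coeff_zero_eq_constantCoeff_apply, coeff_map, coeff_zero_eq_constantCoeff_apply]
    exact ((add_eq_zero_iff_of_nonneg ((mem_OC p).mp (constantCoeff (qu : PowerSeries (OC p))).2)
      ((mem_OC p).mp (constantCoeff (↑qu⁻¹ : PowerSeries (OC p))).2)).mp h2).2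
  · rw [← hmap, hgPU, map_mul, Polynomial.polynomial_map_coe]

theorem eval₁C_coe {R : Type*} [CommRing R] {c : R →+* C p} {P : Polynomial R}
    (hP : ∀ i, 0 ≤ ord (c (P.coeff i))) {z : C p} (hz : 0 < ord z) :
    eval₁C p c (P : PowerSeries R) z = P.eval₂ c z := by
  have hint : IntCoeff c ((P : PowerSeries R) : MvPowerSeries Unit R) :=
    intCoeff_iff₁.mpr fun i => by rw [Polynomial.coeff_coe]; exact hP i
  refine (hasSumC_eval₁ hint hz).unique ?_
  have h := hasSumC_of_support_subset (p := p)
    (a := fun i => c (coeff i (P : PowerSeries R)) * z ^ i) (Finset.range (P.natDegree + 1))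
    fun i hi => by
      rw [Polynomial.coeff_coe, Polynomial.coeff_eq_zero_of_natDegree_lt
        (by simpa using hi), map_zero, zero_mul]
  convert h using 1
  rw [Polynomial.eval₂_eq_sum_range]
  simp [Polynomial.coeff_coe]

theorem ord_eval₁C_of_unit {U : PowerSeries (C p)} (hU : ∀ i, 0 ≤ ord (coeff i U))
    (h0 : ord (constantCoeff U) = 0) {z : C p} (hz : 0 < ord z) :
    ord (eval₁C p (RingHom.id (C p)) U z) = 0 := by
  have hint : IntCoeff (RingHom.id (C p)) (U : MvPowerSeries Unit (C p)) := intCoeff_iff₁.mpr hU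
  have hc : IntCoeff (RingHom.id (C p))
      (PowerSeries.C (constantCoeff U) : MvPowerSeries Unit (C p)) := intCoeff_C h0.ge
  have h1 : 0 < ord (eval₁C p (RingHom.id (C p)) (U - PowerSeries.C (constantCoeff U)) z) :=
    ord_eval₁C_pos (hint.sub hc) (by simp) hz
  have h2 : eval₁C p (RingHom.id (C p)) (PowerSeries.C (constantCoeff U)) z = constantCoeff U :=
    evalC_C _
  rw [eval₁C_sub hint hc hz, h2] at h1
  set y := eval₁C p (RingHom.id (C p)) U z
  rw [show y = constantCoeff U + (y - constantCoeff U) by ring]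
  exact (HahnSeries.orderTop_add_eq_left (h0.trans_lt h1)).trans h0

/-- The zeros in the open disc: the roots of the distinguished factor. -/
theorem exists_roots {g : PowerSeries (C p)}
    (hg : IntCoeff (RingHom.id (C p)) (g : MvPowerSeries Unit (C p))) {D : ℕ}
    (hlow : ∀ i < D, 0 < ord (coeff i g)) (hD : ord (coeff D g) = 0) :
    ∃ (s : Multiset (C p)) (U : PowerSeries (C p)), s.card = D ∧ (∀ i, 0 ≤ ord (coeff i U)) ∧
      ord (constantCoeff U) = 0 ∧ (∀ z, z ∈ s ↔ 0 < ord z ∧ eval₁C p (RingHom.id (C p)) g z = 0) ∧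
      g = ((s.map fun y => Polynomial.X - Polynomial.C y).prod : Polynomial (C p)) * U := by
  obtain ⟨P, U, hmon, hnat, hPlow, hU, hU0, hgPU⟩ := exists_distinguished hg hlow hD
  have hsplit : P.Splits := IsAlgClosed.splits P
  have hPint : ∀ i, 0 ≤ ord ((RingHom.id (C p)) (P.coeff i)) := fun i => by
    rcases lt_trichotomy i D with h | h | h
    · exact (hPlow i h).le
    · rw [h, ← hnat]; simp [hmon.coeff_natDegree]
    · simp [Polynomial.coeff_eq_zero_of_natDegree_lt (hnat.symm ▸ h)]
  have heval : ∀ z, 0 < ord z → eval₁C p (RingHom.id (C p)) g z =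
      P.eval z * eval₁C p (RingHom.id (C p)) U z := fun z hz => by
    rw [hgPU, eval₁C_mul (intCoeff_iff₁.mpr fun i => by rw [Polynomial.coeff_coe]; exact hPint i)
      (intCoeff_iff₁.mpr hU) hz, eval₁C_coe hPint hz]
    rfl
  refine ⟨P.roots, U, ?_, hU, hU0, fun z => ?_, ?_⟩
  · rw [← hnat, ← hsplit.natDegree_eq_card_roots]
  · rw [Polynomial.mem_roots hmon.ne_zero, Polynomial.IsRoot]
    constructor
    · intro hz
      have hpos : 0 < ord z := by
        by_contra hle
        rw [not_lt] at hle
        obtain ⟨u, hu⟩ := WithTop.ne_top_iff_exists.mp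
          (ne_top_of_le_ne_top WithTop.zero_ne_top hle)
        rw [← hu, ← WithTop.coe_zero, WithTop.coe_le_coe] at hle
        have hz0 : z ≠ 0 := fun h => by simp [h] at hu
        have hlt : ((D • u : ℚ) : WithTop ℚ) < ord (∑ i ∈ Finset.range D, P.coeff i * z ^ i) := by
          refine lt_ord_iff.mpr fun q hq => ?_
          rw [HahnSeries.coeff_sum]
          refine Finset.sum_eq_zero fun i hi => lt_ord_iff.mp ?_ q le_rfl
          rw [Finset.mem_range] at hi
          rw [ord_mul, ord_pow, ← hu, ← WithTop.coe_nsmul]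
          have h1 := hPlow i hi
          revert h1
          cases ord (P.coeff i) with
          | top =>
            intro _
            rw [WithTop.top_add]
            exact WithTop.coe_lt_top q
          | coe e =>
            intro h1
            rw [← WithTop.coe_add, WithTop.coe_lt_coe]
            rw [WithTop.coe_pos] at h1
            have h2 : (D • u : ℚ) ≤ i • u := by
              rw [nsmul_eq_mul, nsmul_eq_mul]
              exact mul_le_mul_of_nonpos_right (by exact_mod_cast hi.le) hle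
            linarith
        have hsum : ∑ i ∈ Finset.range D, P.coeff i * z ^ i = -(z ^ D) := by
          rw [Polynomial.eval_eq_sum_range, hnat, Finset.sum_range_succ] at hz
          rw [show P.coeff D = 1 by rw [← hnat]; exact hmon.coeff_natDegree, one_mul] at hz
          exact eq_neg_of_add_eq_zero_left hz
        rw [hsum, ord_neg, ord_pow, ← hu, ← WithTop.coe_nsmul] at hlt
        exact lt_irrefl _ hlt
      exact ⟨hpos, by rw [heval z hpos, hz, zero_mul]⟩
    · rintro ⟨hz, he⟩
      rw [heval z hz, mul_eq_zero] at he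
      refine he.resolve_right fun h => ?_
      have := ord_eval₁C_of_unit hU hU0 hz
      rw [h, ord_zero] at this
      exact WithTop.top_ne_zero this
  · rw [← hsplit.eq_prod_roots_of_monic hmon]
    exact hgPU

/-- Simple zeros: a series with residual degree `D` whose derivative does not vanish at its zeros
has exactly `D` zeros in the open disc. -/
theorem exists_zeros_finset {g : PowerSeries (C p)}
    (hg : IntCoeff (RingHom.id (C p)) (g : MvPowerSeries Unit (C p))) {D : ℕ}
    (hlow : ∀ i < D, 0 < ord (coeff i g)) (hD : ord (coeff D g) = 0)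
    (hder : ∀ z, 0 < ord z → eval₁C p (RingHom.id (C p)) g z = 0 →
      eval₁C p (RingHom.id (C p)) (derivative (C p) g) z ≠ 0) :
    ∃ Z : Finset (C p), Z.card = D ∧
      ∀ z, z ∈ Z ↔ 0 < ord z ∧ eval₁C p (RingHom.id (C p)) g z = 0 := by
  classical
  obtain ⟨s, U, hcard, hU, hU0, hmem, hfac⟩ := exists_roots hg hlow hD
  suffices hs : s.Nodup from
    ⟨⟨s, hs⟩, hcard, fun z => by rw [Finset.mem_mk]; exact hmem z⟩
  by_contra hn
  rw [Multiset.nodup_iff_count_le_one] at hn
  push Not at hn
  obtain ⟨y, hy⟩ := hn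
  have hys : y ∈ s := Multiset.count_pos.mp (by omega)
  obtain ⟨hypos, hy0⟩ := (hmem y).mp hys
  refine hder y hypos hy0 ?_
  set P := (s.map fun y => Polynomial.X - Polynomial.C y).prod with hP
  obtain ⟨Q, hQ⟩ : (Polynomial.X - Polynomial.C y) ^ 2 ∣ P := by
    have h2 : Multiset.replicate 2 y ≤ s := Multiset.le_count_iff_replicate_le.mp hy
    have h3 := Multiset.prod_dvd_prod_of_le (Multiset.map_le_map (f := fun y : C p => Polynomial.X - Polynomial.C y) h2)
    rwa [Multiset.map_replicate, Multiset.prod_replicate] at h3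
  have hP'0 : P.eval y = 0 ∧ P.derivative.eval y = 0 := by
    rw [hQ]
    simp [Polynomial.derivative_pow]
  have hPint : ∀ i, 0 ≤ ord (P.coeff i) := by
    intro i
    have hP' : P ∈ Polynomial.lifts (OC p).subtype := by
      have hlift : ∀ m : Multiset (C p), (∀ z ∈ m, 0 ≤ ord z) →
          (m.map fun y => Polynomial.X - Polynomial.C y).prod ∈ Polynomial.lifts (OC p).subtype := by
        intro m hm
        refine Subsemiring.multiset_prod_mem _ _ fun a ha => ?_
        obtain ⟨z, hz, rfl⟩ := Multiset.mem_map.mp ha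
        refine (Polynomial.mem_lifts _).mpr
          ⟨Polynomial.X - Polynomial.C ⟨z, (mem_OC p).mpr (hm z hz)⟩, ?_⟩
        simp
      exact hlift s fun z hz => ((hmem z).mp hz).1.le
    obtain ⟨Q', hQ'⟩ := (Polynomial.mem_lifts _).mp hP'
    rw [← hQ', Polynomial.coeff_map]
    exact (mem_OC p).mp (Q'.coeff i).2
  have hPd : ∀ i, 0 ≤ ord (P.derivative.coeff i) := fun i => by
    rw [Polynomial.coeff_derivative, ← Nat.cast_succ]
    exact (OC p).mul_mem (hPint _) (natCast_mem (OC p) _)
  have hUd : ∀ i, 0 ≤ ord (coeff i (derivative (C p) U)) := fun i => by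
    rw [coeff_derivative, ← Nat.cast_succ]
    exact (OC p).mul_mem (hU _) (natCast_mem (OC p) _)
  have iP : IntCoeff (RingHom.id (C p)) ((P : PowerSeries (C p)) : MvPowerSeries Unit (C p)) :=
    intCoeff_iff₁.mpr fun i => by rw [Polynomial.coeff_coe]; exact hPint i
  have iPd : IntCoeff (RingHom.id (C p))
      ((derivative (C p) (P : PowerSeries (C p))) : MvPowerSeries Unit (C p)) :=
    intCoeff_iff₁.mpr fun i => by rw [derivative_coe, Polynomial.coeff_coe]; exact hPd i
  have iU := (intCoeff_iff₁ (c := RingHom.id (C p))).mpr hU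
  have iUd := (intCoeff_iff₁ (c := RingHom.id (C p))).mpr hUd
  rw [hfac, Derivation.leibniz, smul_eq_mul, smul_eq_mul]
  refine (eval₁C_add (iP.mul iUd) (iU.mul iPd) hypos).trans ?_
  rw [eval₁C_mul iP iUd hypos, eval₁C_mul iU iPd hypos,
    derivative_coe, eval₁C_coe hPint hypos, eval₁C_coe hPd hypos, Polynomial.eval₂_id,
    Polynomial.eval₂_id, hP'0.1, hP'0.2]
  simp

end Vale.Agent.P217
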