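import Vale.Agent.P217.Iface

/-!
Assembly: the classification of invariant prime and radical ideals from the interface Props.
-/

namespace Vale.Agent.P217

noncomputable section

variable {p n : ℕ} [Fact p.Prime]

theorem heightIdeal_succ_le {J : Ideal (E p n)} {m : ℕ} (hp : (p : E p n) ∈ J)
    (hu : ∀ i : Fin (n - 1), (i : ℕ) < m → u p n i ∈ J) :
    heightIdeal p n (m + 1) ≤ J := by
  rw [heightIdeal, Ideal.span_le]
  intro x hx
  rcases hx with rfl | ⟨i, hi, rfl⟩
  · exact hp
  · exact hu i hi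

theorem mem_span_of_constantCoeff_eq_zero {R : Type*} [CommRing R] {σ : Type*} [Finite σ]
    (f : MvPowerSeries σ R) (hf : MvPowerSeries.constantCoeff f = 0) :
    f ∈ Ideal.span (Set.range (MvPowerSeries.X : σ → MvPowerSeries σ R)) := by
  classical
  have := Fintype.ofFinite σ
  have : ∀ s : Finset σ, ∀ g : MvPowerSeries σ R,
      (∀ d : σ →₀ ℕ, (∀ i ∈ s, d i = 0) → MvPowerSeries.coeff d g = 0) →
      g ∈ Ideal.span (MvPowerSeries.X '' (s : Set σ)) := by
    intro s
    induction s using Finset.induction_on with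
    | empty =>
      intro g hg
      have : g = 0 := by
        ext d
        simpa using hg d (by simp)
      simp [this]
    | @insert a s ha ih =>
      intro g hg
      let g0 : MvPowerSeries σ R := fun d => if d a = 0 then MvPowerSeries.coeff d g else 0
      have hc : ∀ d, MvPowerSeries.coeff d g0 = if d a = 0 then MvPowerSeries.coeff d g else 0 :=
        fun d => rfl
      have h1 : g0 ∈ Ideal.span (MvPowerSeries.X '' (s : Set σ)) := by
        refine ih g0 fun d hd => ?_
        rw [hc]
        split_ifs with h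
        · apply hg
          intro i hi
          rcases Finset.mem_insert.1 hi with rfl | hi
          · exact h
          · exact hd i hi
        · rfl
      have h2 : MvPowerSeries.X a ∣ g - g0 := by
        rw [MvPowerSeries.X_dvd_iff]
        intro d hd
        rw [map_sub, hc, if_pos hd, sub_self]
      obtain ⟨q, hq⟩ := h2
      have e : g = MvPowerSeries.X a * q + g0 := by rw [← hq]; ring
      rw [e, Finset.coe_insert, Set.image_insert_eq]
      refine Ideal.add_mem _ (Ideal.mul_mem_right _ _ (Ideal.subset_span (Set.mem_insert _ _))) ?_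
      exact Ideal.span_mono (Set.subset_insert _ _) h1
  have h := this Finset.univ f (fun d hd => by
    have : d = 0 := Finsupp.ext fun i => hd i (Finset.mem_univ i)
    simpa [this] using hf)
  simpa [Finset.coe_univ, Set.image_univ] using h

/-- The top height ideal contains every non-unit. -/
theorem le_heightIdeal_top (hn : 1 ≤ n) {J : Ideal (E p n)} (hJ : J ≠ ⊤) :
    J ≤ heightIdeal p n n := by
  intro f hf
  obtain ⟨m, rfl⟩ : ∃ m, n = m + 1 := ⟨n - 1, by omega⟩
  have hnu : ¬ IsUnit f := fun h => hJ (Ideal.eq_top_of_isUnit_mem _ hf h)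
  have hc : ¬ IsUnit (MvPowerSeries.constantCoeff f) := fun h =>
    hnu (MvPowerSeries.isUnit_iff_constantCoeff.2 h)
  have hdvd : (p : W p (m + 1)) ∣ MvPowerSeries.constantCoeff f := by
    by_contra hnd
    apply hc
    apply WittVector.isUnit_of_coeff_zero_ne_zero
    intro h0
    apply hnd
    have : MvPowerSeries.constantCoeff f ∈
        RingHom.ker (WittVector.constantCoeff : W p (m + 1) →+* K p (m + 1)) := h0
    rw [WittVector.ker_constantCoeff] at this
    exact Ideal.mem_span_singleton.1 this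
  obtain ⟨w, hw⟩ := hdvd
  rw [heightIdeal]
  have e : f = (p : E p (m + 1)) * MvPowerSeries.C w +
      (f - MvPowerSeries.C (MvPowerSeries.constantCoeff f)) := by
    rw [hw, map_mul, map_natCast]
    ring
  rw [e]
  refine Ideal.add_mem _ (Ideal.mul_mem_right _ _ (Ideal.subset_span (Set.mem_insert _ _))) ?_
  refine Ideal.span_mono ?_ (mem_span_of_constantCoeff_eq_zero _ (by simp))
  rintro x ⟨i, rfl⟩
  exact Set.mem_insert_of_mem _ ⟨i, by omega, rfl⟩

theorem radical_invariant_eq (hn : 1 ≤ n) (F : FormalGroup (E p n)) (hF : IsNice p n F)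
    (hU : IsUniversal p n F) (hP : PointStatement p n) (hP0 : PointZeroStatement p n)
    (hC0 : CharZeroCore p n) (hCP : CharPCore p n)
    (J : Ideal (E p n)) (hJ : J.IsRadical)
    (hI : ∀ g φ, ActsBy p n F g φ → ∀ x ∈ J, φ x ∈ J) (hT : J ≠ ⊤) :
    ∃ h ≤ n, J = heightIdeal p n h := by
  classical
  by_cases hp : (p : E p n) ∈ J
  · by_cases hall : ∀ i, u p n i ∈ J
    · refine ⟨n, le_rfl, le_antisymm (le_heightIdeal_top hn hT) ?_⟩
      obtain ⟨m, rfl⟩ : ∃ m, n = m + 1 := ⟨n - 1, by omega⟩
      exact heightIdeal_succ_le hp fun i _ => hall i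
    · simp only [not_forall] at hall
      obtain ⟨i, hi⟩ := hall
      have hex : ∃ m : ℕ, ∃ hm : m < n - 1, u p n ⟨m, hm⟩ ∉ J := ⟨i, i.2, hi⟩
      obtain ⟨hm, hmem⟩ := Nat.find_spec hex
      set i0 : Fin (n - 1) := ⟨Nat.find hex, hm⟩ with hi0
      have hlow : heightIdeal p n ((i0 : ℕ) + 1) ≤ J := by
        refine heightIdeal_succ_le hp fun j hj => ?_
        by_contra hc
        exact Nat.find_min hex (show (j : ℕ) < Nat.find hex from hj) ⟨j.2, hc⟩
      obtain ⟨x, hx1, hx2, hx3, hx4⟩ := hP J hJ hp i0 hmem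
      refine ⟨(i0 : ℕ) + 1, by omega, le_antisymm ?_ hlow⟩
      intro f hf
      exact hCP hn F hF hU i0 x hx1 hx2 (fun e he => hx3 e (hlow he)) hx4 f
        fun g φ hgφ => hx3 _ (hI g φ hgφ f hf)
  · obtain ⟨x, hx1, hx2, hx3⟩ := hP0 J hJ hp
    refine ⟨0, Nat.zero_le n, le_antisymm ?_ bot_le⟩
    intro f hf
    have : f = 0 := hC0 hn F hF hU x hx1 hx2 f fun g φ hgφ => hx3 _ (hI g φ hgφ f hf)
    simp [this]

theorem chai_of_statements (hn : 1 ≤ n) (hFgl : FglStatement p n) (hD : DeformStatement p n)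
    (hA : ActionStatement p n) (hConv : ConverseStatement p n) (hP : PointStatement p n)
    (hP0 : PointZeroStatement p n) (hC0 : CharZeroCore p n) (hCP : CharPCore p n) :
    ChaiClassification p n := by
  obtain ⟨F, hF⟩ := hFgl hn
  have hU := hD hn F hF
  refine ⟨F, hF.honda, hU, hF.standard, hF.comm, hF.galois_fixed, hA hn F hF, fun h hh => (hConv hn F hF h hh).1,
    fun P hP' => ⟨fun hI => ?_, ?_⟩, fun J hJ => ⟨fun hI => ?_, ?_⟩, fun J hJ hI => ?_⟩
  · exact radical_invariant_eq hn F hF hU hP hP0 hC0 hCP P hP'.isRadical hI.1 hP'.ne_top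
  · rintro ⟨h, hh, rfl⟩
    exact (hConv hn F hF h hh).2
  · by_cases hT : J = ⊤
    · exact Or.inl hT
    · exact Or.inr (radical_invariant_eq hn F hF hU hP hP0 hC0 hCP J hJ hI.1 hT)
  · rintro (rfl | ⟨h, hh, rfl⟩)
    · exact ⟨fun _ _ _ _ _ => Submodule.mem_top, fun _ _ => Submodule.mem_top⟩
    · exact (hConv hn F hF h hh).2
  · by_cases hT : J = ⊤
    · exact Or.inl hT
    · exact Or.inr (radical_invariant_eq hn F hF hU hP hP0 hC0 hCP J hJ hI hT)

end

end Vale.Agent.P217
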