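import Vale.Agent.P217.Iface
import Vale.Agent.P217.Hahn.AlgClosed

/-!
P217, module M3: `C p` is algebraically closed.
-/

namespace Vale.Agent.P217

/-- `C p` is algebraically closed. -/
theorem closedStatement (p : ℕ) [Fact p.Prime] : ClosedStatement p :=
  hahnSeries_isAlgClosed

end Vale.Agent.P217
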