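import Vale.Agent.P217.Base

/-!
Interfaces between the modules of the P217 proof: each is a Prop, proved in its own file.
-/

namespace Vale.Agent.P217

noncomputable section

open MvPowerSeries

variable (p n : ℕ) [Fact p.Prime]

/-- The p-power coefficients of the Hazewinkel logarithm at a tuple `a` in a field of
characteristic zero: a_0 = 1, p a_m = sum_i u_i^(p^(m-i)) a_(m-i), with u_n = 1. -/
def logCoeff {L : Type*} [Field L] (a : Fin (n - 1) → L) : ℕ → L
  | 0 => 1
  | m + 1 => (p : L)⁻¹ * ∑ i : Fin n,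
      if (i : ℕ) ≤ m then
        logCoeff a (m - i) *
          (if h : (i : ℕ) < n - 1 then a ⟨i, h⟩ else 1) ^ (p ^ (m - i))
      else 0
termination_by m => m
decreasing_by omega

/-- `f` is the Hazewinkel logarithm at `a`. -/
def IsLogSeries {L : Type*} [Field L] (a : Fin (n - 1) → L) (f : PowerSeries L) : Prop :=
  (∀ m, PowerSeries.coeff (p ^ m) f = logCoeff p n a m) ∧
    ∀ i, (∀ m, i ≠ p ^ m) → PowerSeries.coeff i f = 0

/-- The properties of the concrete law used by all modules. -/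
structure IsNice (F : FormalGroup (E p n)) : Prop where
  comm : F.IsComm
  honda : IsHonda p n (F.map (res p n))
  standard : IsStandard p n F
  galois_fixed : F.map (galois p n) = F
  log : ∀ (L : Type) [Field L] [CharZero L] (x : E p n →+* L) (f : PowerSeries L),
    IsLogSeries p n (fun i => x (u p n i)) f →
      PowerSeries.subst ((F.map x : FormalGroup L) : MvPowerSeries (Fin 2) L) f =
        PowerSeries.subst (MvPowerSeries.X (0 : Fin 2) : MvPowerSeries (Fin 2) L) f +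
          PowerSeries.subst (MvPowerSeries.X (1 : Fin 2) : MvPowerSeries (Fin 2) L) f

/-- M1: the concrete law exists. -/
def FglStatement : Prop := 1 ≤ n → ∃ F : FormalGroup (E p n), IsNice p n F

/-- M2: universality of a nice law. -/
def DeformStatement : Prop :=
  1 ≤ n → ∀ F : FormalGroup (E p n), IsNice p n F → IsUniversal p n F

/-- M2, consequence: every automorphism of the special fibre acts, uniquely. -/
def ActionStatement : Prop :=
  1 ≤ n → ∀ F : FormalGroup (E p n), IsNice p n F →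
    ∀ g, IsAut p n F g → ∃! φ, ActsBy p n F g φ

/-- M4: the easy direction: height ideals are prime and invariant. -/
def ConverseStatement : Prop :=
  1 ≤ n → ∀ F : FormalGroup (E p n), IsNice p n F → ∀ h ≤ n,
    (heightIdeal p n h).IsPrime ∧ IsInvariant p n F (heightIdeal p n h)

/-- M4: a point of characteristic p on V(J) off the divisor u_(i+1) = 0. -/
def PointStatement : Prop :=
  ∀ (J : Ideal (E p n)), J.IsRadical → (p : E p n) ∈ J → ∀ i : Fin (n - 1), u p n i ∉ J →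
    ∃ x : E p n →+* C p, (∀ e, 0 ≤ ord (x e)) ∧ (∀ j, 0 < ord (x (u p n j))) ∧
      (∀ e ∈ J, x e = 0) ∧ x (u p n i) ≠ 0

/-- M4: a point of characteristic zero on V(J). -/
def PointZeroStatement : Prop :=
  ∀ (J : Ideal (E p n)), J.IsRadical → (p : E p n) ∉ J →
    ∃ x : E p n →+* ℂ_[p], (∀ e, ‖x e‖ ≤ 1) ∧ (∀ j, ‖x (u p n j)‖ < 1) ∧ ∀ e ∈ J, x e = 0

/-- M10: orbits of characteristic zero points are dense. -/
def CharZeroCore : Prop :=
  1 ≤ n → ∀ F : FormalGroup (E p n), IsNice p n F → IsUniversal p n F →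
    ∀ x : E p n →+* ℂ_[p], (∀ e, ‖x e‖ ≤ 1) → (∀ j, ‖x (u p n j)‖ < 1) →
      ∀ f : E p n, (∀ g φ, ActsBy p n F g φ → x (φ f) = 0) → f = 0

/-- M6-M9: orbits of points of height h are dense in their stratum. -/
def CharPCore : Prop :=
  1 ≤ n → ∀ F : FormalGroup (E p n), IsNice p n F → IsUniversal p n F →
    ∀ i : Fin (n - 1),
    ∀ x : E p n →+* C p, (∀ e, 0 ≤ ord (x e)) → (∀ j, 0 < ord (x (u p n j))) →
      (∀ e ∈ heightIdeal p n ((i : ℕ) + 1), x e = 0) → x (u p n i) ≠ 0 →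
      ∀ f : E p n, (∀ g φ, ActsBy p n F g φ → x (φ f) = 0) →
        f ∈ heightIdeal p n ((i : ℕ) + 1)

/-- C is algebraically closed (M3). -/
def ClosedStatement : Prop := IsAlgClosed (C p)

/-- L_n(V) = sum over k in Z of p^(-k) sharp(V)^(p^(n k)), inside an untilt: M5 proves that
for fewer than n independent zero-sum-free elements these functions are independent.
Stated for an abstract additive valuation and sharp map. -/
structure Untilt (L : Type) [Field L] where
  v : AddValuation L (WithTop ℚ)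
  sharp : C p →* L
  sharp_zero : sharp 0 = 0
  v_sharp : ∀ a, v (sharp a) = ord a
  sharp_add : ∀ a b : C p, 0 ≤ ord a → 0 ≤ ord b →
    1 ≤ v (sharp (a + b) - sharp a - sharp b)
  p_eq : (p : L) = sharp (tpow p 1)
  approx : ∀ y : L, y ≠ 0 → ∃ a : C p, ord a = v y ∧ v y < v (y - sharp a)
  complete : ∀ s : ℕ → L, (∀ B : ℚ, ∃ N, ∀ i ≥ N, (B : WithTop ℚ) < v (s (i + 1) - s i)) →
    ∃ y, ∀ B : ℚ, ∃ N, ∀ i ≥ N, (B : WithTop ℚ) < v (y - s i)

/-- M5: an untilt exists. -/
def UntiltStatement : Prop := ∃ (L : Type) (_ : Field L), Nonempty (Untilt p L)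

variable {p}

/-- `y` is L_n(V) in the untilt. -/
def Untilt.IsLn {L : Type} [Field L] (U : Untilt p L) (m : ℕ) (V : C p) (y : L) : Prop :=
  ∀ B : ℚ, ∃ N : ℕ, ∀ N' ≥ N, (B : WithTop ℚ) <
    U.v (y - ∑ k ∈ Finset.Icc (-(N' : ℤ)) N',
      (p : L) ^ (-k) * U.sharp (powZ p V ((m : ℤ) * k)))

variable (p)

/-- A law over the residue field of `C p` is the Honda law of height `m`. -/
def IsHondaKb (m : ℕ) (G : FormalGroup (Kb p)) : Prop :=
  mulSeries G p = PowerSeries.X ^ (p ^ m) ∧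
  ∃ L : FormalGroup ℤ_[p],
    L.map ((algebraMap (ZMod p) (Kb p)).comp PadicInt.toZMod) = G ∧
    ∃ f : PowerSeries ℚ_[p],
      (∀ i : ℕ, PowerSeries.coeff i f =
        ∑ j ∈ Finset.range (i + 1),
          if p ^ (j * m) = i then ((p : ℚ_[p]) ^ j)⁻¹ else 0) ∧
      PowerSeries.subst ((L.map PadicInt.Coe.ringHom : FormalGroup ℚ_[p]) :
          MvPowerSeries (Fin 2) ℚ_[p]) f =
        PowerSeries.subst (MvPowerSeries.X (0 : Fin 2) : MvPowerSeries (Fin 2) ℚ_[p]) f +
          PowerSeries.subst (MvPowerSeries.X (1 : Fin 2) : MvPowerSeries (Fin 2) ℚ_[p]) f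

/-- Independence of points of the Honda law: combinations with a coefficient prime to p have
bounded valuation. -/
def Indep (G : FormalGroup (Kb p)) {r : ℕ} (v : Fin r → C p) : Prop :=
  ∃ B : ℚ, ∀ c : Fin r → ℕ, (∃ s, ¬ p ∣ c s) →
    ord (fsum p HahnSeries.C G (fun s => eval₁C p HahnSeries.C (mulSeries G (c s)) (v s))) ≤ B

/-- M5: the rank lemma. -/
def RankStatement : Prop :=
  ∀ (L : Type) (_ : Field L) (U : Untilt p L) (n r : ℕ), r < n →
    ∀ G : FormalGroup (Kb p), IsHondaKb p n G →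
    ∀ v : Fin r → C p, (∀ s, 0 < ord (v s)) → Indep p G v →
    ∀ y : Fin r → ℤ → L, (∀ s M, U.IsLn n (powZ p (v s) M) (y s M)) →
    ∀ c : Fin r → L, (∀ M, ∑ s, c s * y s M = 0) → c = 0

/-- M5: basic properties of L_m in an untilt. -/
def LnStatement : Prop :=
  ∀ (L : Type) (_ : Field L) (U : Untilt p L) (m : ℕ), 1 ≤ m →
    (∀ V : C p, 0 < ord V → ∃! y, U.IsLn m V y) ∧
    (∀ G : FormalGroup (Kb p), IsHondaKb p m G → ∀ V V' : C p, 0 < ord V → 0 < ord V' →
      ∀ y y', U.IsLn m V y → U.IsLn m V' y' →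
        U.IsLn m (fadd p HahnSeries.C G V V') (y + y')) ∧
    (∀ ω : Kb p, ω ^ (p ^ m) = ω → ∀ V y, U.IsLn m V y →
      U.IsLn m (HahnSeries.C ω * V) (U.sharp (HahnSeries.C ω) * y)) ∧
    (∀ V y, U.IsLn m V y → U.IsLn m (V ^ (p ^ m)) ((p : L) * y)) ∧
    (∀ B : ℚ, ∃ q : ℚ, B < q ∧ ∀ V y, ord V = q → U.IsLn m V y → y ≠ 0)

/-- `w` is iota(V): the limit of [p^l](V^(p^(-n l))) for a law over the valuation ring. -/
def IsIota (n : ℕ) (G : FormalGroup (C p)) (V w : C p) : Prop :=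
  ∀ B : ℚ, ∃ N : ℕ, ∀ l ≥ N, (B : WithTop ℚ) <
    ord (w - (eval₁C p (RingHom.id (C p)) (mulSeries G p))^[l] (powZ p V (-((n : ℤ) * l))))

/-- M6: linearisation of homomorphisms to the Honda law of height h. -/
def LinearStatement : Prop :=
  ∀ (L : Type) (_ : Field L) (U : Untilt p L) (n h : ℕ), 1 ≤ h → 1 ≤ n →
    ∀ (Γ : FormalGroup (Kb p)) (H : FormalGroup (Kb p)),
      IsHondaKb p n Γ → IsHondaKb p h H →
    ∀ (G : FormalGroup (C p)) (ε : ℚ), 0 < ε →
      (∀ d, 0 ≤ ord (MvPowerSeries.coeff d G.toPowerSeries)) →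
      (∀ d, (ε : WithTop ℚ) ≤
        ord (MvPowerSeries.coeff d (G.toPowerSeries - (Γ.map HahnSeries.C).toPowerSeries))) →
      (∀ i, (ε : WithTop ℚ) ≤
        ord (PowerSeries.coeff i (mulSeries G p - PowerSeries.X ^ (p ^ n)))) →
    ∀ ψ : PowerSeries (C p), (∀ i, 0 ≤ ord (PowerSeries.coeff i ψ)) →
      IsHom G (H.map HahnSeries.C) ψ →
      ∃ c : Fin n → L, ∀ V w : C p, 0 < ord V → IsIota p n G V w →
        ∀ (y : L) (z : Fin n → L),
          U.IsLn h (eval₁C p (RingHom.id (C p)) ψ w) y →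
          (∀ j : Fin n, U.IsLn n (powZ p V ((j : ℕ) : ℤ)) (z j)) →
          y = ∑ j, c j * z j

/-- M9: rigidity. A nonzero series over the residue field vanishing on a set of points closed
under addition for the Honda law of height h and under q-th powers gives a linear relation
by endomorphisms. -/
def RigidStatement : Prop :=
  ∀ (h : ℕ), 1 ≤ h → ∀ H : FormalGroup (Kb p), IsHondaKb p h H →
  ∀ (r : ℕ), 0 < r → ∀ (S : Set (Fin r → C p)),
    (∀ x ∈ S, ∀ i, 0 < ord (x i)) →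
    (∀ x ∈ S, ∀ y ∈ S, (fun i => fadd p HahnSeries.C H (x i) (y i)) ∈ S) →
    (∀ x ∈ S, (fun i => x i ^ (p ^ h)) ∈ S) →
    ∀ G : MvPowerSeries (Fin r) (Kb p), G ≠ 0 →
      (∀ x ∈ S, evalC p HahnSeries.C G x = 0) →
      ∃ φ : Fin r → PowerSeries (Kb p), (∀ i, IsHom H H (φ i)) ∧ φ ≠ 0 ∧
        ∀ x ∈ S, fsum p HahnSeries.C H (fun i => eval₁C p HahnSeries.C (φ i) (x i)) = 0

/-- M7: a law of height h over C is isomorphic to the Honda law by an integral series. -/
def ClassifyStatement : Prop :=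
  ∀ (h : ℕ), 1 ≤ h → ∀ H : FormalGroup (Kb p), IsHondaKb p h H →
  ∀ G : FormalGroup (C p), G.IsComm → (∀ d, 0 ≤ ord (MvPowerSeries.coeff d G.toPowerSeries)) →
    (∀ i < p ^ h, PowerSeries.coeff i (mulSeries G p) = 0) →
    PowerSeries.coeff (p ^ h) (mulSeries G p) ≠ 0 →
    ∃ θ : PowerSeries (C p), IsIso G (H.map HahnSeries.C) θ ∧
      ∀ i, 0 ≤ ord (PowerSeries.coeff i θ)

end

end Vale.Agent.P217
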