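import Mathlib

/-!
Definitions for P217 (invariant ideals of the Lubin-Tate ring).
`E p n` is W(F_{p^n})[[u_1, ..., u_{n-1}]]; `u p n i` stands for u_{i+1}.
-/

namespace Vale.Agent.P217

noncomputable section

open MvPowerSeries

variable {R S : Type*} [CommRing R] [CommRing S]

/-- The series of multiplication by `m` on a formal group law. -/
def mulSeries (G : FormalGroup R) : ℕ → PowerSeries R
  | 0 => 0
  | m + 1 => G.toPowerSeries.subst ![PowerSeries.X, mulSeries G m]

/-- A homomorphism of formal group laws, given by a series without constant term. -/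
def IsHom (G G' : FormalGroup R) (ψ : PowerSeries R) : Prop :=
  PowerSeries.constantCoeff ψ = 0 ∧
    PowerSeries.subst (G : MvPowerSeries (Fin 2) R) ψ =
      (G' : MvPowerSeries (Fin 2) R).subst
        ![PowerSeries.subst (MvPowerSeries.X (0 : Fin 2) : MvPowerSeries (Fin 2) R) ψ,
          PowerSeries.subst (MvPowerSeries.X (1 : Fin 2) : MvPowerSeries (Fin 2) R) ψ]

/-- An isomorphism of formal group laws. -/
def IsIso (G G' : FormalGroup R) (ψ : PowerSeries R) : Prop :=
  IsHom G G' ψ ∧ IsUnit (PowerSeries.coeff 1 ψ)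

variable (p n : ℕ) [Fact p.Prime]

/-- The residue field with p^n elements. -/
abbrev K : Type := GaloisField p n

/-- The Witt vectors of the residue field. -/
abbrev W : Type := WittVector p (K p n)

/-- The Lubin-Tate ring. -/
abbrev E : Type := MvPowerSeries (Fin (n - 1)) (W p n)

/-- The parameter u_{i+1}. -/
def u (i : Fin (n - 1)) : E p n := MvPowerSeries.X i

/-- The reduction E -> k at the closed point. -/
def res : E p n →+* K p n :=
  (WittVector.constantCoeff).comp MvPowerSeries.constantCoeff

/-- The height ideals I_0 = 0 and I_h = (p, u_1, ..., u_{h-1}). -/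
def heightIdeal : ℕ → Ideal (E p n)
  | 0 => ⊥
  | h + 1 => Ideal.span (insert (p : E p n) {x | ∃ i : Fin (n - 1), (i : ℕ) < h ∧ x = u p n i})

/-- The special fibre is the p-typical Honda law with [p](x) = x^(p^n): it is defined over
F_p and is the reduction of the law over Z_p with logarithm sum_i x^(p^(i n))/p^i. -/
def IsHonda (G : FormalGroup (K p n)) : Prop :=
  mulSeries G p = PowerSeries.X ^ (p ^ n) ∧
  ∃ L : FormalGroup ℤ_[p],
    L.map ((algebraMap (ZMod p) (K p n)).comp PadicInt.toZMod) = G ∧
    ∃ f : PowerSeries ℚ_[p],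
      (∀ m : ℕ, PowerSeries.coeff m f =
        ∑ i ∈ Finset.range (m + 1),
          if p ^ (i * n) = m then ((p : ℚ_[p]) ^ i)⁻¹ else 0) ∧
      PowerSeries.subst ((L.map PadicInt.Coe.ringHom : FormalGroup ℚ_[p]) :
          MvPowerSeries (Fin 2) ℚ_[p]) f =
        PowerSeries.subst (MvPowerSeries.X (0 : Fin 2) : MvPowerSeries (Fin 2) ℚ_[p]) f +
          PowerSeries.subst (MvPowerSeries.X (1 : Fin 2) : MvPowerSeries (Fin 2) ℚ_[p]) f

/-- `F` is a universal deformation of its special fibre: every deformation `G` over a complete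
W-algebra `A` (a commutative law), with any marking `m` of the special fibre, comes from exactly one local
W-algebra map, by an isomorphism that reduces to the marking. -/
def IsUniversal (F : FormalGroup (E p n)) : Prop :=
  ∀ (A : Type) [CommRing A] [Algebra (W p n) A] (a : Ideal A) [IsAdicComplete a A]
    (r : K p n →+* A ⧸ a),
    r.comp WittVector.constantCoeff = (Ideal.Quotient.mk a).comp (algebraMap (W p n) A) →
    ∀ (G : FormalGroup A), G.IsComm → ∀ (m : PowerSeries (A ⧸ a)),
      IsIso ((F.map (res p n)).map r) (G.map (Ideal.Quotient.mk a)) m →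
      ∃! φ : E p n →ₐ[W p n] A, (∀ i, φ (u p n i) ∈ a) ∧
        ∃ ψ : PowerSeries A, IsIso (F.map (φ : E p n →+* A)) G ψ ∧
          PowerSeries.map (Ideal.Quotient.mk a) ψ = m

/-- An automorphism of the special fibre of `F`. -/
def IsAut (F : FormalGroup (E p n)) (g : PowerSeries (K p n)) : Prop :=
  IsIso (F.map (res p n)) (F.map (res p n)) g

/-- `φ` is the action of the automorphism `g` of the special fibre on the Lubin-Tate ring:
it is the W-linear endomorphism for which some isomorphism from `F` to its base change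
along `φ` reduces to `g`. -/
def ActsBy (F : FormalGroup (E p n)) (g : PowerSeries (K p n))
    (φ : E p n →ₐ[W p n] E p n) : Prop :=
  IsAut p n F g ∧ (∀ i, res p n (φ (u p n i)) = 0) ∧
    ∃ ψ : PowerSeries (E p n),
      IsIso F (F.map (φ : E p n →+* E p n)) ψ ∧ PowerSeries.map (res p n) ψ = g

/-- The Galois action: the Witt Frobenius on coefficients, fixing every u_i. -/
def galois : E p n →+* E p n :=
  MvPowerSeries.map (WittVector.frobenius : W p n →+* W p n)

/-- Invariance under the extended stabilizer group. -/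
def IsInvariant (F : FormalGroup (E p n)) (J : Ideal (E p n)) : Prop :=
  (∀ g φ, ActsBy p n F g φ → ∀ x ∈ J, φ x ∈ J) ∧ ∀ x ∈ J, galois p n x ∈ J

/-- The coordinates u_i are standard: modulo I_h multiplication by p starts with
u_h X^(p^h), and modulo I_n with X^(p^n). -/
def IsStandard (F : FormalGroup (E p n)) : Prop :=
  (∀ i : Fin (n - 1),
    (∀ m < p ^ ((i : ℕ) + 1),
      PowerSeries.coeff m (mulSeries F p) ∈ heightIdeal p n ((i : ℕ) + 1)) ∧
    PowerSeries.coeff (p ^ ((i : ℕ) + 1)) (mulSeries F p) - u p n i ∈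
      heightIdeal p n ((i : ℕ) + 1)) ∧
  PowerSeries.coeff (p ^ n) (mulSeries F p) - 1 ∈ heightIdeal p n n

/-- The invariant-ideal classification (Chai's question). -/
def ChaiClassification : Prop :=
  ∃ F : FormalGroup (E p n),
    IsHonda p n (F.map (res p n)) ∧ IsUniversal p n F ∧ IsStandard p n F ∧
    F.IsComm ∧ F.map (galois p n) = F ∧
    (∀ g, IsAut p n F g → ∃! φ, ActsBy p n F g φ) ∧
    (∀ h ≤ n, (heightIdeal p n h).IsPrime) ∧
    (∀ P : Ideal (E p n), P.IsPrime →
      (IsInvariant p n F P ↔ ∃ h ≤ n, P = heightIdeal p n h)) ∧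
    (∀ J : Ideal (E p n), J.IsRadical →
      (IsInvariant p n F J ↔ J = ⊤ ∨ ∃ h ≤ n, J = heightIdeal p n h)) ∧
    (∀ J : Ideal (E p n), J.IsRadical → (∀ g φ, ActsBy p n F g φ → ∀ x ∈ J, φ x ∈ J) →
      J = ⊤ ∨ ∃ h ≤ n, J = heightIdeal p n h)

end

end Vale.Agent.P217
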