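import Vale.Agent.P217.Linear.Coeff
import Vale.Agent.P217.Sharp.Ln

/-!
P217, module M6: linearisation of homomorphisms to the Honda law of height `h`.
-/

namespace Vale.Agent.P217.Linear

noncomputable section

variable {p : ℕ} [hp : Fact p.Prime] {L : Type} [Field L] {U : Untilt p L}

open Sharp in
/-- Asymmetrical partial sums converge. -/
theorem exists_asym {m : ℕ} {V : C p} {y : L} (h : U.IsLn m V y) (B : ℚ) :
    ∃ N₀ : ℕ, ∀ N ≥ N₀, ∀ M ≥ 2 * N, (B : WithTop ℚ) <
      U.v (y - (p : L) ^ N * fser p m M (U.sharp (powZ p V (-((m : ℤ) * N))))) := by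
  obtain ⟨N₁, hN₁⟩ := h B
  obtain ⟨N₂, hN₂⟩ := eventually_v_term_pos U h B
  refine ⟨max N₁ N₂, fun N hN M hM => ?_⟩
  induction M, hM using Nat.le_induction with
  | base =>
    rw [← part_eq_fser]
    exact hN₁ N (le_trans (le_max_left _ _) hN)
  | succ M hMN ih =>
    have hterm : fser p m (M + 1) (U.sharp (powZ p V (-((m : ℤ) * N)))) =
        fser p m M (U.sharp (powZ p V (-((m : ℤ) * N)))) +
          (p : L) ^ (-((M : ℤ) + 1)) * U.sharp (powZ p V ((m : ℤ) * ((M : ℤ) + 1 - N))) := by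
      rw [fser, Finset.sum_range_succ, fser]
      congr 1
      rw [← map_pow, ← powZ_natCast, powZ_powZ]
      push_cast
      ring_nf
    have ht : (p : L) ^ N * ((p : L) ^ (-((M : ℤ) + 1)) *
        U.sharp (powZ p V ((m : ℤ) * ((M : ℤ) + 1 - N)))) =
        term U m V (((M - N : ℕ) : ℤ) + 1) := by
      rw [term, ← mul_assoc, ← zpow_natCast (p : L) N, ← zpow_add₀ (p_ne_zero U),
        Nat.cast_sub (by omega)]
      congr 2
      · ring
      · congr 1; ring
    rw [hterm, mul_add, ← sub_sub, ht]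
    exact (lt_min ih (hN₂ _ (by omega))).trans_le (AddValuation.map_sub _ _ _)

variable (p) in
/-- The truncated logarithm of a polynomial. -/
def fserP (m M : ℕ) (P : Polynomial L) : Polynomial L :=
  ∑ i ∈ Finset.range (M + 1), Polynomial.C (((p : L) ^ i)⁻¹) * P ^ p ^ (m * i)

lemma eval_fserP (m M : ℕ) (P : Polynomial L) (z : L) :
    (fserP p m M P).eval z = Sharp.fser p m M (P.eval z) := by
  rw [fserP, Polynomial.eval_finsetSum, Sharp.fser]
  refine Finset.sum_congr rfl fun i _ => ?_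
  rw [Polynomial.eval_mul, Polynomial.eval_C, Polynomial.eval_pow, zpow_neg, zpow_natCast]

lemma vb_poly_pow {P : Polynomial L} (hP : ∀ d, 0 ≤ U.v (P.coeff d)) (k d : ℕ) :
    0 ≤ U.v ((P ^ k).coeff d) := by
  have h : VB U ((P : PowerSeries L) : MvPowerSeries Unit L) 0 := fun e => by
    rw [show e = Finsupp.single () (e ()) from Finsupp.unique_single e]
    show 0 ≤ U.v (PowerSeries.coeff _ (P : PowerSeries L))
    rw [Polynomial.coeff_coe]
    exact hP _
  have := h.pow k (Finsupp.single () d)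
  change 0 ≤ U.v (PowerSeries.coeff d ((P : PowerSeries L) ^ k)) at this
  rwa [← Polynomial.coe_pow, Polynomial.coeff_coe] at this

lemma coeff_fserP_ge {P : Polynomial L} (hP : ∀ d, 0 ≤ U.v (P.coeff d)) (m M d : ℕ) :
    ((-(M : ℚ) : ℚ) : WithTop ℚ) ≤ U.v ((fserP p m M P).coeff d) := by
  rw [fserP, Polynomial.finsetSum_coeff]
  refine AddValuation.map_le_sum _ fun i hi => ?_
  rw [Polynomial.coeff_C_mul, AddValuation.map_mul, ← zpow_natCast, ← zpow_neg, Sharp.v_p_zpow]
  refine le_trans ?_ (le_add_of_nonneg_right (vb_poly_pow hP _ d))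
  rw [WithTop.coe_le_coe]
  push_cast
  rw [neg_le_neg_iff]
  exact_mod_cast Nat.lt_succ_iff.mp (Finset.mem_range.mp hi)

lemma coeff_fserP_eq {m : ℕ} (hm : 1 ≤ m) {P : Polynomial L} {A : PowerSeries L} {D : ℕ}
    (hA : PowerSeries.constantCoeff A = 0) (h : ∀ e < D, P.coeff e = PowerSeries.coeff e A)
    {M d : ℕ} (hdD : d < D) (hd : d < p ^ ((M + 1) * m)) :
    (fserP p m M P).coeff d = PowerSeries.coeff d (PowerSeries.subst A (flog p m L)) := by
  rw [fserP, Polynomial.finsetSum_coeff, PowerSeries.coeff]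
  rw [coeff_log (σ := Unit) hm (A := (A : MvPowerSeries Unit L)) hA (M := M)
    (by rwa [Finsupp.degree_single])]
  refine Finset.sum_congr rfl fun i _ => ?_
  rw [Polynomial.coeff_C_mul, mul_comm m i]
  congr 1
  rw [← Polynomial.coeff_coe, Polynomial.coe_pow, PowerSeries.coeff]
  refine Sharp.coeff_pow_congr (D := D) (fun e he => ?_) _ _ (by rwa [Finsupp.degree_single])
  rw [show e = Finsupp.single () (e ()) from Finsupp.unique_single e, Finsupp.degree_single] at *
  exact (Polynomial.coeff_coe P _).trans (h _ he)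

/-- Congruent points have congruent truncated logarithms. -/
lemma exists_v_fser_sub {δ : ℚ} (hδ : 0 < δ) :
    ∃ K : ℚ, 0 ≤ K ∧ ∀ (m : ℕ), 1 ≤ m → ∀ (M : ℕ) (x y : L), 0 ≤ U.v x → 0 ≤ U.v y →
      (δ : WithTop ℚ) ≤ U.v (x - y) →
      ((-K : ℚ) : WithTop ℚ) ≤ U.v (Sharp.fser p m M x - Sharp.fser p m M y) := by
  obtain ⟨K, hK0, hK⟩ := exists_vb_pow_sub (U := U) hδ
  refine ⟨K, hK0, fun m hm M x y hx hy h => ?_⟩
  rw [Sharp.fser, Sharp.fser, ← Finset.sum_sub_distrib]
  refine AddValuation.map_le_sum _ fun i _ => ?_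
  have hj := hK Unit (MvPowerSeries.C x) (MvPowerSeries.C y) (vb_C hx) (vb_C hy)
    (by rw [← map_sub]; exact vb_C h) (m * i) 0
  rw [← map_pow, ← map_pow, ← map_sub, MvPowerSeries.coeff_zero_C] at hj
  rw [← mul_sub, AddValuation.map_mul, Sharp.v_p_zpow]
  refine le_trans ?_ (add_le_add le_rfl hj)
  rw [← WithTop.coe_add, WithTop.coe_le_coe]
  have : (i : ℚ) ≤ ((m * i : ℕ) : ℚ) := by exact_mod_cast Nat.le_mul_of_pos_left i (by omega)
  push_cast at this ⊢
  linarith

theorem le_v_eval {P : Polynomial L} {z : L} {B a : ℚ} {D : ℕ} {C₁ : ℚ} (ha : 0 ≤ a)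
    (hz : (a : WithTop ℚ) ≤ U.v z) (hlow : ∀ d < D, (B : WithTop ℚ) ≤ U.v (P.coeff d))
    (hall : ∀ d, (C₁ : WithTop ℚ) ≤ U.v (P.coeff d)) (hD : B ≤ C₁ + (D : ℚ) * a) :
    (B : WithTop ℚ) ≤ U.v (P.eval z) := by
  rw [Polynomial.eval_eq_sum_range]
  refine AddValuation.map_le_sum _ fun d _ => ?_
  rw [AddValuation.map_mul, AddValuation.map_pow]
  have hzd : (((d : ℚ) * a : ℚ) : WithTop ℚ) ≤ d • U.v z := by
    rw [← nsmul_eq_mul, WithTop.coe_nsmul]
    exact nsmul_le_nsmul_right hz d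
  by_cases hd : d < D
  · refine le_trans ?_ (add_le_add (hlow d hd) hzd)
    rw [← WithTop.coe_add, WithTop.coe_le_coe]
    nlinarith
  · refine le_trans ?_ (add_le_add (hall d) hzd)
    rw [← WithTop.coe_add, WithTop.coe_le_coe]
    have : (D : ℚ) * a ≤ (d : ℚ) * a :=
      mul_le_mul_of_nonneg_right (by exact_mod_cast not_lt.mp hd) ha
    linarith

lemma powZ_neg_pow (x : C p) (j : ℤ) : powZ p (-x) j = -powZ p x j := by
  have h := powZ_add x (-x) j
  rw [add_neg_cancel, powZ_zero_left] at h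
  exact eq_neg_of_add_eq_zero_right h.symm

/-- M6 at one homomorphism. -/
theorem linear {n h : ℕ} (hh : 1 ≤ h) (hn : 1 ≤ n) {Γ H : FormalGroup (Kb p)}
    (hΓ : IsHondaKb p n Γ) (hH : IsHondaKb p h H) {G : FormalGroup (C p)} {ε : ℚ} (hε : 0 < ε)
    (hint : ∀ d, 0 ≤ ord (MvPowerSeries.coeff d G.toPowerSeries))
    (hclose : ∀ d, (ε : WithTop ℚ) ≤
      ord (MvPowerSeries.coeff d (G.toPowerSeries - (Γ.map HahnSeries.C).toPowerSeries)))
    (hclosep : ∀ i, (ε : WithTop ℚ) ≤
      ord (PowerSeries.coeff i (mulSeries G p - PowerSeries.X ^ (p ^ n))))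
    {ψ : PowerSeries (C p)} (hψi : ∀ i, 0 ≤ ord (PowerSeries.coeff i ψ))
    (hψ : IsHom G (H.map HahnSeries.C) ψ) :
    ∃ c : Fin n → L, ∀ V w : C p, 0 < ord V → IsIota p n G V w →
      ∀ (y : L) (z : Fin n → L),
        U.IsLn h (eval₁C p (RingHom.id (C p)) ψ w) y →
        (∀ j : Fin n, U.IsLn n (powZ p V ((j : ℕ) : ℤ)) (z j)) →
        y = ∑ j, c j * z j := by
  classical
  set δ := min ε 1 with hδdef
  have hδ : 0 < δ := lt_min hε one_pos
  have hδ1 : δ ≤ 1 := min_le_right _ _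
  have hδε : (δ : WithTop ℚ) ≤ (ε : WithTop ℚ) := WithTop.coe_le_coe.2 (min_le_left _ _)
  obtain ⟨c, BR, hR⟩ := exists_decomp U hh hn hΓ hH hδ hδ1 hint
    (fun d => hδε.trans (hclose d)) (fun i => hδε.trans (hclosep i)) hψi hψ
  obtain ⟨K, hK0, hK⟩ := exists_v_fser_sub (U := U) hδ
  refine ⟨c, fun V w hV hw y z hy hz => ?_⟩
  set P := mulSeries G p with hP
  set idC := RingHom.id (C p) with hidC
  have hPi : IntCoeff idC (P : MvPowerSeries Unit (C p)) := intCoeff_mulSeries (show IntCoeff idC G.toPowerSeries from hint) p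
  have hP0 : PowerSeries.constantCoeff P = 0 := constantCoeff_mulSeries G p
  have hψI : IntCoeff idC (ψ : MvPowerSeries Unit (C p)) := intCoeff_iff₁.mpr hψi
  set F := fun x => eval₁C p idC P x with hF
  set x : ℕ → C p := fun l => powZ p V (-((n : ℤ) * l)) with hx
  have hxpos : ∀ l, 0 < ord (x l) := fun l => ord_powZ_pos hV _
  have hFpos : ∀ u, 0 < ord u → 0 < ord (F u) := fun u hu => ord_eval₁C_pos hPi hP0 hu
  have hitpos : ∀ l u, 0 < ord u → 0 < ord (F^[l] u) := by
    intro l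
    induction l with
    | zero => intro u hu; exact hu
    | succ l ih => intro u hu; rw [Function.iterate_succ_apply']; exact hFpos _ (ih u hu)
  set q := p ^ h with hq
  have hcomm : ∀ u, 0 < ord u → eval₁C p idC ψ (F u) = eval₁C p idC ψ u ^ q := by
    intro u hu
    have e : PowerSeries.subst P ψ = ψ ^ q := by
      rw [hP, hψ.subst_mulSeries, ← map_mulSeries, hH.1, map_pow, PowerSeries.map_X,
        PowerSeries.subst_pow hψ.hasSubst, PowerSeries.subst_X hψ.hasSubst]
    rw [hF]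
    show eval₁C p idC ψ (eval₁C p idC P u) = _
    rw [← eval₁C_subst hψI hPi hP0 hu, e, eval₁C, eval₁C]
    exact evalC_pow hψI (fun _ => hu) q
  set Uv : ℕ → C p := fun l => eval₁C p idC ψ (x l) with hUv
  have hψit : ∀ l, eval₁C p idC ψ (F^[l] (x l)) = Uv l ^ q ^ l := by
    intro l
    suffices ∀ k u, 0 < ord u → eval₁C p idC ψ (F^[k] u) = eval₁C p idC ψ u ^ q ^ k from
      this l _ (hxpos l)
    intro k
    induction k with
    | zero => intro u _; simp
    | succ k ih =>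
      intro u hu
      rw [Function.iterate_succ_apply', hcomm _ (hitpos k u hu), ih u hu, ← pow_mul, ← pow_succ]
  -- one step
  have hstep : ∀ l, (δ : WithTop ℚ) ≤ ord (Uv (l + 1) ^ q - Uv l) := by
    intro l
    have hxs : x l = x (l + 1) ^ p ^ n := by
      simp only [hx, ← powZ_natCast, powZ_powZ]
      congr 1
      push_cast
      ring
    have hu := hxpos (l + 1)
    rw [← hcomm _ hu]
    refine le_ord_eval₁C_sub hψI (hFpos _ hu) (hxpos l) ?_
    rw [hxs, ← eval₁C_X_pow (c := idC) (p ^ n), hF]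
    have hXi : IntCoeff idC ((PowerSeries.X ^ p ^ n : PowerSeries (C p)) :
        MvPowerSeries Unit (C p)) := intCoeff_iff₁.mpr fun m => by
      rw [PowerSeries.coeff_X_pow]
      split_ifs <;> simp [ord_one, ord_zero, hidC]
    show _ ≤ ord (eval₁C p idC P (x (l + 1)) - _)
    rw [← eval₁C_sub hPi hXi hu]
    refine HasSumC.le_ord (hasSumC_eval₁ (hPi.sub hXi) hu) fun i => ?_
    rw [ord_mul]
    refine (hδε.trans (hclosep i)).trans (le_add_of_nonneg_right ?_)
    rw [ord_pow]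
    exact nsmul_nonneg hu.le i
  have hUint : ∀ l, 0 ≤ ord (Uv l) := fun l =>
    ord_evalC_nonneg hψI fun _ => hxpos l
  have htel : ∀ N l : ℕ, N ≤ l → (δ : WithTop ℚ) ≤ ord (Uv l ^ q ^ (l - N) - Uv N) := by
    intro N l hl
    induction l, hl using Nat.le_induction with
    | base => simp [ord_zero]
    | succ l hl ih =>
      rw [show Uv (l + 1) ^ q ^ (l + 1 - N) - Uv N =
        ((Uv (l + 1) ^ q) ^ q ^ (l - N) - Uv l ^ q ^ (l - N)) + (Uv l ^ q ^ (l - N) - Uv N) by
          rw [show l + 1 - N = l - N + 1 by omega, pow_succ' q, pow_mul]; ring]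
      refine le_ord_add ?_ ih
      rw [← pow_mul p, ← sub_pow_char_pow]
      rw [ord_pow]
      refine (hstep l).trans (le_self_nsmul ?_ (pow_ne_zero _ hp.out.ne_zero))
      exact le_trans (by exact_mod_cast hδ.le) (hstep l)
  have hwpos : 0 < ord w := by
    obtain ⟨N, hN⟩ := hw 0
    have h1 := hN N le_rfl
    have h2 := hitpos N _ (hxpos N)
    change (0 : WithTop ℚ) < ord (w - F^[N] (x N)) at h1
    rw [← sub_add_cancel w (F^[N] (x N))]
    exact lt_ord_add h1 h2
  set W := eval₁C p idC ψ w with hW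
  have hW0 : 0 ≤ ord W := ord_evalC_nonneg hψI fun _ => hwpos
  -- the root of W is close to the value at the root of V
  have hroot : ∀ N : ℕ, (δ : WithTop ℚ) ≤ ord (powZ p W (-((h : ℤ) * N)) - Uv N) := by
    intro N
    obtain ⟨l₀, hl₀⟩ := hw (δ * ((p : ℚ) ^ (h * N)))
    set l := max l₀ N with hl
    have h1 : ((δ * (p : ℚ) ^ (h * N) : ℚ) : WithTop ℚ) ≤ ord (W - Uv l ^ q ^ l) := by
      rw [← hψit l]
      exact le_ord_eval₁C_sub hψI hwpos (hitpos l _ (hxpos l))
        (hl₀ l (le_max_left _ _)).le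
    have h2 := Sharp.le_ord_powZ h1 (-((h : ℤ) * N))
    have e : Uv l ^ q ^ l = powZ p (Uv l ^ q ^ (l - N)) ((h : ℤ) * N) := by
      rw [show ((h : ℤ) * N) = ((h * N : ℕ) : ℤ) by push_cast; ring, powZ_natCast, ← pow_mul, hq,
        ← pow_mul, ← pow_mul, ← pow_add, ← Nat.mul_add, show l - N + N = l by omega]
    have hz0 : (p : ℚ) ^ (-((h : ℤ) * N)) * (δ * (p : ℚ) ^ (h * N)) = δ := by
      have : (p : ℚ) ^ (h * N) ≠ 0 := pow_ne_zero _ (by exact_mod_cast hp.out.ne_zero)
      rw [zpow_neg, ← Nat.cast_mul, zpow_natCast]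
      field_simp
    rw [hz0, e, sub_eq_add_neg, powZ_add, powZ_neg_pow, powZ_powZ, add_neg_cancel, powZ_zero,
      ← sub_eq_add_neg] at h2
    rw [show powZ p W (-((h : ℤ) * N)) - Uv N =
      (powZ p W (-((h : ℤ) * N)) - Uv l ^ q ^ (l - N)) + (Uv l ^ q ^ (l - N) - Uv N) by ring]
    exact le_ord_add h2 (htel N l (le_max_right _ _))
  -- compare the two sides
  refine Sharp.eq_of_forall_lt U fun B => ?_
  obtain ⟨C₀, hC₀0, hC₀⟩ : ∃ C₀ : ℚ, C₀ ≤ 0 ∧ ∀ j, (C₀ : WithTop ℚ) ≤ U.v (c j) := by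
    have : ∀ a : L, ∃ b : ℚ, b ≤ 0 ∧ (b : WithTop ℚ) ≤ U.v a := fun a => by
      rcases eq_or_ne a 0 with rfl | ha
      · exact ⟨0, le_rfl, by simp⟩
      · obtain ⟨b, hb⟩ := WithTop.ne_top_iff_exists.1 ((AddValuation.ne_top_iff U.v).2 ha)
        exact ⟨min b 0, min_le_right _ _, hb ▸ WithTop.coe_le_coe.2 (min_le_left _ _)⟩
    choose f hf0 hf using this
    refine ⟨∑ j, f (c j), Finset.sum_nonpos fun j _ => hf0 _, fun j => le_trans
      (WithTop.coe_le_coe.2 ?_) (hf (c j))⟩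
    have := Finset.single_le_sum (f := fun i => -f (c i))
      (fun i _ => neg_nonneg.2 (hf0 _)) (Finset.mem_univ j)
    rw [Finset.sum_neg_distrib] at this
    linarith
  obtain ⟨a, ha0, ha⟩ := Sharp.exists_pos_le_ord hV
  obtain ⟨N₁, hN₁⟩ := exists_asym hy B
  choose N₂ hN₂ using fun j => exists_asym (hz j) (B - C₀)
  set Bf : ℚ := min (-K) (min BR 0) with hBf
  obtain ⟨N₃, hN₃⟩ := Sharp.exists_growth (p := p) hn
    (div_pos ha0 (show (0 : ℚ) < 2 * n by have : (1 : ℚ) ≤ n := (by exact_mod_cast hn); linarith))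
    (max 1 (1 - C₀))
  obtain ⟨N₄, hN₄⟩ := exists_nat_gt (B - Bf)
  set N := max (max N₁ (Finset.univ.sup N₂)) (max N₃ N₄) with hNdef
  set M := 2 * n * N with hM
  have hMN : 2 * N ≤ M := by rw [hM]; exact Nat.mul_le_mul_right N (by omega)
  set D := p ^ (2 * n * N) with hD
  set ζ := U.sharp (x N) with hζ
  set αN : ℚ := (p : ℚ) ^ (-((n : ℤ) * N)) * a with hαN
  have hαN0 : 0 ≤ αN := mul_nonneg (zpow_nonneg (Nat.cast_nonneg p) _) ha0.le
  have hxα : (αN : WithTop ℚ) ≤ ord (x N) := Sharp.le_ord_powZ ha _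
  have hvζ : (αN : WithTop ℚ) ≤ U.v ζ := by rw [hζ, U.v_sharp]; exact hxα
  have hDα : ((M : ℚ) + (1 - C₀)) ≤ (D : ℚ) * αN ∧ (M : ℚ) + 1 ≤ (D : ℚ) * αN := by
    have h3 := hN₃ N (le_trans (le_max_left _ _) (le_max_right _ _))
    have e : (D : ℚ) * αN = a * ((p : ℚ) ^ n) ^ N := by
      rw [hD, hαN, Nat.cast_pow, zpow_neg, ← Nat.cast_mul, zpow_natCast, ← pow_mul,
        show 2 * n * N = n * N + n * N by ring, pow_add]
      field_simp
    have hn0 : (1 : ℚ) ≤ n := by exact_mod_cast hn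
    rw [e, hM]
    rw [div_mul_eq_mul_div, lt_div_iff₀ (by linarith)] at h3
    push_cast
    constructor <;> nlinarith [le_max_left (1 : ℚ) (1 - C₀), le_max_right (1 : ℚ) (1 - C₀),
      Nat.cast_nonneg (α := ℚ) N]
  -- truncate the homomorphism
  set ψD : Polynomial L := PowerSeries.trunc D (tilde U ψ) with hψD
  have hψDc : ∀ d, ψD.coeff d = if d < D then U.sharp (PowerSeries.coeff d ψ) else 0 := fun d => by
    rw [hψD, PowerSeries.coeff_trunc, tilde, PowerSeries.coeff_mk]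
  have hψDi : ∀ d, 0 ≤ U.v (ψD.coeff d) := fun d => by
    rw [hψDc]
    split_ifs
    · rw [U.v_sharp]; exact hψi d
    · simp
  set yN := U.sharp (powZ p W (-((h : ℤ) * N))) with hyN
  have hyN0 : 0 ≤ U.v yN := by rw [hyN, U.v_sharp]; exact ord_powZ_nonneg hW0 _
  have hψDz : 0 ≤ U.v (ψD.eval ζ) := by
    have := le_v_eval (U := U) (B := 0) (C₁ := 0) (D := 0) hαN0 hvζ
      (fun d hd => absurd hd (by omega)) (fun d => by simpa using hψDi d) (by simp)
    simpa using this
  have hclose_y : (δ : WithTop ℚ) ≤ U.v (yN - ψD.eval ζ) := by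
    set T : C p := ∑ i ∈ Finset.range D, PowerSeries.coeff i ψ * x N ^ i with hT
    have h1 : (δ : WithTop ℚ) ≤ ord (Uv N - T) := by
      have hs := hasSumC_eval₁ hψI (hxpos N)
      have hfin : HasSumC p (fun i : ℕ => if i < D then idC (PowerSeries.coeff i ψ) * x N ^ i else 0)
          T := by
        have := hasSumC_of_support_subset (p := p)
          (a := fun i : ℕ => if i < D then idC (PowerSeries.coeff i ψ) * x N ^ i else 0)
          (Finset.range D) (fun i hi => if_neg (by simpa using hi))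
        convert this using 1
        exact Finset.sum_congr rfl fun i hi => by rw [if_pos (Finset.mem_range.mp hi)]; rfl
      refine (hs.sub hfin).le_ord fun i => ?_
      show (δ : WithTop ℚ) ≤ ord (_ - _)
      split_ifs with hi
      · rw [sub_self, ord_zero]; exact le_top
      · rw [sub_zero, ord_mul, ord_pow]
        refine le_trans ?_ (le_add_of_nonneg_left (hψi i))
        refine le_trans ?_ (nsmul_le_nsmul_right hxα i)
        rw [← WithTop.coe_nsmul, WithTop.coe_le_coe, nsmul_eq_mul]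
        have h1 : (D : ℚ) * αN ≤ (i : ℚ) * αN :=
          mul_le_mul_of_nonneg_right (by exact_mod_cast not_lt.mp hi) hαN0
        linarith [hDα.2, Nat.cast_nonneg (α := ℚ) M]
    have h2 : (δ : WithTop ℚ) ≤ ord (powZ p W (-((h : ℤ) * N)) - T) := by
      rw [show powZ p W (-((h : ℤ) * N)) - T =
        (powZ p W (-((h : ℤ) * N)) - Uv N) + (Uv N - T) by ring]
      exact le_ord_add (hroot N) h1
    have hxO : x N ∈ OC p := (hxpos N).le
    have hUO : powZ p W (-((h : ℤ) * N)) ∈ OC p := ord_powZ_nonneg hW0 _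
    let a' : ℕ → OC p := fun i => ⟨PowerSeries.coeff i ψ, hψi i⟩
    let T' : OC p := ∑ i ∈ Finset.range D, a' i * ⟨x N, hxO⟩ ^ i
    have hT' : (T' : C p) = T := by simp [T', a', hT]
    have e := sQ_eq_of_close (U := U) hδ1 (x := ⟨_, hUO⟩) (y := T') (by rw [hT']; exact h2)
    rw [map_sum] at e
    simp only [map_mul, map_pow] at e
    let ζ' : OL U := ⟨ζ, by show 0 ≤ U.v _; rw [hζ, U.v_sharp]; exact (hxpos N).le⟩
    let b' : ℕ → OL U := fun i => ⟨U.sharp (PowerSeries.coeff i ψ), by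
      show 0 ≤ U.v _; rw [U.v_sharp]; exact hψi i⟩
    rw [sQ_eq_mk hδ1 ⟨x N, hxO⟩ ζ' rfl, sQ_eq_mk hδ1 ⟨_, hUO⟩ ⟨yN, hyN0⟩ rfl] at e
    simp only [fun i => sQ_eq_mk (U := U) hδ1 (a' i) (b' i) rfl] at e
    simp only [← map_pow, ← map_mul, ← map_sum] at e
    rw [mk_eq_mk] at e
    convert e using 3
    obtain ⟨D', hD'⟩ : ∃ D', D = D' + 1 := Nat.exists_eq_add_one.mpr (pow_pos hp.out.pos _)
    have hdeg : ψD.natDegree < D := by
      rw [hψD, hD']
      exact PowerSeries.natDegree_trunc_lt _ _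
    rw [Polynomial.eval_eq_sum_range' hdeg]
    simp only [AddSubmonoidClass.coe_finsetSum, Subring.coe_mul, SubmonoidClass.coe_pow]
    exact Finset.sum_congr rfl fun i hi => by
      rw [hψDc, if_pos (Finset.mem_range.mp hi)]
  -- the polynomial identity
  set Psi : Polynomial L :=
    ∑ j : Fin n, Polynomial.C (c j) * fserP p n M (Polynomial.X ^ p ^ (j : ℕ)) with hPsi
  have hXi : ∀ j d : ℕ, 0 ≤ U.v ((Polynomial.X ^ p ^ j : Polynomial L).coeff d) := fun j d => by
    rw [Polynomial.coeff_X_pow]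
    split_ifs <;> simp
  have hdiff : (Bf : WithTop ℚ) ≤ U.v ((fserP p h M ψD - Psi).eval ζ) := by
    refine le_v_eval (C₁ := C₀ - M) (D := D) hαN0 hvζ (fun d hd => ?_) (fun d => ?_) ?_
    · have hdh : d < p ^ ((M + 1) * h) := hd.trans_le (Nat.pow_le_pow_right hp.out.pos
        ((Nat.le_succ M).trans (Nat.le_mul_of_pos_right _ (by omega))))
      have hdn : d < p ^ ((M + 1) * n) := hd.trans_le (Nat.pow_le_pow_right hp.out.pos
        ((Nat.le_succ M).trans (Nat.le_mul_of_pos_right _ (by omega))))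
      refine le_trans (WithTop.coe_le_coe.2
        ((min_le_right _ _).trans (min_le_left _ _) : Bf ≤ BR)) ?_
      have h1 := hR (Finsupp.single () d)
      change _ ≤ U.v (PowerSeries.coeff d _) at h1
      rw [map_sub, map_sum] at h1
      rw [Polynomial.coeff_sub, hPsi, Polynomial.finsetSum_coeff,
        coeff_fserP_eq hh (constantCoeff_tilde hψ.1)
          (fun e he => by rw [hψDc, if_pos he, tilde, PowerSeries.coeff_mk]) hd hdh]
      convert h1 using 3
      refine Finset.sum_congr rfl fun j _ => ?_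
      rw [Polynomial.coeff_C_mul, PowerSeries.coeff_C_mul, twist,
        coeff_fserP_eq (A := (PowerSeries.X ^ p ^ (j : ℕ) : PowerSeries L)) hn (by
          rw [map_pow, PowerSeries.constantCoeff_X, zero_pow (pow_ne_zero _ hp.out.ne_zero)])
          (fun e _ => by rw [Polynomial.coeff_X_pow, PowerSeries.coeff_X_pow]) hd hdn]
    · rw [Polynomial.coeff_sub]
      refine AddValuation.map_le_sub _ ?_ ?_
      · exact le_trans (WithTop.coe_le_coe.2 (by linarith)) (coeff_fserP_ge hψDi h M d)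
      · rw [hPsi, Polynomial.finsetSum_coeff]
        refine AddValuation.map_le_sum _ fun j _ => ?_
        rw [Polynomial.coeff_C_mul, AddValuation.map_mul, sub_eq_add_neg, WithTop.coe_add]
        exact add_le_add (hC₀ j) (coeff_fserP_ge (hXi _) n M d)
    · have hb : Bf ≤ 0 := (min_le_right _ _).trans (min_le_right _ _)
      linarith [hDα.1]
  have hmain : (Bf : WithTop ℚ) ≤ U.v (Sharp.fser p h M yN -
      ∑ j : Fin n, c j * Sharp.fser p n M (ζ ^ p ^ (j : ℕ))) := by
    have e : (fserP p h M ψD - Psi).eval ζ = Sharp.fser p h M (ψD.eval ζ) -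
        ∑ j : Fin n, c j * Sharp.fser p n M (ζ ^ p ^ (j : ℕ)) := by
      rw [Polynomial.eval_sub, eval_fserP, hPsi, Polynomial.eval_finsetSum]
      simp only [Polynomial.eval_mul, Polynomial.eval_C, eval_fserP, Polynomial.eval_pow,
        Polynomial.eval_X]
    rw [e] at hdiff
    rw [show Sharp.fser p h M yN - ∑ j : Fin n, c j * Sharp.fser p n M (ζ ^ p ^ (j : ℕ)) =
      (Sharp.fser p h M yN - Sharp.fser p h M (ψD.eval ζ)) + (Sharp.fser p h M (ψD.eval ζ) -
        ∑ j : Fin n, c j * Sharp.fser p n M (ζ ^ p ^ (j : ℕ))) by ring]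
    exact AddValuation.map_le_add _ (le_trans (WithTop.coe_le_coe.2 (min_le_left _ _))
      (hK h hh M _ _ hyN0 hψDz hclose_y)) hdiff
  have hζj : ∀ j : Fin n, ζ ^ p ^ (j : ℕ) =
      U.sharp (powZ p (powZ p V ((j : ℕ) : ℤ)) (-((n : ℤ) * N))) := fun j => by
    rw [hζ, ← map_pow, ← powZ_natCast, hx, powZ_powZ, powZ_powZ, add_comm]
  have h1 := hN₁ N ((le_max_left _ _).trans (le_max_left _ _)) M hMN
  have h2 : ∀ j : Fin n, (B : WithTop ℚ) < U.v (c j * z j -
      (p : L) ^ N * (c j * Sharp.fser p n M (ζ ^ p ^ (j : ℕ)))) := fun j => by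
    have h3 := hN₂ j N (((Finset.le_sup (Finset.mem_univ j)).trans (le_max_right _ _)).trans
      (le_max_left _ _)) M hMN
    rw [mul_left_comm, ← mul_sub, AddValuation.map_mul, hζj]
    refine lt_of_lt_of_le ?_ (add_le_add (hC₀ j) le_rfl)
    generalize U.v (z j - (p : L) ^ N *
      Sharp.fser p n M (U.sharp (powZ p (powZ p V ((j : ℕ) : ℤ)) (-((n : ℤ) * N))))) = e at h3
    cases e with
    | top => exact WithTop.coe_lt_top _
    | coe r =>
      rw [← WithTop.coe_add, WithTop.coe_lt_coe]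
      rw [WithTop.coe_lt_coe] at h3
      linarith
  have h4 : (B : WithTop ℚ) < U.v ((p : L) ^ N * (Sharp.fser p h M yN -
      ∑ j : Fin n, c j * Sharp.fser p n M (ζ ^ p ^ (j : ℕ)))) := by
    rw [AddValuation.map_mul, Sharp.v_p_pow]
    refine lt_of_lt_of_le ?_ (add_le_add le_rfl hmain)
    rw [← WithTop.coe_add, WithTop.coe_lt_coe]
    have : (N₄ : ℚ) ≤ N := by exact_mod_cast (le_max_right _ _).trans (le_max_right _ _)
    linarith
  have h5 : (B : WithTop ℚ) < U.v (∑ j : Fin n,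
      (c j * z j - (p : L) ^ N * (c j * Sharp.fser p n M (ζ ^ p ^ (j : ℕ))))) :=
    AddValuation.map_lt_sum' _ (WithTop.coe_lt_top _) fun j _ => h2 j
  rw [show y - ∑ j, c j * z j = (y - (p : L) ^ N * Sharp.fser p h M yN) +
    (p : L) ^ N * (Sharp.fser p h M yN - ∑ j : Fin n, c j * Sharp.fser p n M (ζ ^ p ^ (j : ℕ))) -
    ∑ j : Fin n, (c j * z j - (p : L) ^ N * (c j * Sharp.fser p n M (ζ ^ p ^ (j : ℕ)))) by
      rw [Finset.sum_sub_distrib, ← Finset.mul_sum]; ring]
  exact (lt_min ((lt_min h1 h4).trans_le (AddValuation.map_add _ _ _)) h5).trans_le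
    (AddValuation.map_sub _ _ _)

end

end Vale.Agent.P217.Linear

namespace Vale.Agent.P217

/-- Linearisation of homomorphisms to the Honda law of height `h`. -/
theorem linearStatement (p : ℕ) [Fact p.Prime] : LinearStatement p :=
  fun _ _ _ _ _ hh hn _ _ hΓ hH _ _ hε hint hclose hclosep _ hψi hψ =>
    Linear.linear hh hn hΓ hH hε hint hclose hclosep hψi hψ

end Vale.Agent.P217
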