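import Vale.Agent.P217.Point

/-!
P217, module M4: points of characteristic zero.
-/

namespace Vale.Agent.P217

noncomputable section

open Ideal IsLocalRing

variable (p n : ℕ) [Fact p.Prime]

theorem norm_le_one_of_monic {R : Type*} [CommRing R] (c : R →+* ℂ_[p]) (hc : ∀ r, ‖c r‖ ≤ 1)
    {P : Polynomial R} (hP : P.Monic) {y : ℂ_[p]} (hy : P.eval₂ c y = 0) : ‖y‖ ≤ 1 := by
  by_contra hlt
  rw [not_le] at hlt
  rw [Polynomial.eval₂_eq_sum_range, Finset.sum_range_succ,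
    show P.coeff P.natDegree = 1 from hP, map_one, one_mul, add_eq_zero_iff_eq_neg'] at hy
  have h0 : 0 < ‖y ^ P.natDegree‖ := by
    rw [norm_pow]
    positivity
  have key : ‖∑ i ∈ Finset.range P.natDegree, c (P.coeff i) * y ^ i‖ < ‖y ^ P.natDegree‖ := by
    rcases (Finset.range P.natDegree).eq_empty_or_nonempty with h | h
    · simpa [h] using h0
    · obtain ⟨i, hi, hle⟩ := IsUltrametricDist.exists_norm_finsetSum_le_of_nonempty h
        (fun i => c (P.coeff i) * y ^ i)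
      refine hle.trans_lt ?_
      rw [norm_mul, norm_pow, norm_pow]
      calc ‖c (P.coeff i)‖ * ‖y‖ ^ i ≤ 1 * ‖y‖ ^ i :=
            mul_le_mul_of_nonneg_right (hc _) (pow_nonneg (norm_nonneg _) _)
        _ = ‖y‖ ^ i := one_mul _
        _ < ‖y‖ ^ P.natDegree := pow_lt_pow_right₀ hlt (Finset.mem_range.mp hi)
  rw [hy, norm_neg] at key
  exact lt_irrefl _ key

/-- The structure map `ℤ_[p] → ℂ_[p]`. -/
def toCp : ℤ_[p] →+* ℂ_[p] := (algebraMap ℚ_[p] ℂ_[p]).comp PadicInt.Coe.ringHom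

theorem toCp_injective : Function.Injective (toCp p) := by
  intro a b h
  have h' : algebraMap ℚ_[p] ℂ_[p] a = algebraMap ℚ_[p] ℂ_[p] b := h
  exact PadicInt.ext ((algebraMap ℚ_[p] ℂ_[p]).injective h')

theorem norm_toCp_le_one (r : ℤ_[p]) : ‖toCp p r‖ ≤ 1 := by
  have h : ‖toCp p r‖ = ‖(r : ℚ_[p])‖ := PadicComplex.norm_extends' p r
  rw [h]
  exact r.norm_le_one

theorem precomplete_padicInt : IsPrecomplete (span {(p : ℤ_[p])}) ℤ_[p] := by
  have h : IsAdicComplete (maximalIdeal ℤ_[p]) ℤ_[p] := inferInstance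
  rw [PadicInt.maximalIdeal_eq_span_p] at h
  exact h.toIsPrecomplete

/-- A domain finite over `ℤ_[p]` maps to `ℂ_[p]`. -/
theorem exists_hom_zero {A : Type*} [CommRing A] [IsDomain A] (alg : ℤ_[p] →+* A)
    (hp0 : (p : A) ≠ 0) (hfin : Finite (A ⧸ span {(p : A)}))
    (hH : ⨅ k : ℕ, span {(p : A)} ^ k = ⊥) :
    ∃ φ : A →+* ℂ_[p], ∀ a, ‖φ a‖ ≤ 1 := by
  let _ : Algebra ℤ_[p] A := alg.toAlgebra
  have hinj : Function.Injective (algebraMap ℤ_[p] A) := by
    rw [injective_iff_map_eq_zero]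
    intro x hx
    by_contra hx0
    rw [PadicInt.unitCoeff_spec hx0, map_mul, map_pow, map_natCast] at hx
    rcases mul_eq_zero.mp hx with h | h
    · exact ((PadicInt.unitCoeff hx0).isUnit.map _).ne_zero h
    · exact hp0 (eq_zero_of_pow_eq_zero h)
  have := precomplete_padicInt p
  have : Module.Finite ℤ_[p] A :=
    moduleFinite_of_finite_quotient _ (p : ℤ_[p]) (by rw [map_natCast]; exact hH)
      (by rw [map_natCast]; exact hfin)
  let _ : Algebra ℤ_[p] ℂ_[p] := (toCp p).toAlgebra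
  have : Module.IsTorsionFree ℤ_[p] ℂ_[p] :=
    Module.isTorsionFree_iff_algebraMap_injective.mpr (toCp_injective p)
  have : Module.IsTorsionFree ℤ_[p] A := Module.isTorsionFree_iff_algebraMap_injective.mpr hinj
  have : Algebra.IsIntegral ℤ_[p] A := Algebra.IsIntegral.of_finite _ _
  let φ : A →ₐ[ℤ_[p]] ℂ_[p] := IsAlgClosed.lift
  refine ⟨φ.toRingHom, fun a => ?_⟩
  obtain ⟨P, hP, hPe⟩ := Algebra.IsIntegral.isIntegral (R := ℤ_[p]) a
  refine norm_le_one_of_monic p (toCp p) (norm_toCp_le_one p) hP ?_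
  have h0 := congrArg φ.toRingHom hPe
  have e : φ.toRingHom.comp (algebraMap ℤ_[p] A) = toCp p := φ.comp_algebraMap
  rw [Polynomial.hom_eval₂, map_zero, e] at h0
  exact h0

theorem norm_natCast_p_lt_one : ‖(p : ℂ_[p])‖ < 1 := by
  rw [← map_natCast (algebraMap ℚ_[p] ℂ_[p])]
  refine lt_of_eq_of_lt (PadicComplex.norm_extends' p (p : ℚ_[p])) ?_
  exact Padic.norm_p_lt_one

/-- M4: a point of characteristic zero. -/
theorem pointZeroStatement : PointZeroStatement p n := by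
  intro J hJ hpJ
  obtain ⟨Q, hQ, hJQ, hpQ, hpow, hfin, hH⟩ :=
    exists_curve p n hJ hpJ (natCast_p_mem_maximal p n)
  have := hQ
  rw [map_natCast] at hfin hH
  let zW : ℤ_[p] →+* W p n :=
    (WittVector.map (algebraMap (ZMod p) (K p n))).comp (WittVector.equiv p).symm.toRingHom
  have hp0 : ((p : ℕ) : E p n ⧸ Q) ≠ 0 := by
    rw [← map_natCast (Ideal.Quotient.mk Q)]
    exact mt Ideal.Quotient.eq_zero_iff_mem.mp hpQ
  obtain ⟨φ, hφ⟩ := exists_hom_zero p
    ((Ideal.Quotient.mk Q).comp ((MvPowerSeries.C : W p n →+* E p n).comp zW)) hp0 hfin hH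
  refine ⟨φ.comp (Ideal.Quotient.mk Q), fun e => hφ _, fun j => ?_, fun e he => ?_⟩
  · obtain ⟨N, hN, hmem⟩ := hpow j
    obtain ⟨a, ha, b, hb, hab⟩ := Submodule.mem_sup.mp hmem
    obtain ⟨c, rfl⟩ := mem_span_singleton.mp hb
    have hx : φ (Ideal.Quotient.mk Q (u p n j)) ^ N =
        (p : ℂ_[p]) * φ (Ideal.Quotient.mk Q c) := by
      rw [← map_pow, ← map_pow, ← hab, map_add, map_mul, map_natCast,
        Ideal.Quotient.eq_zero_iff_mem.mpr ha, zero_add, map_mul, map_natCast]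
    rw [RingHom.comp_apply]
    by_contra hle
    rw [not_lt] at hle
    have h1 : 1 ≤ ‖φ (Ideal.Quotient.mk Q (u p n j)) ^ N‖ := by
      rw [norm_pow]
      exact one_le_pow₀ hle
    rw [hx, norm_mul] at h1
    have := mul_le_of_le_one_right (norm_nonneg (p : ℂ_[p])) (hφ (Ideal.Quotient.mk Q c))
    linarith [norm_natCast_p_lt_one p]
  · simp [Ideal.Quotient.eq_zero_iff_mem.mpr (hJQ he)]

end

end Vale.Agent.P217
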